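import Vale.Agent.P195.Weyl.Basic
import Mathlib.Tactic.Module
import Mathlib.Tactic.LinearCombination

/-!
P195: families of coefficients indexed by exponents (polynomials with coefficients in a module),
the two derivatives and the two multiplications on them, and the Clebsch-Gordan identification of
forms of degrees `j + 1` and `j - 1` with pairs of forms of degree `j`.
-/

noncomputable section

namespace Vale.Agent.P195.Exact

open Finsupp
open Vale.Agent.P195.Weyl (Exp degree_two degree_sub_single)

variable {M N : Type*} [AddCommGroup M] [Module ℂ M] [AddCommGroup N] [Module ℂ N]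

/-- Families supported in degree `j`. -/
def forms (M : Type*) [AddCommGroup M] [Module ℂ M] (j : ℕ) : Submodule ℂ (Exp → M) where
  carrier := {U | ∀ p : Exp, p.degree ≠ j → U p = 0}
  add_mem' hU hV p hp := by rw [Pi.add_apply, hU p hp, hV p hp, add_zero]
  zero_mem' _ _ := rfl
  smul_mem' c U hU p hp := by rw [Pi.smul_apply, hU p hp, smul_zero]

/-- Derivative of a family. -/
def dd (a : Fin 2) : (Exp → M) →ₗ[ℂ] (Exp → M) where
  toFun U p := ((p a : ℂ) + 1) • U (p + single a 1)
  map_add' U V := funext fun p => smul_add _ _ _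
  map_smul' c U := funext fun p => smul_comm _ c _

/-- Multiplication of a family by a variable. -/
def xx (a : Fin 2) : (Exp → M) →ₗ[ℂ] (Exp → M) where
  toFun U p := if p a = 0 then 0 else U (p - single a 1)
  map_add' U V := funext fun p => by simp only [Pi.add_apply]; split_ifs <;> simp
  map_smul' c U := funext fun p => by
    simp only [Pi.smul_apply, RingHom.id_apply]; split_ifs <;> simp

theorem dd_apply (a : Fin 2) (U : Exp → M) (p : Exp) :
    dd a U p = ((p a : ℂ) + 1) • U (p + single a 1) := rfl

theorem xx_apply (a : Fin 2) (U : Exp → M) (p : Exp) :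
    xx a U p = if p a = 0 then 0 else U (p - single a 1) := rfl

/-- Apply a linear map to every coefficient. -/
def mapc (f : M →ₗ[ℂ] N) : (Exp → M) →ₗ[ℂ] (Exp → N) where
  toFun U p := f (U p)
  map_add' U V := funext fun p => map_add f _ _
  map_smul' c U := funext fun p => map_smul f c _

theorem mapc_apply (f : M →ₗ[ℂ] N) (U : Exp → M) (p : Exp) : mapc f U p = f (U p) := rfl

theorem mapc_dd (f : M →ₗ[ℂ] N) (a : Fin 2) (U : Exp → M) : mapc f (dd a U) = dd a (mapc f U) :=
  funext fun p => by rw [mapc_apply, dd_apply, map_smul, dd_apply, mapc_apply]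

theorem mapc_xx (f : M →ₗ[ℂ] N) (a : Fin 2) (U : Exp → M) : mapc f (xx a U) = xx a (mapc f U) :=
  funext fun p => by simp only [mapc_apply, xx_apply]; split_ifs <;> simp

theorem mapc_mem (f : M →ₗ[ℂ] N) {j : ℕ} {U : Exp → M} (hU : U ∈ forms M j) :
    mapc f U ∈ forms N j := fun p hp => by rw [mapc_apply, hU p hp, map_zero]

theorem dd_mem (a : Fin 2) {j : ℕ} {U : Exp → M} (hU : U ∈ forms M (j + 1)) :
    dd a U ∈ forms M j := fun p hp => by
  rw [dd_apply, hU _ (by rw [map_add, degree_single]; omega), smul_zero]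

theorem xx_mem (a : Fin 2) {j : ℕ} {U : Exp → M} (hU : U ∈ forms M j) :
    xx a U ∈ forms M (j + 1) := fun p hp => by
  rw [xx_apply]
  split_ifs with h
  · rfl
  · exact hU _ (by have := degree_sub_single h; omega)

theorem dd_xx_self (a : Fin 2) (U : Exp → M) : dd a (xx a U) = xx a (dd a U) + U := by
  funext p
  simp only [dd_apply, xx_apply, Pi.add_apply]
  rw [if_neg (by simp), add_tsub_cancel_right]
  split_ifs with h
  · simp [h]
  · have e : p - single a 1 + single a 1 = p :=
      tsub_add_cancel_of_le (Finsupp.single_le_iff.2 (Nat.one_le_iff_ne_zero.2 h))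
    rw [e]
    have h2 : ((p - single a 1 : Exp) a) + 1 = p a := by simp; omega
    have : ((p - single a 1 : Exp) a : ℂ) + 1 = p a := by exact_mod_cast h2
    rw [this, add_smul, one_smul]

theorem dd_xx_ne {a b : Fin 2} (h : a ≠ b) (U : Exp → M) : dd a (xx b U) = xx b (dd a U) := by
  funext p
  simp only [dd_apply, xx_apply, Finsupp.add_apply, Finsupp.single_eq_of_ne h.symm, add_zero]
  split_ifs with hb
  · simp
  · rw [Finsupp.tsub_apply, Finsupp.single_eq_of_ne h, tsub_zero]
    congr 2
    ext i
    rcases eq_or_ne i b with rfl | hi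
    · simp [Finsupp.single_eq_of_ne h.symm]
    · simp [Finsupp.single_eq_of_ne hi]

theorem dd_comm (a b : Fin 2) (U : Exp → M) : dd a (dd b U) = dd b (dd a U) := by
  funext p
  rcases eq_or_ne a b with rfl | h
  · rfl
  · simp only [dd_apply, Finsupp.add_apply, Finsupp.single_eq_of_ne h,
      Finsupp.single_eq_of_ne h.symm, add_zero, smul_smul]
    rw [mul_comm, add_right_comm]

theorem xx_comm (a b : Fin 2) (U : Exp → M) : xx a (xx b U) = xx b (xx a U) := by
  funext p
  rcases eq_or_ne a b with rfl | h
  · rfl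
  · simp only [xx_apply, Finsupp.tsub_apply, Finsupp.single_eq_of_ne h,
      Finsupp.single_eq_of_ne h.symm, tsub_zero]
    split_ifs <;> first | rfl | rw [tsub_right_comm]

theorem euler_forms {j : ℕ} {U : Exp → M} (hU : U ∈ forms M j) :
    xx 0 (dd 0 U) + xx 1 (dd 1 U) = (j : ℂ) • U := by
  funext p
  have key : ∀ a : Fin 2, xx a (dd a U) p = (p a : ℂ) • U p := fun a => by
    rw [xx_apply]
    split_ifs with h
    · simp [h]
    · have e : p - single a 1 + single a 1 = p :=
        tsub_add_cancel_of_le (Finsupp.single_le_iff.2 (Nat.one_le_iff_ne_zero.2 h))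
      have h2 : ((p - single a 1 : Exp) a) + 1 = p a := by simp; omega
      have h3 : ((p - single a 1 : Exp) a : ℂ) + 1 = p a := by exact_mod_cast h2
      rw [dd_apply, e, h3]
  rw [Pi.add_apply, key, key, Pi.smul_apply, ← add_smul, ← Nat.cast_add, ← degree_two]
  by_cases hp : p.degree = j
  · rw [hp]
  · rw [hU p hp, smul_zero, smul_zero]

/-- Pairs of forms from a form one degree up and a form one degree down. -/
def pairUp (q t : Exp → M) : Fin 2 → Exp → M := ![dd 0 q + xx 1 t, dd 1 q - xx 0 t]

theorem xx_pairUp {j : ℕ} {q : Exp → M} (hq : q ∈ forms M (j + 1)) (t : Exp → M) :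
    xx 0 (pairUp q t 0) + xx 1 (pairUp q t 1) = ((j : ℂ) + 1) • q := by
  have := euler_forms hq
  push_cast at this
  simp [pairUp, map_add, map_sub, xx_comm 1 0 t]
  linear_combination (norm := module) this

theorem dd_pairUp {i : ℕ} (q : Exp → M) {t : Exp → M} (ht : t ∈ forms M i) :
    dd 1 (pairUp q t 0) - dd 0 (pairUp q t 1) = ((i : ℂ) + 2) • t := by
  have := euler_forms ht
  simp [pairUp, map_add, map_sub, dd_comm 1 0 q, dd_xx_self]
  linear_combination (norm := module) this

/-- Every pair of forms of degree `i + 1` comes from unique forms of degrees `i + 2` and `i`. -/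
theorem exists_pairUp {i : ℕ} {u : Fin 2 → Exp → M} (hu : ∀ a, u a ∈ forms M (i + 1)) :
    ∃ q t, q ∈ forms M (i + 2) ∧ t ∈ forms M i ∧ pairUp q t = u := by
  refine ⟨((i : ℂ) + 2)⁻¹ • (xx 0 (u 0) + xx 1 (u 1)),
    ((i : ℂ) + 2)⁻¹ • (dd 1 (u 0) - dd 0 (u 1)),
    Submodule.smul_mem _ _ (add_mem (xx_mem 0 (hu 0)) (xx_mem 1 (hu 1))),
    Submodule.smul_mem _ _ (sub_mem (dd_mem 1 (hu 0)) (dd_mem 0 (hu 1))), ?_⟩
  have hc : ((i : ℂ) + 2) ≠ 0 := by exact_mod_cast (show i + 2 ≠ 0 by omega)
  have e0 := euler_forms (hu 0)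
  have e1 := euler_forms (hu 1)
  funext a
  apply smul_right_injective (Exp → M) hc
  fin_cases a
  · simp [pairUp, map_add, map_sub, smul_smul, mul_inv_cancel₀ hc, smul_add, smul_sub,
      dd_xx_self, dd_xx_ne (show (0 : Fin 2) ≠ 1 by decide)]
    push_cast at e0
    linear_combination (norm := module) e0
  · simp [pairUp, map_add, map_sub, smul_smul, mul_inv_cancel₀ hc, smul_add, smul_sub,
      dd_xx_self, dd_xx_ne (show (1 : Fin 2) ≠ 0 by decide)]
    push_cast at e1
    linear_combination (norm := module) e1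

end Vale.Agent.P195.Exact
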