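import Vale.Agent.P195.Exact.Spinor
import Vale.Agent.P195.Exact.Coeff

/-!
P195: the resolution of the forms of degree `j`, written on rows of operators with coefficient
families as multiplicities, and the symbols of its differentials.
-/

noncomputable section

namespace Vale.Agent.P195.Exact

open MvPolynomial
open Vale.Agent.P195.Weyl
open Vale.Agent.P195.Orbit

/-- Right multiplication of every coefficient. -/
def rm {K : Type*} [Semiring K] [Algebra ℂ K] [IsScalarTower ℂ K K] (a : K) :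
    (Exp → K) → (Exp → K) := fun U p => U p * a

theorem rm_apply {K : Type*} [Semiring K] [Algebra ℂ K] (a : K) (U : Exp → K) (p : Exp) :
    rm a U p = U p * a := rfl

/-- Families of operators with all coefficients in a submodule. -/
def valued {K : Type*} [AddCommGroup K] [Module ℂ K] (S : Submodule ℂ K) :
    Submodule ℂ (Exp → K) := Submodule.pi Set.univ fun _ => S

theorem mem_valued {K : Type*} [AddCommGroup K] [Module ℂ K] {S : Submodule ℂ K} {U : Exp → K} :
    U ∈ valued S ↔ ∀ p, U p ∈ S := by simp [valued, Submodule.mem_pi]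

theorem valued_dd {K : Type*} [AddCommGroup K] [Module ℂ K] {S : Submodule ℂ K} {U : Exp → K}
    (a : Fin 2) (h : U ∈ valued S) : dd a U ∈ valued S :=
  mem_valued.2 fun p => Submodule.smul_mem _ _ (mem_valued.1 h _)

theorem valued_xx {K : Type*} [AddCommGroup K] [Module ℂ K] {S : Submodule ℂ K} {U : Exp → K}
    (a : Fin 2) (h : U ∈ valued S) : xx a U ∈ valued S :=
  mem_valued.2 fun p => by
    rw [xx_apply]
    split_ifs
    · exact zero_mem _
    · exact mem_valued.1 h _

/-- Forms of one degree less, none below degree zero. -/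
def down (K : Type*) [AddCommGroup K] [Module ℂ K] (j : ℕ) : Submodule ℂ (Exp → K) :=
  if j = 0 then ⊥ else forms K (j - 1)

theorem down_succ (K : Type*) [AddCommGroup K] [Module ℂ K] (i : ℕ) :
    down K (i + 1) = forms K i := by simp [down]

theorem down_zero (K : Type*) [AddCommGroup K] [Module ℂ K] : down K 0 = ⊥ := by simp [down]

theorem neg_mul_op (a b : Op) : (-a) * b = -(a * b) :=
  LinearMap.ext fun f => by simp [Module.End.mul_apply]

variable (j : ℕ)

/-- The first differential on coefficient families. -/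
def D₁ (H : Fin 2 → Fin 2 → Exp → Op) : Exp → Op :=
  ∑ i, ∑ k, (rm (x i * d k) (H i k) - xx i (dd k (H i k)))

/-- The contraction of a variable spinor with coefficients. -/
def cX (s : Fin 2 → Exp → Op) : Exp → Op := rm (x 1) (s 0) - rm (x 0) (s 1)

/-- The contraction of a derivative spinor with coefficients. -/
def cD (r : Fin 2 → Exp → Op) : Exp → Op := rm (d 1) (r 0) - rm (d 0) (r 1)

/-- The rotated pair of derivatives. -/
def dRot : Fin 2 → Op := ![d 1, -d 0]

/-- The rotated pair of variables. -/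
def xRot : Fin 2 → Op := ![x 1, -x 0]

/-- The second differential on the variable spinors. -/
def D₂X (s : Fin 2 → Exp → Op) : Fin 2 → Fin 2 → Exp → Op := fun i k =>
  rm (dRot k) (dd i (cX s)) - ((j : ℂ) + 1) • dd i (s k) +
    if i = k then ((j : ℂ) + 1) • ∑ l, dd l (s l) else 0

/-- The second differential on the derivative spinors. -/
def D₂D (r : Fin 2 → Exp → Op) : Fin 2 → Fin 2 → Exp → Op := fun i k =>
  rm (xRot i) (xx k (cD r)) - ((j : ℂ) + 1) • xx k (r i) +
    if i = k then ((j : ℂ) + 1) • ∑ l, xx l (r l) else 0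

/-- The last differential into the variable spinors. -/
def D₃X (G : Exp → Op) : Fin 2 → Exp → Op := fun l =>
  -(∑ m, rm (x l * d m) (xx m G)) + (j : ℂ) • xx l G

/-- The last differential into the derivative spinors. -/
def D₃D (G : Exp → Op) : Fin 2 → Exp → Op := fun l =>
  (∑ m, rm (x m * d l) (dd m G)) - ((j : ℂ) + 1) • dd l G

/-- Symbols of all coefficients. -/
def sy₀ (N : ℕ) : (Exp → Op) →ₗ[ℂ] (Exp → Sym) := mapc (symb N)

theorem sy₀_apply (N : ℕ) (U : Exp → Op) (p : Exp) : sy₀ N U p = symb N (U p) := rfl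

theorem cX_apply (s : Fin 2 → Exp → Op) (p : Exp) : cX s p = conX (s 0 p, s 1 p) := rfl

theorem cD_apply (r : Fin 2 → Exp → Op) (p : Exp) : cD r p = conD (r 0 p, r 1 p) := rfl

/-- Variable spinors with coefficients, of weight `w` and level `n`. -/
def MemX (w n : ℤ) (s : Fin 2 → Exp → Op) : Prop := ∀ p, (s 0 p, s 1 p) ∈ latX w n

/-- Derivative spinors with coefficients, of weight `w` and level `n`. -/
def MemD (w n : ℤ) (r : Fin 2 → Exp → Op) : Prop := ∀ p, (r 0 p, r 1 p) ∈ latD w n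

theorem MemX.entry {w n : ℤ} {s : Fin 2 → Exp → Op} (h : MemX w n s) (l : Fin 2) :
    s l ∈ valued (fil w (n + 1)) :=
  mem_valued.2 fun p => by fin_cases l; exacts [(latX_bounds (h p)).1, (latX_bounds (h p)).2.1]

theorem MemX.con {w n : ℤ} {s : Fin 2 → Exp → Op} (h : MemX w n s) :
    cX s ∈ valued (fil (w + 1) n) := mem_valued.2 fun p => (latX_bounds (h p)).2.2

theorem MemD.entry {w n : ℤ} {r : Fin 2 → Exp → Op} (h : MemD w n r) (l : Fin 2) :
    r l ∈ valued (fil w (n + 1)) :=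
  mem_valued.2 fun p => by fin_cases l; exacts [(latD_bounds (h p)).1, (latD_bounds (h p)).2.1]

theorem MemD.con {w n : ℤ} {r : Fin 2 → Exp → Op} (h : MemD w n r) :
    cD r ∈ valued (fil (w - 1) (n + 1)) := mem_valued.2 fun p => (latD_bounds (h p)).2.2

theorem rm_x_mem {w n : ℤ} {U : Exp → Op} (h : U ∈ valued (fil w n)) (a : Fin 2) :
    rm (x a) U ∈ valued (fil (w + 1) n) :=
  mem_valued.2 fun p => mul_x_mem (mem_valued.1 h p) a

theorem rm_d_mem {w n : ℤ} {U : Exp → Op} (h : U ∈ valued (fil w n)) (a : Fin 2) :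
    rm (d a) U ∈ valued (fil (w - 1) (n + 1)) :=
  mem_valued.2 fun p => mul_d_mem (mem_valued.1 h p) a

theorem xd_mem (i k : Fin 2) : x i * d k ∈ fil 0 1 := by
  have h := mul_d_mem (x_mem i (le_refl (0 : ℤ))) k
  rwa [sub_self, zero_add] at h

theorem symb_xd (i k : Fin 2) : symb 1 (x i * d k) = X (.inl i) * X (.inr k) := by
  rw [symb_mul_d (x_mem i le_rfl) k, symb_x]

theorem sy₀_rm_x {w : ℤ} {N : ℕ} {U : Exp → Op} (h : U ∈ valued (fil w N)) (a : Fin 2) :
    sy₀ N (rm (x a) U) = rm (X (.inl a)) (sy₀ N U) :=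
  funext fun p => symb_mul_x (mem_valued.1 h p) a

theorem sy₀_rm_d {w : ℤ} {N : ℕ} {U : Exp → Op} (h : U ∈ valued (fil w N)) (a : Fin 2) :
    sy₀ (N + 1) (rm (d a) U) = rm (X (.inr a)) (sy₀ N U) :=
  funext fun p => symb_mul_d (mem_valued.1 h p) a

theorem sy₀_low {w k : ℤ} {N : ℕ} {U : Exp → Op} (h : U ∈ valued (fil w k)) (hk : k < N) :
    sy₀ N U = 0 := funext fun p => symb_eq_zero_of_lt (mem_valued.1 h p) hk

/-- The symbol of a coefficient family lies in its bidegree. -/
theorem sy₀_R {w k : ℤ} {N : ℕ} {U : Exp → Op} (h : U ∈ valued (fil w k)) :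
    sy₀ N U ∈ valued (Binary.R (w + N) (N : ℤ)) :=
  mem_valued.2 fun p => symb_R (mem_valued.1 h p)

/-- Products with the first variables of a syzygy. -/
def kx : Fin 2 → Sym := ![X (.inl 1), -X (.inl 0)]

/-- Products with the second variables of a syzygy. -/
def ky : Fin 2 → Sym := ![X (.inr 1), -X (.inr 0)]

/-- The first family of Clebsch-Gordan components of a second-stage symbol. -/
def compA (C Ψ : Exp → Sym) : Fin 2 → Exp → Sym := pairUp C (((j : ℂ) + 1) • Ψ)

/-- The second family of Clebsch-Gordan components of a second-stage symbol. -/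
def compB (Φ Γ : Exp → Sym) : Fin 2 → Exp → Sym :=
  ![pairUp (((j : ℂ) + 1) • Φ) (-Γ) 1, -pairUp (((j : ℂ) + 1) • Φ) (-Γ) 0]

theorem sy₀_rm_dRot {w : ℤ} {n : ℕ} {U : Exp → Op} (h : U ∈ valued (fil w n)) (k : Fin 2) :
    sy₀ (n + 1) (rm (dRot k) U) = rm (ky k) (sy₀ n U) := by
  fin_cases k
  · exact sy₀_rm_d h 1
  · show sy₀ (n + 1) (rm (-d 0) U) = rm (-X (.inr 0)) (sy₀ n U)
    have e : rm (-d 0) U = -rm (d 0) U :=
      funext fun p => LinearMap.ext fun f => by simp [rm_apply, Module.End.mul_apply]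
    rw [e, map_neg, sy₀_rm_d h 0]
    exact funext fun p => by simp [rm_apply]

theorem sy₀_rm_xRot {w : ℤ} {n : ℕ} {U : Exp → Op} (h : U ∈ valued (fil w n)) (k : Fin 2) :
    sy₀ n (rm (xRot k) U) = rm (kx k) (sy₀ n U) := by
  fin_cases k
  · exact sy₀_rm_x h 1
  · show sy₀ n (rm (-x 0) U) = rm (-X (.inl 0)) (sy₀ n U)
    have e : rm (-x 0) U = -rm (x 0) U :=
      funext fun p => LinearMap.ext fun f => by simp [rm_apply, Module.End.mul_apply]
    rw [e, map_neg, sy₀_rm_x h 0]
    exact funext fun p => by simp [rm_apply]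

/-- The symbol of the second differential. -/
theorem sy₀_D₂ {w : ℤ} {n : ℕ} {s r : Fin 2 → Exp → Op} (hs : MemX w n s) (hr : MemD w n r)
    {Φ Ψ : Exp → Sym} (hΦ : ∀ l, sy₀ (n + 1) (s l) = rm (X (.inl l)) Φ)
    (hΨ : ∀ l, sy₀ (n + 1) (r l) = rm (X (.inr l)) Ψ) (i k : Fin 2) :
    sy₀ (n + 1) (D₂X j s i k + D₂D j r i k) =
      rm (ky k) (compA j (sy₀ n (cX s)) Ψ i) + rm (kx i) (compB j Φ (sy₀ (n + 1) (cD r)) k) := by
  have c1 : dd i (cX s) ∈ valued (fil (w + 1) n) := valued_dd i hs.con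
  have c2 : xx k (cD r) ∈ valued (fil (w - 1) ((n + 1 : ℕ) : ℤ)) := by
    push_cast
    exact valued_xx k hr.con
  have e1 : sy₀ (n + 1) (rm (dRot k) (dd i (cX s))) = rm (ky k) (dd i (sy₀ n (cX s))) := by
    rw [sy₀_rm_dRot c1 k]
    exact congrArg _ (mapc_dd _ _ _)
  have e2 : sy₀ (n + 1) (rm (xRot i) (xx k (cD r))) =
      rm (kx i) (xx k (sy₀ (n + 1) (cD r))) := by
    rw [sy₀_rm_xRot c2 i]
    exact congrArg _ (mapc_xx _ _ _)
  have eS : ∀ a l, sy₀ (n + 1) (dd a (s l)) = dd a (rm (X (.inl l)) Φ) := fun a l => by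
    rw [← hΦ l]; exact mapc_dd _ _ _
  have eR : ∀ a l, sy₀ (n + 1) (xx a (r l)) = xx a (rm (X (.inr l)) Ψ) := fun a l => by
    rw [← hΨ l]; exact mapc_xx _ _ _
  unfold D₂X D₂D
  rw [map_add, map_add, map_add, map_sub, map_sub, map_smul, map_smul, e1, e2, eS, eR]
  fin_cases i <;> fin_cases k <;>
    simp [eS, eR, Fin.sum_univ_two, compA, compB, pairUp] <;> funext p <;>
    simp [rm_apply, kx, ky, dd_apply, xx_apply] <;> split_ifs <;>
    simp [Algebra.smul_def] <;> ring

/-- Symbols of the last differential into the variable spinors. -/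
theorem sy₀_D₃X {w : ℤ} {n : ℕ} {G : Exp → Op} (hG : G ∈ valued (fil w n)) :
    (∀ l, sy₀ (n + 1) (D₃X j G l) =
      rm (X (.inl l)) (-∑ m, rm (X (.inr m)) (xx m (sy₀ n G)))) ∧
    cX (D₃X j G) = ((j : ℂ) + 1) • (rm (x 1) (xx 0 G) - rm (x 0) (xx 1 G)) := by
  refine ⟨fun l => funext fun p => ?_, funext fun p => ?_⟩
  · have hp : ∀ m, symb (n + 1) (xx m G p * (x l * d m)) =
        symb n (xx m G p) * (X (.inl l) * X (.inr m)) := fun m => by
      rw [← symb_xd]
      exact symb_mul (n' := 1) (mem_valued.1 (valued_xx m hG) p) (xd_mem l m)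
    have hz : symb (n + 1) (xx l G p) = 0 :=
      symb_eq_zero_of_lt (mem_valued.1 (valued_xx l hG) p) (by push_cast; omega)
    have hx : ∀ m, symb n (xx m G p) = xx m (sy₀ n G) p := fun m => by
      simp only [xx_apply, sy₀_apply]; split_ifs <;> simp
    simp [D₃X, sy₀_apply, rm_apply, Fin.sum_univ_two, hp, hz, hx]
    ring
  · have hc : x 1 * x 0 = x 0 * x 1 := x_comm_mulP 1 _
    have h00 : x 0 * (d 0 * x 1) = x 0 * (x 1 * d 0) := by rw [d_x_ne (by decide)]
    have h10 : x 1 * (d 0 * x 0) = x 0 * (x 1 * d 0) + x 1 := by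
      rw [d_x_self, mul_add, mul_one, ← mul_assoc, hc, mul_assoc]
    have h01 : x 0 * (d 1 * x 1) = x 0 * (x 1 * d 1) + x 0 := by
      rw [d_x_self, mul_add, mul_one]
    have h11 : x 1 * (d 1 * x 0) = x 0 * (x 1 * d 1) := by
      rw [d_x_ne (by decide), ← mul_assoc, hc, mul_assoc]
    simp [cX, D₃X, rm_apply, Fin.sum_univ_two, add_mul, mul_assoc, smul_mul_assoc, neg_mul_op,
      h00, h10, h01, h11, mul_add, add_smul, smul_sub]
    abel

/-- Symbols of the last differential into the derivative spinors. -/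
theorem sy₀_D₃D {w : ℤ} {n : ℕ} {G : Exp → Op} (hG : G ∈ valued (fil w n)) :
    (∀ l, sy₀ (n + 1) (D₃D j G l) =
      rm (X (.inr l)) (∑ m, rm (X (.inl m)) (dd m (sy₀ n G)))) ∧
    cD (D₃D j G) = -(((j : ℂ) + 1) • (rm (d 1) (dd 0 G) - rm (d 0) (dd 1 G))) := by
  refine ⟨fun l => funext fun p => ?_, funext fun p => ?_⟩
  · have hp : ∀ m, symb (n + 1) (dd m G p * (x m * d l)) =
        symb n (dd m G p) * (X (.inl m) * X (.inr l)) := fun m => by
      rw [← symb_xd]
      exact symb_mul (n' := 1) (mem_valued.1 (valued_dd m hG) p) (xd_mem m l)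
    have hz : symb (n + 1) (dd l G p) = 0 :=
      symb_eq_zero_of_lt (mem_valued.1 (valued_dd l hG) p) (by push_cast; omega)
    have hx : ∀ m, symb n (dd m G p) = dd m (sy₀ n G) p := fun m => by
      simp only [dd_apply, sy₀_apply, map_smul]
    simp [D₃D, sy₀_apply, rm_apply, Fin.sum_univ_two, hp, hz, hx]
    ring
  · simp [cD, D₃D, rm_apply, Fin.sum_univ_two, add_mul, sub_mul, mul_assoc,
      (d_comm 1 0).eq, smul_mul_assoc, smul_sub]

end Vale.Agent.P195.Exact
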