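import Vale.Agent.P195.Exact.Steps

/-!
P195: two consecutive differentials compose to zero, on coefficient families.
-/

noncomputable section

namespace Vale.Agent.P195.Exact

open Vale.Agent.P195.Weyl

theorem om_add (a : Op) (U V : Exp → Op) : rm a (U + V) = rm a U + rm a V :=
  funext fun _ => add_mul _ _ _

theorem om_sub (a : Op) (U V : Exp → Op) : rm a (U - V) = rm a U - rm a V :=
  funext fun p => by
    show (U p - V p) * a = U p * a - V p * a
    exact sub_mul _ _ _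

theorem om_neg (a : Op) (U : Exp → Op) : rm a (-U) = -rm a U :=
  funext fun p => neg_mul_op (U p) a

theorem om_smul (z : ℂ) (a : Op) (U : Exp → Op) : rm a (z • U) = z • rm a U :=
  funext fun _ => smul_mul_assoc z _ _

theorem om_zero (a : Op) : rm a (0 : Exp → Op) = 0 := funext fun _ => zero_mul a

theorem om_rm (a b : Op) (U : Exp → Op) : rm a (rm b U) = rm (b * a) U :=
  funext fun _ => mul_assoc _ _ _

theorem om_add_left (a b : Op) (U : Exp → Op) : rm (a + b) U = rm a U + rm b U :=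
  funext fun _ => mul_add _ _ _

theorem om_neg_left (a : Op) (U : Exp → Op) : rm (-a) U = -rm a U :=
  funext fun p => LinearMap.ext fun f => by simp [rm_apply, Module.End.mul_apply]

theorem om_one (U : Exp → Op) : rm (1 : Op) U = U := funext fun _ => mul_one _

theorem om_dd (a : Fin 2) (c : Op) (U : Exp → Op) : dd a (rm c U) = rm c (dd a U) :=
  funext fun p => (smul_mul_assoc _ _ _).symm

theorem om_xx (a : Fin 2) (c : Op) (U : Exp → Op) : xx a (rm c U) = rm c (xx a U) :=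
  funext fun q => by simp only [xx_apply, rm_apply]; split_ifs <;> simp

theorem rm_mem_forms {J : ℕ} (a : Op) {U : Exp → Op} (hU : U ∈ forms Op J) :
    rm a U ∈ forms Op J := fun p hp => by rw [rm_apply, hU p hp, zero_mul]

theorem dd01 {K : Type*} [AddCommGroup K] [Module ℂ K] (U : Exp → K) :
    dd 1 (dd 0 U) = dd 0 (dd 1 U) := dd_comm 1 0 U

theorem mul_neg_op (a b : Op) : a * (-b) = -(a * b) :=
  LinearMap.ext fun f => by simp [Module.End.mul_apply]

theorem d_x_mul_self (a : Fin 2) (u : Op) : d a * (x a * u) = x a * (d a * u) + u := by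
  rw [← mul_assoc, d_x_self, add_mul, one_mul, mul_assoc]

theorem d_x_mul_ne {a b : Fin 2} (h : a ≠ b) (u : Op) : d a * (x b * u) = x b * (d a * u) := by
  rw [← mul_assoc, d_x_ne h, mul_assoc]

theorem x10_mul (u : Op) : x 1 * (x 0 * u) = x 0 * (x 1 * u) := by
  rw [← mul_assoc, show x 1 * x 0 = x 0 * x 1 from x_comm_mulP 1 _, mul_assoc]

theorem x10 : x 1 * x 0 = x 0 * x 1 := x_comm_mulP 1 _

theorem d10_mul (u : Op) : d 1 * (d 0 * u) = d 0 * (d 1 * u) := by
  rw [← mul_assoc, (d_comm 1 0).eq, mul_assoc]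

theorem D₁_D₂X {j : ℕ} {s : Fin 2 → Exp → Op} (hs : ∀ l, s l ∈ forms Op (j + 1)) :
    D₁ (D₂X j s) = 0 := by
  have E : ∀ a l, xx 1 (dd 1 (dd a (s l))) = (j : ℂ) • dd a (s l) - xx 0 (dd 0 (dd a (s l))) :=
    fun a l => eq_sub_of_add_eq' (euler_forms (dd_mem a (hs l)))
  have h00 := E 0 0
  have h01 := E 0 1
  have h10 := E 1 0
  have h11 := E 1 1
  rw [dd01] at h00 h01
  simp [D₁, D₂X, cX, dRot, Fin.sum_univ_two, map_add, map_sub, map_neg, map_smul, om_add, om_sub,
    om_neg, om_smul, om_rm, om_add_left, om_neg_left, om_one, om_dd, om_xx, mul_assoc, dd01,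
    d_x_self, d_x_ne (show (0 : Fin 2) ≠ 1 by decide), d_x_ne (show (1 : Fin 2) ≠ 0 by decide),
    mul_add, (d_comm 1 0).eq, h00, h01, h10, h11, neg_mul_op, mul_neg_op, om_zero, x10_mul, x10, d10_mul,
    d_x_mul_self, d_x_mul_ne (show (0 : Fin 2) ≠ 1 by decide),
    d_x_mul_ne (show (1 : Fin 2) ≠ 0 by decide)]
  module

theorem xx01 {K : Type*} [AddCommGroup K] [Module ℂ K] (U : Exp → K) :
    xx 1 (xx 0 U) = xx 0 (xx 1 U) := xx_comm 1 0 U

theorem D₁_D₂D {j : ℕ} {r : Fin 2 → Exp → Op} (hr : ∀ l, r l ∈ down Op j) :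
    D₁ (D₂D j r) = 0 := by
  rcases j with _ | i
  · have z : ∀ l, r l = 0 := fun l => by
      have := hr l
      rwa [down_zero, Submodule.mem_bot] at this
    simp [D₁, D₂D, cD, Fin.sum_univ_two, z, om_zero]
  · have E : ∀ a l, xx a (xx 1 (dd 1 (r l))) =
        (i : ℂ) • xx a (r l) - xx a (xx 0 (dd 0 (r l))) := fun a l => by
      have := hr l
      rw [down_succ] at this
      rw [eq_sub_of_add_eq' (euler_forms this), map_sub, map_smul]
    have e0 := E 0
    have e1 := E 1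
    simp [D₁, D₂D, cD, xRot, Fin.sum_univ_two, map_add, map_sub, map_smul, om_add, om_sub, om_neg, om_smul, om_rm, om_add_left, om_neg_left,
    om_one, om_zero, om_dd, om_xx, mul_assoc, mul_add, neg_mul_op, mul_neg_op, d_x_self,
    d_x_ne (show (0 : Fin 2) ≠ 1 by decide), d_x_ne (show (1 : Fin 2) ≠ 0 by decide),
    d_x_mul_self, d_x_mul_ne (show (0 : Fin 2) ≠ 1 by decide),
    d_x_mul_ne (show (1 : Fin 2) ≠ 0 by decide), x10, x10_mul, d10_mul, (d_comm 1 0).eq, dd01,
    dd_xx_self, dd_xx_ne (show (0 : Fin 2) ≠ 1 by decide),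
    dd_xx_ne (show (1 : Fin 2) ≠ 0 by decide), xx01]
    simp [e0, e1, xx01, map_add, map_sub, map_smul, om_add, om_sub, om_smul]
    module

theorem D₂_D₃ {j : ℕ} {G : Exp → Op} (hG : G ∈ forms Op j) (i k : Fin 2) :
    D₂X j (D₃X j G) i k + D₂D j (D₃D j G) i k = 0 := by
  have e : xx 1 (dd 1 G) = (j : ℂ) • G - xx 0 (dd 0 G) := eq_sub_of_add_eq' (euler_forms hG)
  fin_cases i <;> fin_cases k <;>
    simp [D₂X, D₂D, D₃X, D₃D, cX, cD, dRot, xRot, Fin.sum_univ_two, map_add, map_sub, map_smul, om_add, om_sub, om_neg, om_smul, om_rm, om_add_left, om_neg_left,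
    om_one, om_zero, om_dd, om_xx, mul_assoc, mul_add, neg_mul_op, mul_neg_op, d_x_self,
    d_x_ne (show (0 : Fin 2) ≠ 1 by decide), d_x_ne (show (1 : Fin 2) ≠ 0 by decide),
    d_x_mul_self, d_x_mul_ne (show (0 : Fin 2) ≠ 1 by decide),
    d_x_mul_ne (show (1 : Fin 2) ≠ 0 by decide), x10, x10_mul, d10_mul, (d_comm 1 0).eq, dd01,
    dd_xx_self, dd_xx_ne (show (0 : Fin 2) ≠ 1 by decide),
    dd_xx_ne (show (1 : Fin 2) ≠ 0 by decide), e, map_neg] <;>
    module

end Vale.Agent.P195.Exact
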