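import Vale.Agent.P195.Exact.Steps2
import Vale.Agent.P195.Exact.Square

/-!
P195: exactness of the resolution on lattice rows of weight zero and one, at every level and for
every degree.
-/

noncomputable section

namespace Vale.Agent.P195.Exact

open MvPolynomial
open Vale.Agent.P195.Weyl
open Vale.Agent.P195.Orbit

/-- The augmentation: every coefficient applied to its monomial. -/
def ev (j : ℕ) : (Exp → Op) →ₗ[ℂ] Pol :=
  ∑ p ∈ (Finset.univ : Finset (Fin 2)).finsuppAntidiag j,
    (LinearMap.applyₗ (monomial p (1 : ℂ))).comp (LinearMap.proj p)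

theorem ev_apply (j : ℕ) (U : Exp → Op) :
    ev j U = ∑ p ∈ (Finset.univ : Finset (Fin 2)).finsuppAntidiag j, U p (monomial p 1) := by
  simp [ev]

theorem dd_single {K : Type*} [AddCommGroup K] [Module ℂ K] (a : Fin 2) (q : Exp) (u : K) :
    dd a (Pi.single q u) = (q a : ℂ) • Pi.single (q - Finsupp.single a 1) u := by
  classical
  funext p
  rw [dd_apply, Pi.smul_apply, Pi.single_apply, Pi.single_apply]
  by_cases h : p + Finsupp.single a 1 = q
  · subst h
    simp
  · rw [if_neg h, smul_zero]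
    by_cases hq : q a = 0
    · simp [hq]
    · rw [if_neg, smul_zero]
      rintro rfl
      exact h (tsub_add_cancel_of_le (Finsupp.single_le_iff.2 (Nat.one_le_iff_ne_zero.2 hq)))

theorem xx_single {K : Type*} [AddCommGroup K] [Module ℂ K] (a : Fin 2) (q : Exp) (u : K) :
    xx a (Pi.single q u) = Pi.single (q + Finsupp.single a 1) u := by
  classical
  funext p
  rw [xx_apply, Pi.single_apply, Pi.single_apply]
  by_cases h : p a = 0
  · rw [if_pos h, if_neg]
    rintro rfl
    simp at h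
  · rw [if_neg h]
    have e : p - Finsupp.single a 1 + Finsupp.single a 1 = p :=
      tsub_add_cancel_of_le (Finsupp.single_le_iff.2 (Nat.one_le_iff_ne_zero.2 h))
    by_cases h2 : p - Finsupp.single a 1 = q
    · rw [if_pos h2, if_pos (by rw [← h2, e])]
    · rw [if_neg h2, if_neg]
      rintro rfl
      exact h2 (add_tsub_cancel_right _ _)

theorem ev_single {j : ℕ} {q : Exp} (hq : q.degree = j) (u : Op) :
    ev j (Pi.single q u) = u (monomial q 1) := by
  classical
  rw [ev_apply, Finset.sum_eq_single q (fun p _ hp => by rw [Pi.single_eq_of_ne hp]; rfl)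
    (fun h => absurd (mem_antidiag.2 hq) h), Pi.single_eq_same]

theorem ev_term {j : ℕ} (i k : Fin 2) {U : Exp → Op} (hU : U ∈ forms Op j) :
    ev j (rm (x i * d k) U) = ev j (xx i (dd k U)) := by
  classical
  have e : U = ∑ q ∈ (Finset.univ : Finset (Fin 2)).finsuppAntidiag j, Pi.single q (U q) := by
    funext p
    rw [Finset.sum_apply]
    by_cases hp : p.degree = j
    · rw [Finset.sum_eq_single p (fun q _ hq => Pi.single_eq_of_ne hq.symm _)
        (fun h => absurd (mem_antidiag.2 hp) h), Pi.single_eq_same]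
    · rw [hU p hp, Finset.sum_eq_zero]
      intro q hq
      exact Pi.single_eq_of_ne (fun h : p = q => hp (h ▸ mem_antidiag.1 hq)) _
  have er : rm (x i * d k) U = ∑ q ∈ (Finset.univ : Finset (Fin 2)).finsuppAntidiag j,
      Pi.single q (U q * (x i * d k)) := by
    conv_lhs => rw [e]
    funext p
    rw [rm_apply, Finset.sum_apply, Finset.sum_apply, Finset.sum_mul]
    refine Finset.sum_congr rfl fun q _ => ?_
    rw [Pi.single_apply, Pi.single_apply, ite_mul, zero_mul]
  rw [er]
  conv_rhs => rw [e]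
  simp only [map_sum]
  refine Finset.sum_congr rfl fun q hq => ?_
  rw [mem_antidiag] at hq
  rw [ev_single hq, Module.End.mul_apply, Module.End.mul_apply, dd_single, map_smul, xx_single,
    map_smul, d_apply, pderiv_monomial, one_mul, x_apply, X, monomial_mul, one_mul]
  by_cases h : q k = 0
  · simp [h]
  · have hd : (q - Finsupp.single k 1 + Finsupp.single i 1).degree = j := by
      have := degree_sub_single h
      rw [map_add, Finsupp.degree_single]
      omega
    rw [ev_single hd, ← map_smul, smul_monomial, smul_eq_mul, mul_one, add_comm]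

theorem ev_D₁ {j : ℕ} {H : Fin 2 → Fin 2 → Exp → Op} (hH : ∀ i k, H i k ∈ forms Op j) :
    ev j (D₁ H) = 0 := by
  simp [D₁, ev_term _ _ (hH _ _)]

theorem D₁_sub (H H' : Fin 2 → Fin 2 → Exp → Op) :
    D₁ (fun i k => H i k - H' i k) = D₁ H - D₁ H' := by
  simp only [D₁, om_sub, map_sub, ← Finset.sum_sub_distrib]
  refine Finset.sum_congr rfl fun i _ => Finset.sum_congr rfl fun k _ => ?_
  abel

theorem D₁_add (H H' : Fin 2 → Fin 2 → Exp → Op) :
    D₁ (fun i k => H i k + H' i k) = D₁ H + D₁ H' := by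
  simp only [D₁, om_add, map_add, ← Finset.sum_add_distrib]
  refine Finset.sum_congr rfl fun i _ => Finset.sum_congr rfl fun k _ => ?_
  abel

theorem D₁_D₂ {j : ℕ} {w n : ℤ} {s r : Fin 2 → Exp → Op} (h : MemQ j w n s r) :
    D₁ (fun i k => D₂X j s i k + D₂D j r i k) = 0 := by
  rw [D₁_add, D₁_D₂X h.degX, D₁_D₂D h.degD, add_zero]

theorem latX_mono {w n m : ℤ} (h : n ≤ m) : latX w n ≤ latX w m :=
  sup_le_sup (Submodule.prod_mono (fil_mono h) (fil_mono h))
    (Submodule.map_mono (fil_mono (by omega)))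

theorem latD_mono {w n m : ℤ} (h : n ≤ m) : latD w n ≤ latD w m :=
  sup_le_sup (Submodule.prod_mono (fil_mono h) (fil_mono h)) (Submodule.map_mono (fil_mono h))

theorem valued_mono {w n m : ℤ} (h : n ≤ m) {U : Exp → Op} (hU : U ∈ valued (fil w n)) :
    U ∈ valued (fil w m) := mem_valued.2 fun p => fil_mono h (mem_valued.1 hU p)

theorem MemH.mono {j : ℕ} {w n m : ℤ} {H} (h : MemH j w n H) (hnm : n ≤ m) : MemH j w m H :=
  ⟨h.deg, fun i k => valued_mono hnm (h.lev i k)⟩

theorem MemQ.mono {j : ℕ} {w n m : ℤ} {s r} (h : MemQ j w n s r) (hnm : n ≤ m) :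
    MemQ j w m s r :=
  ⟨h.degX, h.degD, fun p => latX_mono hnm (h.levX p), fun p => latD_mono hnm (h.levD p)⟩

theorem MemQ.add {j : ℕ} {w n : ℤ} {s r s' r'} (h : MemQ j w n s r) (h' : MemQ j w n s' r') :
    MemQ j w n (s + s') (r + r') where
  degX l := by rw [Pi.add_apply]; exact Submodule.add_mem _ (h.degX l) (h'.degX l)
  degD l := by rw [Pi.add_apply]; exact Submodule.add_mem _ (h.degD l) (h'.degD l)
  levX p := by
    simp only [Pi.add_apply, ← Prod.mk_add_mk]
    exact Submodule.add_mem _ (h.levX p) (h'.levX p)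
  levD p := by
    simp only [Pi.add_apply, ← Prod.mk_add_mk]
    exact Submodule.add_mem _ (h.levD p) (h'.levD p)

theorem MemQ.zero (j : ℕ) (w n : ℤ) : MemQ j w n 0 0 :=
  ⟨fun _ => zero_mem _, fun _ => zero_mem _, fun _ => zero_mem _, fun _ => zero_mem _⟩

theorem valued_neg_eq_zero {w n : ℤ} (hn : n < 0) {U : Exp → Op} (hU : U ∈ valued (fil w n)) :
    U = 0 := funext fun p => by
  have := mem_valued.1 hU p
  rw [fil_neg hn, Submodule.mem_bot] at this
  exact this

theorem D₂X_add (j : ℕ) (s s' : Fin 2 → Exp → Op) (i k : Fin 2) :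
    D₂X j (s + s') i k = D₂X j s i k + D₂X j s' i k := by
  have hc : cX (s + s') = cX s + cX s' := funext fun p => by
    simp [cX, rm_apply, add_mul]; abel
  simp only [D₂X, hc, Pi.add_apply, map_add, om_add, smul_add, Finset.sum_add_distrib]
  split_ifs <;> simp [smul_add] <;> abel

theorem D₂D_add (j : ℕ) (r r' : Fin 2 → Exp → Op) (i k : Fin 2) :
    D₂D j (r + r') i k = D₂D j r i k + D₂D j r' i k := by
  have hc : cD (r + r') = cD r + cD r' := funext fun p => by
    simp [cD, rm_apply, add_mul]; abel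
  simp only [D₂D, hc, Pi.add_apply, map_add, om_add, smul_add, Finset.sum_add_distrib]
  split_ifs <;> simp [smul_add] <;> abel

theorem fil00_scalar {u : Op} (hu : u ∈ fil 0 0) : ∃ c : ℂ, u = c • 1 := by
  refine fil_induction (motive := fun u => ∃ c : ℂ, u = c • 1) hu (fun p q hm hn => ?_)
    ⟨0, (zero_smul ℂ _).symm⟩ (fun u v ⟨a, ha⟩ ⟨b, hb⟩ => ⟨a + b, by rw [ha, hb, add_smul]⟩)
    (fun c u ⟨a, ha⟩ => ⟨c * a, by rw [ha, smul_smul]⟩)
  obtain rfl : q = 0 := (Finsupp.degree_eq_zero_iff q).1 (by omega)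
  obtain rfl : p = 0 := (Finsupp.degree_eq_zero_iff p).1 (by simp at hm; omega)
  exact ⟨1, by rw [nmon_zero_zero, one_smul]⟩

theorem fil10_linear {u : Op} (hu : u ∈ fil 1 0) : ∃ a b : ℂ, u = a • x 0 + b • x 1 := by
  refine fil_induction (motive := fun u => ∃ a b : ℂ, u = a • x 0 + b • x 1) hu
    (fun p q hm hn => ?_) ⟨0, 0, by simp⟩
    (fun u v ⟨a, b, h⟩ ⟨a', b', h'⟩ => ⟨a + a', b + b', by rw [h, h']; module⟩)
    (fun c u ⟨a, b, h⟩ => ⟨c * a, c * b, by rw [h]; module⟩)
  obtain rfl : q = 0 := (Finsupp.degree_eq_zero_iff q).1 (by omega)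
  rw [map_zero, degree_two] at hm
  rcases Nat.eq_zero_or_pos (p 1) with h | h
  · refine ⟨1, 0, ?_⟩
    rw [one_smul, zero_smul, add_zero, x_eq]
    congr 1
    ext i
    fin_cases i <;> simp <;> omega
  · refine ⟨0, 1, ?_⟩
    rw [one_smul, zero_smul, zero_add, x_eq]
    congr 1
    ext i
    fin_cases i <;> simp <;> omega

theorem ev_base₀ {j : ℕ} {F : Exp → Op} (hFf : F ∈ forms Op j) (hF : F ∈ valued (fil 0 0))
    (hev : ev j F = 0) : F = 0 := by
  classical
  funext p
  by_cases hp : p.degree = j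
  · obtain ⟨c, hc⟩ := fil00_scalar (mem_valued.1 hF p)
    have h := congrArg (coeff p) hev
    rw [ev_apply, coeff_sum, coeff_zero,
      Finset.sum_eq_single p (fun q _ hq => ?_) (fun h => absurd (mem_antidiag.2 hp) h)] at h
    · rw [hc] at h ⊢
      simp at h
      simp [h]
    · obtain ⟨e, he⟩ := fil00_scalar (mem_valued.1 hF q)
      simp [he, coeff_monomial, hq]
  · exact hFf p hp

theorem coeff_X_sum {j : ℕ} (a : Fin 2) (c : Exp → ℂ) (hc : c ∈ forms ℂ j) (r : Exp) :
    coeff r (∑ p ∈ (Finset.univ : Finset (Fin 2)).finsuppAntidiag j,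
      c p • (X a * monomial p (1 : ℂ))) = xx a c r := by
  classical
  rw [coeff_sum, xx_apply]
  simp only [coeff_smul, coeff_X_mul', smul_eq_mul, coeff_monomial, Finsupp.mem_support_iff]
  by_cases h : r a = 0
  · simp [h]
  · simp only [ne_eq, h, not_false_eq_true, if_true, if_false, mul_ite, mul_one, mul_zero,
      Finset.sum_ite_eq', mem_antidiag]
    by_cases h2 : (r - Finsupp.single a 1).degree = j
    · rw [if_pos h2]
    · rw [if_neg h2, hc _ h2]

theorem mem_scalar_family {j : ℕ} {c : Exp → ℂ} (hc : c ∈ forms ℂ j) :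
    mapc (LinearMap.toSpanSingleton ℂ Op 1) c ∈ forms Op j ⊓ valued (fil 0 0) :=
  ⟨mapc_mem _ hc, mem_valued.2 fun p => Submodule.smul_mem _ _ (Weyl.one_mem le_rfl)⟩

theorem exact₀_one {j : ℕ} {F : Exp → Op} (hFf : F ∈ forms Op j) (hF : F ∈ valued (fil 1 1))
    (hev : ev j F = 0) : ∃ H, MemH j 1 0 H ∧ D₁ H = F := by
  classical
  obtain ⟨H₁, hH₁, hlow⟩ := lower₀ (w := 1) (n := 0) (by norm_num) hFf (by simpa using hF)
  rw [Nat.cast_zero] at hlow hH₁
  set F' := F - D₁ H₁ with hF'
  have hD : D₁ H₁ ∈ forms Op j := Submodule.sum_mem _ fun i _ => Submodule.sum_mem _ fun k _ =>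
    sub_mem (rm_mem_forms _ (hH₁.deg i k)) (by
      rcases j with _ | m
      · have : dd k (H₁ i k) = 0 := funext fun p => by
          rw [dd_apply, hH₁.deg i k _ (by simp [map_add, Finsupp.degree_single]), smul_zero]; rfl
        rw [this, map_zero]; exact zero_mem _
      · exact xx_mem i (dd_mem k (hH₁.deg i k)))
  have hF'f : F' ∈ forms Op j := sub_mem hFf hD
  have hev' : ev j F' = 0 := by rw [hF', map_sub, hev, ev_D₁ hH₁.deg, sub_zero]
  choose a b hab using fun p => fil10_linear (mem_valued.1 hlow p)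
  set c : Fin 2 → Exp → ℂ := fun l p => if p.degree = j then ![a p, b p] l else 0 with hcdef
  have hcf : ∀ l, c l ∈ forms ℂ j := fun l p hp => if_neg hp
  have hF'c : ∀ p, F' p = c 0 p • x 0 + c 1 p • x 1 := fun p => by
    by_cases hp : p.degree = j
    · simpa [hcdef, hp] using hab p
    · simp [hcdef, hp, hF'f p hp]
  have hsum : xx 0 (c 0) + xx 1 (c 1) = 0 := funext fun r => by
    have h := congrArg (coeff r) hev'
    rw [ev_apply, coeff_zero] at h
    simp only [hF'c, LinearMap.add_apply, LinearMap.smul_apply, x_apply,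
      Finset.sum_add_distrib, coeff_add] at h
    rw [Pi.add_apply, ← coeff_X_sum 0 _ (hcf 0), ← coeff_X_sum 1 _ (hcf 1)]
    exact h
  obtain ⟨q, t, hq, -, ht, -, hqt⟩ := exists_pair_in j (S := ⊤) hcf
    (fun l => mem_valued.2 fun _ => trivial)
  have hq0 : q = 0 := by
    have := xx_pairUp hq t
    rw [hqt, hqt, hsum] at this
    exact (smul_eq_zero.1 this.symm).resolve_left (by exact_mod_cast Nat.succ_ne_zero j)
  set T := mapc (LinearMap.toSpanSingleton ℂ Op 1) t with hT
  have hxT : ∀ k, xx k T ∈ forms Op j ⊓ valued (fil 0 0) := fun k => by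
    rw [hT, ← mapc_xx]; exact mem_scalar_family (down_xx ht k)
  set J : ℂ := (j : ℂ) + 1 with hJ
  have hJ0 : J ≠ 0 := by rw [hJ]; exact_mod_cast Nat.succ_ne_zero j
  set H₂ : Fin 2 → Fin 2 → Exp → Op := fun i k => rm (xRot i) (J⁻¹ • xx k T) with hH₂
  have hH₂m : MemH j 1 0 H₂ := ⟨fun i k => rm_mem_forms _ (Submodule.smul_mem _ _ (hxT k).1),
    fun i k => mem_valued.2 fun p => by
      have hi : xRot i ∈ fil 1 0 := by
        fin_cases i
        · exact x_mem 1 le_rfl
        · exact neg_mem (x_mem 0 le_rfl)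
      have := Weyl.mul_mem (mem_valued.1 (Submodule.smul_mem _ J⁻¹ (hxT k).2) p) hi
      simpa [hH₂, rm_apply] using this⟩
  have hdiv : dd 0 (xx 0 T) + dd 1 (xx 1 T) = J • T := by
    rw [hT]
    rcases j with _ | m
    · rw [down_zero, Submodule.mem_bot] at ht
      simp [ht, funext_iff, mapc_apply, dd_apply, xx_apply]
    · rw [down_succ] at ht
      have := euler_forms ht
      rw [← mapc_xx, ← mapc_xx, ← mapc_dd, ← mapc_dd, ← map_add, ← map_smul, dd_xx_self,
        dd_xx_self]
      congr 1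
      rw [hJ]
      push_cast
      linear_combination (norm := module) this
  have hD₂ : D₁ H₂ = F' := by
    have e : D₁ H₂ = -(rm (x 1) (xx 0 (J⁻¹ • (dd 0 (xx 0 T) + dd 1 (xx 1 T))))
        - rm (x 0) (xx 1 (J⁻¹ • (dd 0 (xx 0 T) + dd 1 (xx 1 T))))) := by
      simp [D₁, hH₂, xRot, Fin.sum_univ_two, map_add, map_smul, om_add, om_smul, om_rm,
        om_neg_left, om_dd, om_xx, mul_neg_op, neg_mul_op, mul_assoc, x10, x10_mul]
      module
    rw [e, hdiv, smul_smul, inv_mul_cancel₀ hJ0, one_smul]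
    funext p
    have c0 := congrFun (hqt 0) p
    have c1 := congrFun (hqt 1) p
    simp [pairUp, hq0] at c0 c1
    rw [hF'c, ← c0, ← c1, hT, ← mapc_xx, ← mapc_xx]
    simp only [Pi.neg_apply, Pi.sub_apply, rm_apply, mapc_apply, LinearMap.toSpanSingleton_apply,
      smul_mul_assoc, one_mul]
    module
  refine ⟨fun i k => H₁ i k + H₂ i k, ⟨fun i k => add_mem (hH₁.deg i k) (hH₂m.deg i k),
    fun i k => add_mem (hH₁.lev i k) (hH₂m.lev i k)⟩, ?_⟩
  rw [D₁_add, hD₂, hF']
  abel

theorem exact₀_step {j : ℕ} {w : ℤ} {n₀ : ℤ} (hw : 0 ≤ w) (hn₀ : -2 ≤ n₀)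
    (base : ∀ F, F ∈ forms Op j → F ∈ valued (fil w (n₀ + 2)) → ev j F = 0 →
      ∃ H, MemH j w (n₀ + 1) H ∧ D₁ H = F)
    (n : ℤ) (hn : n₀ ≤ n) : ∀ F, F ∈ forms Op j → F ∈ valued (fil w (n + 2)) → ev j F = 0 →
      ∃ H, MemH j w (n + 1) H ∧ D₁ H = F := by
  induction n, hn using Int.leInduction with
  | base => exact base
  | succ m hm ih =>
    intro F hFf hF hev
    obtain ⟨N, hN⟩ : ∃ N : ℕ, (N : ℤ) = m + 2 := ⟨(m + 2).toNat, Int.toNat_of_nonneg (by omega)⟩
    obtain ⟨H, hH, hlow⟩ := lower₀ (w := w) (n := N) (by omega) hFf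
      (by rwa [show ((N + 1 : ℕ) : ℤ) = m + 1 + 2 by push_cast; omega])
    rw [hN] at hlow hH
    have hD : D₁ H ∈ forms Op j := Submodule.sum_mem _ fun i _ => Submodule.sum_mem _ fun k _ =>
      sub_mem (rm_mem_forms _ (hH.deg i k)) (by
        rcases j with _ | a
        · have : dd k (H i k) = 0 := funext fun p => by
            rw [dd_apply, hH.deg i k _ (by simp [map_add, Finsupp.degree_single]), smul_zero]; rfl
          rw [this, map_zero]; exact zero_mem _
        · exact xx_mem i (dd_mem k (hH.deg i k)))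
    obtain ⟨H', hH', he⟩ := ih _ (sub_mem hFf hD) hlow
      (by rw [map_sub, hev, ev_D₁ hH.deg, sub_zero])
    refine ⟨fun i k => H i k + H' i k, ⟨fun i k => add_mem (hH.deg i k) (hH'.deg i k), fun i k =>
      add_mem (valued_mono (by omega) (hH.lev i k)) (valued_mono (by omega) (hH'.lev i k))⟩, ?_⟩
    rw [D₁_add, he]
    abel

/-- Exactness at the first place, weight zero. -/
theorem exact₀_zero {j : ℕ} {n : ℤ} (hn : -2 ≤ n) {F : Exp → Op} (hFf : F ∈ forms Op j)
    (hF : F ∈ valued (fil 0 (n + 2))) (hev : ev j F = 0) : ∃ H, MemH j 0 (n + 1) H ∧ D₁ H = F :=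
  exact₀_step le_rfl le_rfl (fun F hf h he =>
    ⟨0, ⟨fun _ _ => zero_mem _, fun _ _ => zero_mem _⟩, by
      rw [ev_base₀ hf (by simpa using h) he]; simp [D₁, om_zero]⟩) n hn F hFf hF hev

/-- Exactness at the first place, weight one. -/
theorem exact₀ {j : ℕ} {n : ℤ} (hn : -1 ≤ n) {F : Exp → Op} (hFf : F ∈ forms Op j)
    (hF : F ∈ valued (fil 1 (n + 2))) (hev : ev j F = 0) : ∃ H, MemH j 1 (n + 1) H ∧ D₁ H = F :=
  exact₀_step (n₀ := -1) (by norm_num) (by norm_num) (fun F hf h he => by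
    have := exact₀_one hf (by simpa using h) he
    simpa using this) n hn F hFf hF hev

theorem rot_eq_zero {P : Exp → Op} (hPm : P ∈ valued (fil 0 0))
    (hrel : rm (x 1) (xx 0 P) - rm (x 0) (xx 1 P) = 0) : P = 0 := by
  have hs : sy₀ 0 P = 0 := funext fun p => by
    have e := congrFun (congrArg (sy₀ 0) hrel) (p + Finsupp.single 0 1)
    rw [map_sub, map_zero, sy₀_rm_x (N := 0) (w := 0) (by simpa using valued_xx 0 hPm),
      sy₀_rm_x (N := 0) (w := 0) (by simpa using valued_xx 1 hPm)] at e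
    have m : ∀ a, symb 0 (xx a P (p + Finsupp.single 0 1)) ∈ Binary.R (0 : ℤ) (0 : ℤ) :=
      fun a => by
        have := symb_R (n := 0) (mem_valued.1 (valued_xx a hPm) (p + Finsupp.single 0 1))
        simpa using this
    simp [rm_apply, sy₀_apply] at e
    obtain ⟨v, hv, -, hv0⟩ := Binary.mid Binary.pair_x
      (u := -symb 0 (xx 1 P (p + Finsupp.single 0 1)))
      (w := symb 0 (xx 0 P (p + Finsupp.single 0 1))) (neg_mem (m 1))
      (by linear_combination e)
    rw [Binary.eq_zero_of_neg hv (Or.inl (by simp [Binary.da])), mul_zero, neg_zero] at hv0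
    simpa [sy₀_apply, xx_apply] using hv0
  funext p
  have := (symb_eq_zero_iff (n := 0) (by simpa using mem_valued.1 hPm p)).1 (congrFun hs p)
  rw [fil_neg (by simp), Submodule.mem_bot] at this
  exact this

theorem eq_rot {j : ℕ} {i : Fin 2} {F : Exp → Op} {b : Exp → Op} {B : Exp → Sym}
    (hF : F ∈ forms Op j) (hfil : ∀ p, F p ∈ fil 1 ((0 : ℕ) : ℤ))
    (hB : ∀ p, symb 0 (F p) = B p * kx i) (hbm : ∀ p, b p ∈ fil 0 0)
    (hbs : ∀ p, symb 0 (b p) = B p) :
    F = rm (xRot i) (fun p => if p.degree = j then b p else 0) := funext fun p => by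
  by_cases hp : p.degree = j
  · have hi : xRot i ∈ fil 1 ((0 : ℕ) : ℤ) ∧ symb 0 (xRot i) = kx i := by
      fin_cases i
      · exact ⟨x_mem 1 le_rfl, symb_x 1⟩
      · exact ⟨neg_mem (x_mem 0 le_rfl), (map_neg _ _).trans (congrArg Neg.neg (symb_x 0))⟩
    have hm := Weyl.mul_mem (hbm p) hi.1
    rw [zero_add, zero_add] at hm
    have := (symb_eq_zero_iff (Submodule.sub_mem _ (hfil p) hm)).1 (by
      rw [map_sub, hB, symb_mul (n := 0) (n' := 0) (hbm p) hi.1, hbs, hi.2, sub_self])
    rw [fil_neg (by simp), Submodule.mem_bot, sub_eq_zero] at this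
    simp [rm_apply, hp, this]
  · simp [rm_apply, hp, hF p hp]

theorem D₂_rot {j : ℕ} (q : Exp → Op) {U : Fin 2 → Exp → Op} (q0 : dd 0 q = -U 1)
    (q1 : dd 1 q = U 0) (i k : Fin 2) :
    D₂X j (fun l => rm (x l) (((j : ℂ) + 1)⁻¹ • q)) i k + D₂D j 0 i k = rm (xRot i) (U k) := by
  have hJ0 : ((j : ℂ) + 1) ≠ 0 := by exact_mod_cast Nat.succ_ne_zero j
  set s : Fin 2 → Exp → Op := fun l => rm (x l) (((j : ℂ) + 1)⁻¹ • q) with hs
  have hc : cX s = 0 := by
    simp [cX, hs, om_rm, x10]
  have hD : D₂D j 0 i k = 0 := by simp [D₂D, cD, om_zero]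
  rw [hD, add_zero]
  unfold D₂X
  rw [hc]
  fin_cases i <;> fin_cases k <;>
    simp [hs, xRot, Fin.sum_univ_two, om_zero, om_dd, om_smul, om_neg, om_neg_left, map_smul,
      smul_smul, mul_inv_cancel₀ hJ0, q0, q1]

theorem exact₁_base {j : ℕ} {w : ℤ} (hw : w = 0 ∨ w = 1) {H : Fin 2 → Fin 2 → Exp → Op}
    (hH : MemH j w 0 H) (h : D₁ H = 0) :
    ∃ s r, MemQ j w (-1) s r ∧ ∀ i k, D₂X j s i k + D₂D j r i k = H i k := by
  have key : ∀ p, ∃ B : Fin 2 → Sym, (∀ k, B k ∈ Binary.R (w - 1) (0 : ℤ)) ∧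
      ∀ i k, symb 0 (H i k p) = B k * kx i := fun p => by
    obtain ⟨A, B, hA, hB, hAB⟩ := Binary.top_exact (a := w) (b := (0 : ℤ)) le_rfl
      (m := fun i k => symb 0 (H i k p)) (fun i k => by
        have := symb_R (n := 0) (mem_valued.1 (hH.lev i k) p)
        simpa using this)
      (by
        have := sy₀_D₁ (n := 0) (by exact_mod_cast hH) p
        rw [← this, h]; simp)
    refine ⟨B, hB, fun i k => ?_⟩
    rw [hAB, Binary.eq_zero_of_neg (hA i) (Or.inr (by norm_num)), sy_eq, sx_eq, zero_mul, zero_add]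
  choose B hB hBH using key
  have hfil : ∀ i k p, H i k p ∈ fil w ((0 : ℕ) : ℤ) := fun i k p => by
    simpa using mem_valued.1 (hH.lev i k) p
  rcases hw with rfl | rfl
  · refine ⟨0, 0, MemQ.zero j 0 (-1), fun i k => funext fun p => ?_⟩
    have : symb 0 (H i k p) = 0 := by
      rw [hBH, Binary.eq_zero_of_neg (hB p k) (Or.inl (by norm_num)), zero_mul]
    have := (symb_eq_zero_iff (hfil i k p)).1 this
    rw [fil_neg (by simp), Submodule.mem_bot] at this
    rw [this]
    simp [D₂X, D₂D, cX, cD, om_zero]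
  · have hb : ∀ p k, ∃ u ∈ fil 0 (0 : ℤ), symb 0 u = B p k := fun p k => by
      simpa using exists_symb (w := 0) (n := 0) (by simpa using hB p k)
    choose b hbm hbs using hb
    set U : Fin 2 → Exp → Op := fun k p => if p.degree = j then b p k else 0 with hU
    have hUm : ∀ k, U k ∈ forms Op j ⊓ valued (fil 0 0) := fun k =>
      valued_forms_of _ fun p => hbm p k
    have hHU : ∀ i k, H i k = rm (xRot i) (U k) := fun i k =>
      eq_rot (hH.deg i k) (hfil i k) (fun p => hBH p i k) (fun p => hbm p k) (fun p => hbs p k)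
    set P := dd 0 (U 0) + dd 1 (U 1) with hPdef
    have hPm : P ∈ valued (fil 0 0) :=
      add_mem (valued_dd 0 (hUm 0).2) (valued_dd 1 (hUm 1).2)
    have hrel : rm (x 1) (xx 0 P) - rm (x 0) (xx 1 P) = 0 := by
      have e : D₁ H = -(rm (x 1) (xx 0 P) - rm (x 0) (xx 1 P)) := by
        rw [show H = fun i k => rm (xRot i) (U k) from funext fun i => funext fun k => hHU i k]
        simp [D₁, hPdef, xRot, Fin.sum_univ_two, map_add, om_add, om_rm, om_neg_left, om_dd,
          om_xx, mul_neg_op, neg_mul_op, x10_mul, x10]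
        module
      rw [h] at e
      exact neg_eq_zero.1 e.symm
    have hP0 : P = 0 := rot_eq_zero hPm hrel
    obtain ⟨q, t, hq, hqv, ht, -, hqt⟩ := exists_pair_in j (S := fil 0 0) (u := ![-U 1, U 0])
      (fun a => by fin_cases a; exacts [neg_mem (hUm 1).1, (hUm 0).1])
      (fun a => by fin_cases a; exacts [neg_mem (hUm 1).2, (hUm 0).2])
    have ht0 : t = 0 := by
      rcases j with _ | m
      · rwa [down_zero, Submodule.mem_bot] at ht
      · rw [down_succ] at ht
        have := dd_pairUp q ht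
        rw [hqt, hqt] at this
        have e : dd 1 ((![-U 1, U 0] : Fin 2 → Exp → Op) 0) -
            dd 0 ((![-U 1, U 0] : Fin 2 → Exp → Op) 1) = -P := by simp [hPdef]; abel
        rw [e, hP0, neg_zero] at this
        exact (smul_eq_zero.1 this.symm).resolve_left
          (by exact_mod_cast (show m + 2 ≠ 0 by omega))
    have hJ0 : ((j : ℂ) + 1) ≠ 0 := by exact_mod_cast Nat.succ_ne_zero j
    set s : Fin 2 → Exp → Op := fun l => rm (x l) (((j : ℂ) + 1)⁻¹ • q) with hs
    refine ⟨s, 0, ⟨fun l => rm_mem_forms _ (Submodule.smul_mem _ _ hq), fun l => zero_mem _,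
      fun p => ?_, fun p => zero_mem _⟩, fun i k => ?_⟩
    · refine Submodule.mem_sup_right ⟨(((j : ℂ) + 1)⁻¹ • q) p, ?_, rfl⟩
      have := mem_valued.1 (Submodule.smul_mem _ (((j : ℂ) + 1)⁻¹) hqv) p
      simpa using this
    · have q0 := hqt 0
      have q1 := hqt 1
      simp [pairUp, ht0] at q0 q1
      rw [hHU]
      exact D₂_rot q (U := U) q0 q1 i k

/-- Exactness at the second place. -/
theorem exact₁ {j : ℕ} {w : ℤ} (hw : w = 0 ∨ w = 1) (n : ℤ) :
    ∀ H, MemH j w (n + 1) H → D₁ H = 0 →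
      ∃ s r, MemQ j w n s r ∧ ∀ i k, D₂X j s i k + D₂D j r i k = H i k := by
  rcases lt_or_ge n (-1) with hn | hn
  · intro H hH _
    exact ⟨0, 0, MemQ.zero j w n, fun i k => by
      rw [valued_neg_eq_zero (by omega) (hH.lev i k)]; simp [D₂X, D₂D, cX, cD, om_zero]⟩
  induction n, hn using Int.leInduction with
  | base => exact fun H hH h => exact₁_base hw (by simpa using hH) h
  | succ m hm ih =>
    intro H hH h
    obtain ⟨N, hN⟩ : ∃ N : ℕ, (N : ℤ) = m + 1 := ⟨(m + 1).toNat, Int.toNat_of_nonneg (by omega)⟩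
    obtain ⟨s, r, hQ, hlow⟩ := lower₁ (w := w) (n := N) (by omega) (H := H)
      (by rwa [show ((N + 1 : ℕ) : ℤ) = m + 1 + 1 by push_cast; omega])
      (by rw [h]; exact zero_mem _)
    rw [hN] at hlow hQ
    obtain ⟨s', r', hQ', he⟩ := ih _ hlow (by rw [D₁_sub, h, D₁_D₂ hQ, sub_zero])
    refine ⟨s + s', r + r', hQ.add (hQ'.mono (by omega)), fun i k => ?_⟩
    rw [D₂X_add, D₂D_add, add_add_add_comm, he]
    abel

theorem exact₂_base {j : ℕ} {w : ℤ} {s r : Fin 2 → Exp → Op} (hQ : MemQ j w (-1) s r)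
    (h : ∀ i k, D₂X j s i k + D₂D j r i k = 0) : s = 0 ∧ r = 0 := by
  have hc : cX s = 0 := valued_neg_eq_zero (by norm_num) hQ.levX.con
  have hr : r = 0 := funext fun l => funext fun p => by
    have := hQ.levD p
    rw [latD, fil_neg (by norm_num), fil_neg (by norm_num)] at this
    simp at this
    fin_cases l
    · exact this.1
    · exact this.2
  have hd : ∀ i k, dd i (s k) = 0 := by
    have hJ0 : ((j : ℂ) + 1) ≠ 0 := by exact_mod_cast Nat.succ_ne_zero j
    have a00 := h 0 0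
    have a01 := h 0 1
    have a10 := h 1 0
    have a11 := h 1 1
    simp [D₂X, D₂D, cD, hr, hc, om_zero, Fin.sum_univ_two, hJ0] at a00 a01 a10 a11
    intro i k
    fin_cases i <;> fin_cases k <;> assumption
  refine ⟨funext fun l => ?_, hr⟩
  have := euler_forms (hQ.degX l)
  rw [hd, hd, map_zero, map_zero, add_zero] at this
  exact (smul_eq_zero.1 this.symm).resolve_left (by exact_mod_cast Nat.succ_ne_zero j)

/-- Exactness at the third place, any weight. -/
theorem exact₂ {j : ℕ} {w : ℤ} (n : ℤ) : ∀ s r, MemQ j w n s r →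
    (∀ i k, D₂X j s i k + D₂D j r i k = 0) →
      ∃ G, G ∈ forms Op j ∧ G ∈ valued (fil w n) ∧ D₃X j G = s ∧ D₃D j G = r := by
  rcases lt_or_ge n (-1) with hn | hn
  · intro s r hQ h
    obtain ⟨rfl, rfl⟩ := exact₂_base (hQ.mono (by omega)) h
    exact ⟨0, zero_mem _, zero_mem _, by funext l; simp [D₃X, om_zero],
      by funext l; simp [D₃D, om_zero]⟩
  induction n, hn using Int.leInduction with
  | base =>
    intro s r hQ h
    obtain ⟨rfl, rfl⟩ := exact₂_base hQ h
    exact ⟨0, zero_mem _, zero_mem _, by funext l; simp [D₃X, om_zero],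
      by funext l; simp [D₃D, om_zero]⟩
  | succ m hm ih =>
    intro s r hQ h
    obtain ⟨N, hN⟩ : ∃ N : ℕ, (N : ℤ) = m + 1 := ⟨(m + 1).toNat, Int.toNat_of_nonneg (by omega)⟩
    obtain ⟨G, hGf, hG, hlow⟩ := lower₂ (w := w) (n := N) (s := s) (r := r) (hN.symm ▸ hQ)
      (fun i k => by rw [h i k]; exact zero_mem _)
    rw [show (N : ℤ) - 1 = m by omega] at hlow
    have hD : ∀ i k, D₂X j (s - D₃X j G) i k + D₂D j (r - D₃D j G) i k = 0 := fun i k => by
      have e := D₂_D₃ hGf i k
      have e1 := D₂X_add j (s - D₃X j G) (D₃X j G) i k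
      have e2 := D₂D_add j (r - D₃D j G) (D₃D j G) i k
      rw [sub_add_cancel] at e1 e2
      have := h i k
      rw [e1, e2] at this
      linear_combination (norm := module) this - e
    obtain ⟨G', hG'f, hG', he, he'⟩ := ih _ _ hlow hD
    refine ⟨G + G', add_mem hGf hG'f, add_mem (hN ▸ hG) (valued_mono (by omega) hG'), ?_, ?_⟩
    · have : D₃X j (G + G') = D₃X j G + D₃X j G' := by
        funext l
        simp [D₃X, map_add, om_add, Finset.sum_add_distrib, smul_add]
        abel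
      rw [this, he]; abel
    · have : D₃D j (G + G') = D₃D j G + D₃D j G' := by
        funext l
        simp [D₃D, map_add, om_add, Finset.sum_add_distrib, smul_add]
        abel
      rw [this, he']; abel

/-- The last differential is injective. -/
theorem exact₃ {j : ℕ} {w : ℤ} {G : Exp → Op} (n : ℕ) (hGf : G ∈ forms Op j)
    (hG : G ∈ valued (fil w n)) (hX : D₃X j G = 0) (hD : D₃D j G = 0) : G = 0 := by
  induction n with
  | zero => exact valued_neg_eq_zero (n := -1) (by norm_num) (by simpa using lowG 0 hG)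
  | succ m ih => exact ih (by simpa using lowG (m + 1) hG)
where
  lowG (n : ℕ) (hG : G ∈ valued (fil w n)) : G ∈ valued (fil w ((n : ℤ) - 1)) := by
    have hg : sy₀ n G ∈ forms Sym j := mapc_mem _ hGf
    obtain ⟨-, hc⟩ := sy₀_D₃X j hG
    obtain ⟨hΨ, -⟩ := sy₀_D₃D j hG
    have eC : ((j : ℂ) + 1) •
        (rm (X (.inl 1)) (xx 0 (sy₀ n G)) - rm (X (.inl 0)) (xx 1 (sy₀ n G))) = 0 := by
      have := congrArg (sy₀ n) hc
      rw [hX, map_smul, map_sub, sy₀_rm_x (valued_xx 0 hG), sy₀_rm_x (valued_xx 1 hG)] at this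
      simp only [sy₀, mapc_xx] at this ⊢
      rw [← this]
      funext p
      simp [mapc_apply, cX_apply, conX_apply]
    have eΨ : ∑ m, rm (X (.inl m)) (dd m (sy₀ n G)) = 0 := funext fun p => by
      have := congrFun (hΨ 0) p
      rw [hD] at this
      simpa [rm_apply, sy₀_apply, X_ne_zero] using this.symm
    have e := compA_D₃ hg 0
    rw [eC, eΨ] at e
    refine mem_valued.2 fun p => (symb_eq_zero_iff (mem_valued.1 hG p)).1 ?_
    have := congrFun e p
    have hJ0 : ((j : ℂ) + 1) ≠ 0 := by exact_mod_cast Nat.succ_ne_zero j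
    simpa [compA, pairUp, rm_apply, kx, sy₀_apply, hJ0, X_ne_zero] using this.symm

end Vale.Agent.P195.Exact
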