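import Vale.Agent.P195.Exact.LowRows
import Vale.Agent.P195.Model.Maps

/-!
P195: the cochains of the resolution into `A` are exact below the top degree.
-/

noncomputable section

namespace Vale.Agent.P195.Exact.Low

open Matrix Vale.Agent.P195.Weyl
open Vale.Agent.P195.Model hiding vm_single
open scoped TensorProduct

/-- The three degrees at `j`. -/
def deg (j : ℕ) : Deg (Model.Lm j) (Lp j) (Lp (j + 1)) where
  c := cc j
  hc := Nat.cast_add_one_ne_zero j
  xm := xP j
  dm := dP j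
  xq := xT j
  dq := dT j
  comm i k p := Subtype.ext <| by
    show d k (x i (p : Pol)) = _
    rw [← Module.End.mul_apply]
    rcases eq_or_ne i k with rfl | h
    · rw [d_x_self, if_pos rfl]; rfl
    · rw [d_x_ne h.symm, if_neg h, add_zero]; rfl
  euler p := Subtype.ext <| by
    show x 0 (d 0 (p : Pol)) + x 1 (d 1 (p : Pol)) = ((cc j - 1) • p : Lp j)
    rw [show cc j - 1 = (j : ℂ) by simp [cc]]
    exact euler_apply ((MvPolynomial.mem_homogeneousSubmodule _ _).mp p.2)
  eulerM t := Subtype.ext <| by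
    show d 0 (x 0 (t : Pol)) + d 1 (x 1 (t : Pol)) = cc j • (t : Pol)
    rw [← Module.End.mul_apply, ← Module.End.mul_apply, d_x_self, d_x_self]
    match j, t with
    | 0, t =>
      rw [show (t : Pol) = 0 from (Submodule.mem_bot ℂ).mp t.2]
      simp
    | i + 1, t =>
      have e := euler_apply ((MvPolynomial.mem_homogeneousSubmodule _ _).mp t.2)
      simp only [LinearMap.add_apply, Module.End.one_apply] at e ⊢
      simp only [cc]
      push_cast
      linear_combination (norm := module) e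
  eulerQ q := Subtype.ext <| by
    show x 0 (d 0 (q : Pol)) + x 1 (d 1 (q : Pol)) = cc j • (q : Pol)
    rw [show cc j = ((j + 1 : ℕ) : ℂ) by simp [cc]]
    exact euler_apply ((MvPolynomial.mem_homogeneousSubmodule _ _).mp q.2)
  commD q := Subtype.ext <| LinearMap.congr_fun (d_comm 1 0).eq (q : Pol)
  commX t := Subtype.ext <| by
    show x 1 (x 0 (t : Pol)) = x 0 (x 1 (t : Pol))
    simp only [x_apply]
    ring

/-- A component of `A` in lattice-shifting matrices, compatible with degree-zero matrices. -/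
structure Part (π : A →ₗ[ℂ] Mat) (s t : ℤ) : Prop where
  mul : ∀ (M : Mat) (hM : M ∈ hom 0 0) (g : A), π (ofB M hM * g) = M * π g
  mem : ∀ (k : Fin 5) (g : eX k A), π (g : A) ∈ rowsAt k s t

theorem part_b : Part bPart.toLinearMap 0 0 :=
  ⟨fun M hM g => by simp, fun k g => (rowsEquiv k g).1.2⟩

theorem part_m : Part mPart 1 2 :=
  ⟨fun M hM g => by simp [mPart_mul], fun k g => (rowsEquiv k g).2.2⟩

/-- One row of a matrix. -/
def rowL (r : Fin 7) : Mat →ₗ[ℂ] Row where
  toFun M := M r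
  map_add' _ _ := rfl
  map_smul' _ _ := rfl

/-- The module structure of a term, found at once. -/
local instance qmModule (k : Fin 5) (W : Type) [AddCommGroup W] [Module ℂ W] : Module A (Qm k W) :=
  TensorProduct.leftModule

variable (π : A →ₗ[ℂ] Mat) {s t : ℤ} {j : ℕ} {W : Type} [AddCommGroup W] [Module ℂ W]

/-- A row of one component of a cochain. -/
def slot {k : Fin 5} (r : Fin 7) (φ : Qm k W →ₗ[A] A) : W →ₗ[ℂ] Row :=
  (rowL r).comp (π.comp ((eX k A).subtype.comp (homEquiv k φ)))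

theorem slot_apply {k : Fin 5} (r : Fin 7) (φ : Qm k W →ₗ[A] A) (w : W) :
    slot π r φ w = π ((homEquiv k φ w : eX k A) : A) r := rfl

theorem neg_mul_op (u v : Op) : -u * v = -(u * v) := neg_mul u v

theorem single_mul_row (a b r c : Fin 7) (u : Op) (N : Mat) :
    (single a b u * N) r c = if a = r then u * N b c else 0 := by
  by_cases h : a = r
  · subst h; simp
  · simp [h, single_mul_apply_of_ne, Ne.symm h]

theorem sum_row {ι : Type*} (S : Finset ι) (f : ι → Mat) (r c : Fin 7) :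
    (∑ i ∈ S, f i) r c = ∑ i ∈ S, f i r c := Matrix.sum_apply r c S f

/-- The cochain of the first differential. -/
theorem slot_d1 (h : Part π s t) (φ : Q0 j →ₗ[A] A) (c : Fin 7) (w : W1 j) :
    slot π 5 (φ.comp (d1 j)) w c =
      ∑ i, ∑ k, dzero (deg j) (colOf c (slot π 6 φ)) i k (w i k) := by
  have e : ∀ i k p, aT j i k p = (deg j).xm i ((deg j).dm k p) := fun i k p => Subtype.ext rfl
  simp only [slot_apply, d1_cochain, smul_eq_mul, map_sum, map_add, h.mul, map_smul,
    Submodule.coe_smul, sum_row, Matrix.add_apply, Matrix.smul_apply, mA, mJ, single_mul_row,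
    if_true, Maps.a, one_mul, dzero_apply, colOf_apply, e, mul_smul_comm]
  refine Finset.sum_congr rfl fun i _ => Finset.sum_congr rfl fun k _ => ?_
  module

/-- The coordinates at the second vertex. -/
def coord (b : Q1 j →ₗ[A] A) (i k : Fin 2) : Lp j →ₗ[ℂ] Row := (slot π 5 b).comp (inW j i k)

theorem slot_d2p (h : Part π s t) (b : Q1 j →ₗ[A] A) (l : Fin 2) (c : Fin 7) (u : Model.Lm j) :
    slot π (sP l) (b.comp (d2p j)) u c =
      dplus (deg j) (fun i k => colOf c (coord π b i k)) l u := by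
  simp only [slot_apply, d2p_cochain, smul_eq_mul, map_add, h.mul, map_smul,
    Submodule.coe_smul, Matrix.add_apply, dplus_apply, Sk_apply,
    Tr_apply, colOf_apply, coord, LinearMap.comp_apply, Fin.sum_univ_two]
  fin_cases l <;>
  · simp [mBp, mUp, sP, Maps.δ, Maps.a, Maps.E, deg, cc, Fin.sum_univ_two,
      Matrix.add_mul, neg_mul_op, mul_assoc]
    simp only [eul, mul_add, add_mul, mul_sub, sub_mul, mul_smul_comm, smul_mul_assoc, one_mul,
      mul_assoc, d_x_self_mul, d0_x1_mul, d1_x0_mul, d1_d0_mul, x1_x0_mul]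
    try module

theorem slot_d2m (h : Part π s t) (b : Q1 j →ₗ[A] A) (l : Fin 2) (c : Fin 7)
    (q : Lp (j + 1)) :
    slot π (sM l) (b.comp (d2m j)) q c =
      dminus (deg j) (fun i k => colOf c (coord π b i k)) l q := by
  simp only [slot_apply, d2m_cochain, smul_eq_mul, map_add, h.mul, map_smul,
    Submodule.coe_smul, Matrix.add_apply, dminus_apply, Uk_apply,
    Tr_apply, colOf_apply, coord, LinearMap.comp_apply, Fin.sum_univ_two]
  fin_cases l <;>
  · simp [mBm, mUm, sM, Maps.δ, Maps.a, Maps.E, deg, cc, Fin.sum_univ_two,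
      Matrix.add_mul, neg_mul_op, mul_assoc]
    simp only [eul, mul_add, add_mul, mul_sub, sub_mul, mul_smul_comm, smul_mul_assoc, one_mul,
      mul_assoc, d_x_self_mul, d0_x1_mul, d1_x0_mul, d1_d0_mul, x1_x0_mul]
    try module

theorem slot_d3 (h : Part π s t) (φp : Qm 1 (Model.Lm j) →ₗ[A] A)
    (φm : Qm 2 (Lp (j + 1)) →ₗ[A] A) (c : Fin 7) (p : Lp j) :
    slot π 0 ((φp.coprod φm).comp (d3 j)) p c =
      psi (deg j) (fun l => colOf c (slot π (sP l) φp)) (fun l => colOf c (slot π (sM l) φm)) p := by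
  simp only [slot_apply, d3_cochain, smul_eq_mul, map_add, h.mul, map_smul,
    Submodule.coe_smul, Matrix.add_apply, psi, psiTerm, cplus_apply,
    cminus_apply, colOf_apply, Fin.sum_univ_two]
  simp [mGp, mVp, mGm, mVm, sP, sM, deg, cc, Fin.sum_univ_two, Matrix.add_mul, mul_assoc]
  simp only [eul, mul_add, add_mul, mul_sub, sub_mul, mul_smul_comm, smul_mul_assoc, one_mul,
    mul_assoc, d_x_self_mul, d0_x1_mul, d1_x0_mul, d1_d0_mul, x1_x0_mul]
  try module

/-- A matrix at a vertex with one slot is its row. -/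
theorem ext_row {k : Fin 5} {r : Fin 7} (hr : ∀ r', r' ≠ r → vx r' ≠ k) {M N : Mat}
    (hM : M ∈ rowsAt k s t) (hN : N ∈ rowsAt k s t) (e : M r = N r) : M = N := by
  funext r'
  rcases eq_or_ne r' r with rfl | h
  · exact e
  · rw [vproj_mul_eq_iff.1 (mem_rowsAt.1 hM).2 r' (hr r' h),
      vproj_mul_eq_iff.1 (mem_rowsAt.1 hN).2 r' (hr r' h)]

/-- Two elements at a vertex with one slot are equal when both rows agree. -/
theorem ext_eX {k : Fin 5} {r : Fin 7} (hr : ∀ r', r' ≠ r → vx r' ≠ k) {g g' : eX k A}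
    (hb : bPart (g : A) r = bPart (g' : A) r) (hm : mPart (g : A) r = mPart (g' : A) r) :
    g = g' :=
  Subtype.ext (ext_parts (ext_row hr (part_b.mem k g) (part_b.mem k g') hb)
    (ext_row hr (part_m.mem k g) (part_m.mem k g') hm))

/-- The matrix with one given row. -/
def rowMat (r : Fin 7) : Row →ₗ[ℂ] Mat where
  toFun v := Matrix.of (Pi.single r v)
  map_add' v v' := by simp [Pi.single_add]
  map_smul' c v := by simp [Pi.single_smul]

theorem rowMat_self (r : Fin 7) (v : Row) : rowMat r v r = v :=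
  Pi.single_eq_same (M := fun _ : Fin 7 => Row) r v

theorem rowMat_ne {r r' : Fin 7} (h : r' ≠ r) (v : Row) : rowMat r v r' = 0 :=
  Pi.single_eq_of_ne (M := fun _ : Fin 7 => Row) h v

theorem exists_cochain {k : Fin 5} (r : Fin 7) (Pb Pm : W →ₗ[ℂ] Row)
    (hb : ∀ w, rowMat r (Pb w) ∈ rowsAt k 0 0) (hm : ∀ w, rowMat r (Pm w) ∈ rowsAt k 1 2) :
    ∃ φ : Qm k W →ₗ[A] A,
      slot bPart.toLinearMap r φ = Pb ∧ slot mPart r φ = Pm := by
  let ψ : W →ₗ[ℂ] eX k A := (rowsEquiv k).symm.toLinearMap.comp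
    ((((rowMat r).comp Pb).codRestrict _ hb).prod (((rowMat r).comp Pm).codRestrict _ hm))
  refine ⟨(homEquiv k).symm ψ, LinearMap.ext fun w => ?_, LinearMap.ext fun w => ?_⟩
  · rw [slot_apply, Equiv.apply_symm_apply]; exact rowMat_self r _
  · rw [slot_apply, Equiv.apply_symm_apply]; exact rowMat_self r _

theorem hr4 : ∀ r' : Fin 7, r' ≠ 6 → vx r' ≠ 4 := by decide

theorem hr3 : ∀ r' : Fin 7, r' ≠ 5 → vx r' ≠ 3 := by decide

theorem slot4_mem (h : Part π s t) (φ : Qm 4 W →ₗ[A] A) (w : W) :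
    slot π 6 φ w ∈ lat s (t - 2) := (mem_rowsAt_four.1 (h.mem 4 _)).1

theorem coord_mem (h : Part π s t) (b : Q1 j →ₗ[A] A) (i k : Fin 2) (p : Lp j) :
    coord π b i k p ∈ lat s (t - 1) := (mem_rowsAt_three.1 (h.mem 3 _)).1

theorem inW_self (i k : Fin 2) (p : Lp j) : inW j i k p i k = p := by simp [inW]

theorem sum_inW (w : W1 j) : w = ∑ i, ∑ k, inW j i k (w i k) := by
  funext a b
  fin_cases a <;> fin_cases b <;> simp [inW, Fin.sum_univ_two]

theorem dzero_slot (h : Part π s t) (φ : Q0 j →ₗ[A] A) (c : Fin 7) (i k : Fin 2) :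
    dzero (deg j) (colOf c (slot π 6 φ)) i k = colOf c (coord π (φ.comp (d1 j)) i k) := by
  refine LinearMap.ext fun p => ?_
  rw [colOf_apply]
  show _ = slot π 5 (φ.comp (d1 j)) (inW j i k p) c
  rw [slot_d1 π h]
  fin_cases i <;> fin_cases k <;> simp [inW, Fin.sum_univ_two]

/-- Degree zero: a cochain killed by the first differential vanishes. -/
theorem low_zero (a : Q0 j →ₗ[A] A) (ha : a ∘ₗ d1 j = 0) : a = 0 := by
  have key : ∀ {π : A →ₗ[ℂ] Mat} {s t : ℤ}, Part π s t → slot π 6 a = 0 := fun {π _ _} h =>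
    rows_zero (deg j) _ (slot4_mem π h a) fun c => by
      funext i k
      rw [dzero_slot π h, ha]
      exact LinearMap.ext fun p => by simp [colOf_apply, coord, slot_apply]
  refine (homEquiv (X := A) 4).injective ?_
  refine LinearMap.ext fun w => ext_eX hr4 ?_ ?_
  · exact (LinearMap.congr_fun (key part_b) w).trans rfl
  · exact (LinearMap.congr_fun (key part_m) w).trans rfl

/-- Degree one: cocycles are coboundaries. -/
theorem low_one (b : Q1 j →ₗ[A] A) (hb : b ∘ₗ d2 j = 0) :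
    ∃ a : Q0 j →ₗ[A] A, a ∘ₗ d1 j = b := by
  have hbp : b.comp (d2p j) = 0 := LinearMap.ext fun u => by
    simpa [d2] using LinearMap.congr_fun hb (u, 0)
  have hbm : b.comp (d2m j) = 0 := LinearMap.ext fun u => by
    simpa [d2] using LinearMap.congr_fun hb (0, u)
  have key : ∀ {π : A →ₗ[ℂ] Mat} {s t : ℤ}, Part π s t → ∃ X : Lp j →ₗ[ℂ] Row,
      (∀ p, X p ∈ lat s (t - 2)) ∧
        ∀ c, dzero (deg j) (colOf c X) = fun i k => colOf c (coord π b i k) := fun {π _ _} h =>
    rows_one (deg j) _ (coord_mem π h b)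
      (fun c => by
        funext l
        refine LinearMap.ext fun u => ?_
        rw [← slot_d2p π h, hbp]
        simp [slot_apply])
      (fun c => by
        funext l
        refine LinearMap.ext fun u => ?_
        rw [← slot_d2m π h, hbm]
        simp [slot_apply])
  obtain ⟨Xb, hXb, eb⟩ := key part_b
  obtain ⟨Xm, hXm, em⟩ := key part_m
  obtain ⟨a, hab, ham⟩ := exists_cochain (k := 4) 6 Xb Xm
    (fun w => mem_rowsAt_four.2 (by simpa [rowMat_self, rowMat_ne] using hXb w))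
    (fun w => mem_rowsAt_four.2 (by simpa [rowMat_self, rowMat_ne] using hXm w))
  refine ⟨a, (homEquiv 3).injective (LinearMap.ext fun w => ext_eX hr3 ?_ ?_)⟩
  · show slot bPart.toLinearMap 5 (a ∘ₗ d1 j) w = slot bPart.toLinearMap 5 b w
    funext c
    rw [slot_d1 _ part_b]
    conv_rhs => rw [sum_inW w]
    rw [hab, eb]
    simp [colOf_apply, coord]
  · show slot mPart 5 (a ∘ₗ d1 j) w = slot mPart 5 b w
    funext c
    rw [slot_d1 _ part_m]
    conv_rhs => rw [sum_inW w]
    rw [ham, em]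
    simp [colOf_apply, coord]

theorem hrP : ∀ r' : Fin 7, r' ≠ 1 → r' ≠ 2 → vx r' ≠ 1 := by decide

theorem hrM : ∀ r' : Fin 7, r' ≠ 3 → r' ≠ 4 → vx r' ≠ 2 := by decide

/-- Elements at a vertex with two slots are equal when both pairs of rows agree. -/
theorem ext_eX₂ {k : Fin 5} {r₀ r₁ : Fin 7} (hr : ∀ r', r' ≠ r₀ → r' ≠ r₁ → vx r' ≠ k)
    {g g' : eX k A}
    (hb : bPart (g : A) r₀ = bPart (g' : A) r₀ ∧ bPart (g : A) r₁ = bPart (g' : A) r₁)
    (hm : mPart (g : A) r₀ = mPart (g' : A) r₀ ∧ mPart (g : A) r₁ = mPart (g' : A) r₁) :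
    g = g' := by
  have key : ∀ {π : A →ₗ[ℂ] Mat} {s t : ℤ}, Part π s t →
      π (g : A) r₀ = π (g' : A) r₀ ∧ π (g : A) r₁ = π (g' : A) r₁ → π (g : A) = π (g' : A) := by
    intro π s t h e
    funext r
    by_cases h0 : r = r₀
    · rw [h0]; exact e.1
    by_cases h1 : r = r₁
    · rw [h1]; exact e.2
    rw [vproj_mul_eq_iff.1 (mem_rowsAt.1 (h.mem k g)).2 r (hr r h0 h1),
      vproj_mul_eq_iff.1 (mem_rowsAt.1 (h.mem k g')).2 r (hr r h0 h1)]
  exact Subtype.ext (ext_parts (key part_b hb) (key part_m hm))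

/-- Degree two: cocycles are coboundaries. -/
theorem low_two (z : Q2 j →ₗ[A] A) (hz : z ∘ₗ d3 j = 0) :
    ∃ b : Q1 j →ₗ[A] A, b ∘ₗ d2 j = z := by
  set φp := z ∘ₗ LinearMap.inl A _ _ with hp
  set φm := z ∘ₗ LinearMap.inr A _ _ with hm
  have hz' : z = φp.coprod φm := (LinearMap.coprod_comp_inl_inr z).symm
  have key : ∀ {π : A →ₗ[ℂ] Mat} {s t : ℤ}, Part π s t → 0 ≤ s → s ≤ 1 → (1 ≤ t ∨ s + t ≤ 0) →
      ∃ P : Fin 2 → Fin 2 → Lp j →ₗ[ℂ] Row, (∀ i k p, P i k p ∈ lat s (t - 1)) ∧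
      ∀ c, dplus (deg j) (fun i k => colOf c (P i k)) = (fun l => colOf c (slot π (sP l) φp)) ∧
        dminus (deg j) (fun i k => colOf c (P i k)) = fun l => colOf c (slot π (sM l) φm) := by
    intro π s t h h0 h1 h2
    have hp1 := fun u => (mem_rowsAt_one.1 (h.mem 1 (homEquiv 1 φp u))).1
    have hm1 := fun u => (mem_rowsAt_two.1 (h.mem 2 (homEquiv 2 φm u))).1
    refine rows_two (deg j) h0 h1 h2 _ _ (fun l u => ?_) (fun l u => ?_) (fun u => (hp1 u).2.2)
      (fun u => (hm1 u).2.2) fun c p => ?_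
    · fin_cases l
      · exact (hp1 u).1
      · exact (hp1 u).2.1
    · fin_cases l
      · exact (hm1 u).1
      · exact (hm1 u).2.1
    · rw [← slot_d3 π h, ← hz', hz]
      simp [slot_apply]
  obtain ⟨Pb, hPb, eb⟩ := key part_b le_rfl zero_le_one (Or.inr le_rfl)
  obtain ⟨Pm, hPm, em⟩ := key part_m zero_le_one le_rfl (Or.inl (by norm_num))
  obtain ⟨b, hbb, hbm⟩ := exists_cochain (k := 3) 5
    (∑ i, ∑ k, (Pb i k).comp (pr j i k)) (∑ i, ∑ k, (Pm i k).comp (pr j i k))
    (fun w => mem_rowsAt_three.2 (by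
      simp only [rowMat_self, ne_eq, Fin.reduceEq, not_false_eq_true, rowMat_ne, and_self,
        and_true, LinearMap.sum_apply, LinearMap.comp_apply]
      exact Submodule.sum_mem _ fun i _ => Submodule.sum_mem _ fun k _ => hPb i k _))
    (fun w => mem_rowsAt_three.2 (by
      simp only [rowMat_self, ne_eq, Fin.reduceEq, not_false_eq_true, rowMat_ne, and_self,
        and_true, LinearMap.sum_apply, LinearMap.comp_apply]
      exact Submodule.sum_mem _ fun i _ => Submodule.sum_mem _ fun k _ => hPm i k _))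
  have cb : ∀ {π : A →ₗ[ℂ] Mat} (P : Fin 2 → Fin 2 → Lp j →ₗ[ℂ] Row),
      slot π 5 b = ∑ i, ∑ k, (P i k).comp (pr j i k) → ∀ i k, coord π b i k = P i k := by
    intro π P e i k
    refine LinearMap.ext fun p => ?_
    show slot π 5 b (inW j i k p) = _
    rw [e]
    fin_cases i <;> fin_cases k <;> simp [pr, inW, Fin.sum_univ_two]
  have ebb := cb Pb hbb
  have ebm := cb Pm hbm
  have plus : ∀ {π : A →ₗ[ℂ] Mat} {s t : ℤ} (P : Fin 2 → Fin 2 → Lp j →ₗ[ℂ] Row), Part π s t →
      (∀ i k, coord π b i k = P i k) →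
      (∀ c, dplus (deg j) (fun i k => colOf c (P i k)) = (fun l => colOf c (slot π (sP l) φp)) ∧
        dminus (deg j) (fun i k => colOf c (P i k)) = fun l => colOf c (slot π (sM l) φm)) →
      (∀ l u, slot π (sP l) (b.comp (d2p j)) u = slot π (sP l) φp u) ∧
        ∀ l q, slot π (sM l) (b.comp (d2m j)) q = slot π (sM l) φm q := by
    intro π s t P h e hP
    refine ⟨fun l u => funext fun c => ?_, fun l q => funext fun c => ?_⟩
    · rw [slot_d2p π h]
      simp only [e, (hP c).1]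
      rfl
    · rw [slot_d2m π h]
      simp only [e, (hP c).2]
      rfl
  obtain ⟨bp, bm⟩ := plus Pb part_b ebb eb
  obtain ⟨mp, mm⟩ := plus Pm part_m ebm em
  refine ⟨b, ?_⟩
  rw [hz', d2, LinearMap.comp_coprod]
  congr 1
  · refine (homEquiv (X := A) 1).injective ?_
    exact LinearMap.ext fun u => ext_eX₂ hrP ⟨bp 0 u, bp 1 u⟩ ⟨mp 0 u, mp 1 u⟩
  · refine (homEquiv (X := A) 2).injective ?_
    exact LinearMap.ext fun u => ext_eX₂ hrM ⟨bm 0 u, bm 1 u⟩ ⟨mm 0 u, mm 1 u⟩

end Vale.Agent.P195.Exact.Low
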