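import Vale.Agent.P195.Exact.LowSymb

/-!
P195: exactness of the low cochain maps with values in one filtered piece of the operators of
weight `w ∈ {0, 1}`, by descent on the order.
-/

noncomputable section

namespace Vale.Agent.P195.Exact.Low

open MvPolynomial
open Vale.Agent.P195.Weyl
open Vale.Agent.P195.Orbit

/-- Descent on the level. -/
theorem level_induction {P : ℤ → Prop} (hneg : ∀ n < 0, P n)
    (step : ∀ N : ℕ, P ((N : ℤ) - 1) → P N) (n : ℤ) : P n := by
  rcases lt_or_ge n 0 with h | h
  · exact hneg n h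
  obtain ⟨N, rfl⟩ := Int.eq_ofNat_of_zero_le h
  clear h
  induction N with
  | zero => exact step 0 (hneg _ (by simp))
  | succ N ih => exact step (N + 1) (by simpa using ih)

variable {Lm L0 Lq : Type*} [AddCommGroup Lm] [Module ℂ Lm] [AddCommGroup L0] [Module ℂ L0]
  [AddCommGroup Lq] [Module ℂ Lq] (F : Deg Lm L0 Lq)

theorem eq_zero_of_fil {w n : ℤ} (hn : n < 0) {u : Op} (hu : u ∈ fil w n) : u = 0 := by
  rw [fil_neg hn, Submodule.mem_bot] at hu
  exact hu

/-- The cochains on the third space in weight `w` and level `n`. -/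
structure Third (w n : ℤ) (rp : Fin 2 → Lm →ₗ[ℂ] Op) (rm : Fin 2 → Lq →ₗ[ℂ] Op) : Prop where
  plus : ∀ l t, rp l t ∈ fil w n
  minus : ∀ l q, rm l q ∈ fil w n
  conPlus : ∀ t, cplus rp t ∈ fil (w - 1) n
  conMinus : ∀ q, cminus rm q ∈ fil (w + 1) (n - 1)

theorem dzero_mem {w n : ℤ} {X : L0 →ₗ[ℂ] Op} (hX : ∀ p, X p ∈ fil w (n - 1)) (i k : Fin 2)
    (p : L0) : dzero F X i k p ∈ fil w n := by
  refine sub_mem (fil_mono ?_ (xd_mul_fil (hX p) i k)) (fil_mono ?_ (hX _)) <;> omega

theorem third_dpm {w n : ℤ} {P : Fin 2 → Fin 2 → L0 →ₗ[ℂ] Op}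
    (hP : ∀ i k p, P i k p ∈ fil w (n - 1)) : Third w n (dplus F P) (dminus F P) := by
  have up : ∀ {u}, u ∈ fil w (n - 1) → u ∈ fil w n := fun h => fil_mono (by omega) h
  have xd : ∀ {u} (i l : Fin 2), u ∈ fil w (n - 1) → x i * d l * u ∈ fil w n :=
    fun i l h => fil_mono (by omega) (xd_mul_fil h i l)
  have dd : ∀ {u} (l : Fin 2), u ∈ fil w (n - 1) → d l * u ∈ fil (w - 1) n :=
    fun l h => fil_mono (by omega) (d_mul_mem h l)
  refine ⟨fun l t => ?_, fun l q => ?_, fun t => ?_, fun q => ?_⟩
  · have hS := fun i => Sk_mem F hP i t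
    rw [dplus_apply, eul, add_mul, add_mul, one_mul]
    exact add_mem (sub_mem (sub_mem (sub_mem (add_mem (add_mem (xd 0 0 (hS _)) (xd 1 1 (hS _)))
      (up (hS _))) (xd _ _ (hS _))) (xd _ _ (hS _))) (Submodule.smul_mem _ _ (up (hS _))))
      (Submodule.smul_mem _ _ (up (Tr_mem hP _)))
  · have hS := fun i => Uk_mem F hP i q
    rw [dminus_apply, eul, add_mul]
    exact add_mem (sub_mem (sub_mem (sub_mem (add_mem (xd 0 0 (hS _)) (xd 1 1 (hS _)))
      (xd _ _ (hS _))) (xd _ _ (hS _))) (Submodule.smul_mem _ _ (up (hS _))))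
      (Submodule.smul_mem _ _ (up (Tr_mem hP _)))
  · rw [cplus_dplus]
    exact Submodule.smul_mem _ _ (sub_mem (sub_mem (add_mem (dd _ (Tr_mem hP _))
      (dd _ (Tr_mem hP _))) (dd _ (Sk_mem F hP _ _))) (dd _ (Sk_mem F hP _ _)))
  · rw [cminus_dminus]
    exact Submodule.smul_mem _ _ (sub_mem (sub_mem (add_mem (x_mul_fil (Tr_mem hP _) _)
      (x_mul_fil (Tr_mem hP _) _)) (x_mul_fil (Uk_mem F hP _ _) _))
      (x_mul_fil (Uk_mem F hP _ _) _))

theorem dplus_add (P Q : Fin 2 → Fin 2 → L0 →ₗ[ℂ] Op) :
    dplus F (P + Q) = dplus F P + dplus F Q := by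
  funext l
  refine LinearMap.ext fun t => ?_
  simp only [Pi.add_apply, LinearMap.add_apply, dplus_apply, Sk_apply, Tr_apply, mul_add]
  module

theorem dminus_add (P Q : Fin 2 → Fin 2 → L0 →ₗ[ℂ] Op) :
    dminus F (P + Q) = dminus F P + dminus F Q := by
  funext l
  refine LinearMap.ext fun t => ?_
  simp only [Pi.add_apply, LinearMap.add_apply, dminus_apply, Uk_apply, Tr_apply, mul_add]
  module

theorem dplus_sub (P Q : Fin 2 → Fin 2 → L0 →ₗ[ℂ] Op) :
    dplus F (P - Q) = dplus F P - dplus F Q := by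
  funext l
  refine LinearMap.ext fun t => ?_
  simp only [Pi.sub_apply, LinearMap.sub_apply, dplus_apply, Sk_apply, Tr_apply, mul_add, mul_sub]
  module

theorem dminus_sub (P Q : Fin 2 → Fin 2 → L0 →ₗ[ℂ] Op) :
    dminus F (P - Q) = dminus F P - dminus F Q := by
  funext l
  refine LinearMap.ext fun t => ?_
  simp only [Pi.sub_apply, LinearMap.sub_apply, dminus_apply, Uk_apply, Tr_apply, mul_add, mul_sub]
  module

theorem dzero_add (X Y : L0 →ₗ[ℂ] Op) : dzero F (X + Y) = dzero F X + dzero F Y := by
  funext i k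
  refine LinearMap.ext fun p => ?_
  simp only [Pi.add_apply, LinearMap.add_apply, dzero_apply, mul_add]
  module

theorem dzero_zero : dzero F (0 : L0 →ₗ[ℂ] Op) = 0 := by
  funext i k
  exact LinearMap.ext fun p => by simp [dzero_apply]

theorem dplus_zero : dplus F (0 : Fin 2 → Fin 2 → L0 →ₗ[ℂ] Op) = 0 := by
  funext l
  exact LinearMap.ext fun t => by simp [dplus_apply, Sk_apply, Tr_apply]

theorem dminus_zero : dminus F (0 : Fin 2 → Fin 2 → L0 →ₗ[ℂ] Op) = 0 := by
  funext l
  exact LinearMap.ext fun t => by simp [dminus_apply, Uk_apply, Tr_apply]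

/-- The first map is injective. -/
theorem core_zero (w n : ℤ) : ∀ X : L0 →ₗ[ℂ] Op, (∀ p, X p ∈ fil w n) → dzero F X = 0 → X = 0 := by
  induction n using level_induction with
  | hneg n hn => exact fun X hX _ => LinearMap.ext fun p => eq_zero_of_fil hn (hX p)
  | step N ih =>
    refine fun X hX h0 => ih X (fun p => (symb_eq_zero_iff (hX p)).1 ?_) h0
    have h : dzero F X 0 0 p = 0 := by rw [h0]; rfl
    have e := congrArg (symb (N + 1)) h
    rw [dzero_apply, map_sub, map_zero, symb_xd_mul (hX p), symb_low (hX _), sub_zero] at e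
    exact (mul_eq_zero.1 ((mul_eq_zero.1 e).resolve_left (X_ne_zero _))).resolve_left (X_ne_zero _)

/-- Cochains at the second vertex with vanishing symbols of images have symbols `x i y k η`. -/
theorem symb_kernel {w : ℤ} {N : ℕ} {P : Fin 2 → Fin 2 → L0 →ₗ[ℂ] Op}
    (hP : ∀ i k p, P i k p ∈ fil w N) (vp : Vp F (sigP N P) = 0) (vm : Vm F (sigP N P) = 0)
    (gp : Γp F (sigP N P) = 0) (gm : Γm F (sigP N P) = 0) (p : L0) :
    ∃ η, η ∈ Binary.R (w + N - 1) ((N : ℤ) - 1) ∧
      ∀ i k, X (.inl i) * (X (.inr k) * η) = symb N (P i k p) := by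
  have hc : F.c * F.c ≠ 0 := mul_ne_zero F.hc F.hc
  have hy : ∀ i, Binary.cy (adj (fun a b => sigP N P a b p) i) = 0 := fun i => by
    have := Hs_image F (sigP N P) i p
    rw [gp, vm] at this
    refine smul_right_injective Sym hc ?_
    simp only [smul_zero]
    rw [← this]
    fin_cases i <;> simp [Hs]
  have hx : ∀ l, Binary.cx (fun i => adj (fun a b => sigP N P a b p) i l) = 0 := fun l => by
    have := Gs_image F (sigP N P) l p
    rw [gm, vp] at this
    refine smul_right_injective Sym hc ?_
    simp only [smul_zero]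
    rw [← neg_eq_zero, ← this]
    fin_cases l <;> simp [Gs]
  have hR : ∀ i l, adj (fun a b => sigP N P a b p) i l ∈ Binary.R (w + N) (N : ℤ) := by
    intro i l
    fin_cases i <;> fin_cases l <;>
      simp [adj, sigP, symb_R (hP _ _ _)]
  obtain ⟨η, hη, he⟩ := Binary.dual_mid hR hy hx
  refine ⟨η, hη, fun i k => ?_⟩
  have e00 := he 0 0
  have e01 := he 0 1
  have e10 := he 1 0
  have e11 := he 1 1
  simp [adj, sigP, Binary.sy, Binary.sx] at e00 e01 e10 e11
  fin_cases i <;> fin_cases k <;> simp only [Fin.isValue, Fin.zero_eta, Fin.mk_one] <;>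
    first | linear_combination -e00 | linear_combination -e01 | linear_combination -e10 |
      linear_combination -e11

/-- Exactness at the second vertex. -/
theorem core_one (w n : ℤ) : ∀ P : Fin 2 → Fin 2 → L0 →ₗ[ℂ] Op, (∀ i k p, P i k p ∈ fil w n) →
    dplus F P = 0 → dminus F P = 0 →
    ∃ X : L0 →ₗ[ℂ] Op, (∀ p, X p ∈ fil w (n - 1)) ∧ dzero F X = P := by
  induction n using level_induction with
  | hneg n hn =>
    refine fun P hP _ _ => ⟨0, fun p => zero_mem _, ?_⟩
    funext i k
    exact LinearMap.ext fun p => by rw [dzero_zero, eq_zero_of_fil hn (hP i k p)]; rfl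
  | step N ih =>
    intro P hP hp hm
    have vp : Vp F (sigP N P) = 0 := LinearMap.ext fun t => Binary.sy_eq_zero (funext fun l => by
      rw [← symb_dplus F hP l t, hp]; simp)
    have vm : Vm F (sigP N P) = 0 := LinearMap.ext fun t => Binary.sx_eq_zero (funext fun l => by
      rw [← symb_dminus F hP l t, hm]; simp)
    have gp : Γp F (sigP N P) = 0 := LinearMap.ext fun t => by
      rw [← symb_cplus_dplus F hP t, hp]; simp [cplus_apply]
    have gm : Γm F (sigP N P) = 0 := LinearMap.ext fun t => by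
      rw [← symb_cminus_dminus F hP t, hm]; simp [cminus_apply]
    have kerm := symb_kernel F hP vp vm gp gm
    rcases N with _ | M
    · have hz : ∀ i k p, P i k p ∈ fil w ((0 : ℕ) - 1 : ℤ) := fun i k p => by
        obtain ⟨η, hη, he⟩ := kerm p
        refine (symb_eq_zero_iff (hP i k p)).1 ?_
        rw [← he, Binary.eq_zero_of_neg hη (Or.inr (by simp)), mul_zero, mul_zero]
      obtain ⟨Y, hY, e⟩ := ih P hz hp hm
      exact ⟨Y, fun p => fil_mono (by omega) (hY p), e⟩
    · obtain ⟨X₀, hX₀, hsX₀⟩ := exists_lift (fil w (M : ℤ))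
        (LinearMap.pi fun i : Fin 2 => LinearMap.pi fun k : Fin 2 =>
          (mlS (X (.inl i))).comp ((mlS (X (.inr k))).comp (symb M)))
        (LinearMap.pi fun i => LinearMap.pi fun k => sigP (M + 1) P i k) fun p => by
          obtain ⟨η, hη, he⟩ := kerm p
          obtain ⟨u, hu, hsu⟩ := exists_symb (w := w) (n := M) (f := η) (by
            convert hη using 2 <;> push_cast <;> ring)
          exact ⟨u, hu, funext fun i => funext fun k => by simp [hsu, sigP, he]⟩
      have hd : ∀ i k p, (P - dzero F X₀) i k p ∈ fil w ((M : ℕ) : ℤ) := by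
        intro i k p
        have h1 : P i k p - dzero F X₀ i k p ∈ fil w ((M + 1 : ℕ) : ℤ) :=
          sub_mem (hP i k p) (dzero_mem F (fun q => by simpa using hX₀ q) i k p)
        have := (symb_eq_zero_iff h1).1 (by
          rw [map_sub, dzero_apply, map_sub, symb_xd_mul (hX₀ p), symb_low (hX₀ _), sub_zero]
          have e : X (.inl i) * (X (.inr k) * symb M (X₀ p)) = symb (M + 1) (P i k p) :=
            congrFun (congrFun (hsX₀ p) i) k
          rw [e, sub_self])
        simpa using this
      have sp : dplus F (P - dzero F X₀) = 0 := by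
        rw [dplus_sub, hp, dplus_dzero]; funext l; exact LinearMap.ext fun t => by simp
      have sm : dminus F (P - dzero F X₀) = 0 := by
        rw [dminus_sub, hm, dminus_dzero]; funext l; exact LinearMap.ext fun t => by simp
      obtain ⟨Y, hY, e⟩ := ih (P - dzero F X₀) (fun i k p => by simpa using hd i k p) sp sm
      refine ⟨X₀ + Y, fun p => add_mem ?_ ?_, by
        rw [dzero_add, e]; funext i k
        exact LinearMap.ext fun p => by simp⟩
      · simpa using hX₀ p
      · exact fil_mono (by omega) (hY p)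

/-- The pairs of a cochain on the second space, as a map of operators. -/
def pairMap (M : ℕ) : (Fin 2 → Fin 2 → Op) →ₗ[ℂ] (Fin 2 → Sym) × (Fin 2 → Sym) where
  toFun u := (fun i => (F.c * F.c) • Binary.cy (adj (fun a b => symb M (u a b)) i),
    fun l => -((F.c * F.c) • Binary.cx fun i => adj (fun a b => symb M (u a b)) i l))
  map_add' u v := by
    refine Prod.ext (funext fun i => ?_) (funext fun l => ?_)
    · fin_cases i <;> simp [Binary.cy, adj, mul_add] <;> module
    · fin_cases l <;> simp [Binary.cx, adj, mul_add] <;> module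
  map_smul' a v := by
    refine Prod.ext (funext fun i => ?_) (funext fun l => ?_)
    · fin_cases i <;> simp [Binary.cy, adj] <;> module
    · fin_cases l <;> simp [Binary.cx, adj] <;> module

/-- Every closed pair is the pair of an image. -/
theorem exists_image {w : ℤ} {M : ℕ} (hw0 : 0 ≤ w) (γp : Lm →ₗ[ℂ] Sym) (γm : Lq →ₗ[ℂ] Sym)
    (vp : Lm →ₗ[ℂ] Sym) (vm : Lq →ₗ[ℂ] Sym)
    (hH : ∀ i p, Hs F γp vm i p ∈ Binary.R (w + M) ((M : ℤ) + 1))
    (hG : ∀ l p, Gs F γm vp l p ∈ Binary.R (w + M + 1) (M : ℤ))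
    (hsum : ∀ p, Binary.cx (fun i => Hs F γp vm i p) + Binary.cy (fun l => Gs F γm vp l p) = 0) :
    ∃ P : Fin 2 → Fin 2 → L0 →ₗ[ℂ] Op, (∀ a b p, P a b p ∈ fil w (M : ℤ)) ∧
      (∀ i p, Hs F γp vm i p = Hs F (Γp F (sigP M P)) (Vm F (sigP M P)) i p) ∧
      ∀ l p, Gs F γm vp l p = Gs F (Γm F (sigP M P)) (Vp F (sigP M P)) l p := by
  have hc : F.c * F.c ≠ 0 := mul_ne_zero F.hc F.hc
  obtain ⟨φ, hφ, hsφ⟩ := exists_lift
    (Submodule.pi Set.univ fun _ : Fin 2 => Submodule.pi Set.univ fun _ : Fin 2 => fil w (M : ℤ))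
    (pairMap F M) ((LinearMap.pi (Hs F γp vm)).prod (LinearMap.pi (Gs F γm vp))) fun p => by
      obtain ⟨m, hm, hmH, hmG⟩ := Binary.dual_top (a := w + M + 1) (b := (M : ℤ) + 1) (by omega)
        (by omega) (p := fun i => Hs F γp vm i p) (fun i => by simpa using hH i p)
        (r := fun l => -Gs F γm vp l p) (fun l => by simpa using hG l p)
        (by have := hsum p; simp [Binary.cx, Binary.cy] at this ⊢; linear_combination this)
      have hR : ∀ i l, m i l ∈ Binary.R (w + M) (M : ℤ) := fun i l => by simpa using hm i l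
      choose u hu hsu using fun i l => exists_symb (hR i l)
      refine ⟨(F.c * F.c)⁻¹ • ![![u 1 1, -u 1 0], ![-u 0 1, u 0 0]],
        Submodule.smul_mem _ _ fun a _ b _ => ?_, ?_⟩
      · fin_cases a <;> fin_cases b <;> simp [hu]
      · have e : pairMap F M ![![u 1 1, -u 1 0], ![-u 0 1, u 0 0]] =
            (F.c * F.c) • ((fun i => Hs F γp vm i p), fun l => Gs F γm vp l p) := by
          refine Prod.ext (funext fun i => ?_) (funext fun l => ?_)
          · have := congrFun hmH i
            fin_cases i <;> simp [pairMap, adj, hsu, Binary.cy] at this ⊢ <;> simp [this]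
          · have h : Gs F γm vp l p = -Binary.cx (fun i => m i l) := by
              rw [← congrFun hmG l, neg_neg]
            fin_cases l <;> simp [pairMap, adj, hsu, Binary.cx] at h ⊢ <;> simp [h]
        rw [map_smul, e, inv_smul_smul₀ hc]
        rfl
  refine ⟨fun a b => (LinearMap.proj b).comp ((LinearMap.proj a).comp φ),
    fun a b p => hφ p a trivial b trivial, fun i p => ?_, fun l p => ?_⟩
  · rw [Hs_image]; exact (congrFun (congrArg Prod.fst (hsφ p)) i).symm
  · rw [Gs_image]; exact (congrFun (congrArg Prod.snd (hsφ p)) l).symm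

/-- Exactness at the third vertex. -/
theorem core_two {w : ℤ} (hw0 : 0 ≤ w) (hw1 : w ≤ 1) (n : ℤ) :
    ∀ rp rm, Third w n rp rm → (∀ p, psi F rp rm p = 0) →
    ∃ P : Fin 2 → Fin 2 → L0 →ₗ[ℂ] Op, (∀ i k p, P i k p ∈ fil w (n - 1)) ∧
      dplus F P = rp ∧ dminus F P = rm := by
  induction n using level_induction with
  | hneg n hn =>
    refine fun rp rm hr _ => ⟨0, fun i k p => zero_mem _, ?_, ?_⟩
    · rw [dplus_zero]; funext l
      exact LinearMap.ext fun t => (eq_zero_of_fil hn (hr.plus l t)).symm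
    · rw [dminus_zero]; funext l
      exact LinearMap.ext fun t => (eq_zero_of_fil hn (hr.minus l t)).symm
  | step N ih =>
    intro rp rm hr hpsi
    obtain ⟨vp, hvpR, hvp⟩ := exists_lift (Binary.R (w + N) ((N : ℤ) - 1)) syL
      (LinearMap.pi fun l => (symb N).comp (rp l)) fun t => by
        obtain ⟨v, hv, e⟩ := Binary.ker_cy (u := fun l => symb N (rp l t))
          (fun l => symb_R (hr.plus l t)) (by
            have h := symb_eq_zero_of_lt (n := N + 1) (hr.conPlus t) (by push_cast; omega)
            rw [cplus_apply, map_add, symb_d_mul (hr.plus 0 t), symb_d_mul (hr.plus 1 t)] at h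
            exact h)
        exact ⟨v, hv, e.symm⟩
    obtain ⟨vm, hvmR, hvm⟩ := exists_lift (Binary.R (w + N - 1) (N : ℤ)) sxL
      (LinearMap.pi fun l => (symb N).comp (rm l)) fun q => by
        obtain ⟨v, hv, e⟩ := Binary.ker_cx (u := fun l => symb N (rm l q))
          (fun l => symb_R (hr.minus l q)) (by
            have h := symb_eq_zero_of_lt (n := N) (hr.conMinus q) (by omega)
            rw [cminus_apply, map_add, symb_x_mul (hr.minus 0 q), symb_x_mul (hr.minus 1 q)] at h
            exact h)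
        exact ⟨v, hv, e.symm⟩
    have rho_p : ∀ l t, symb N (rp l t) = Binary.sy (vp t) l :=
      fun l t => (congrFun (hvp t) l).symm
    have rho_m : ∀ l q, symb N (rm l q) = Binary.sx (vm q) l :=
      fun l q => (congrFun (hvm q) l).symm
    set γp : Lm →ₗ[ℂ] Sym := (symb N).comp (cplus rp) with hγp
    set γm : Lq →ₗ[ℂ] Sym := (symb (N - 1)).comp (cminus rm) with hγm
    have hγpR : ∀ t, γp t ∈ Binary.R (w + N - 1) (N : ℤ) := fun t => by
      have h := symb_R (n := N) (hr.conPlus t)
      rwa [show w - 1 + (N : ℤ) = w + N - 1 by ring] at h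
    have hγmR : ∀ q, γm q ∈ Binary.R (w + N) ((N : ℤ) - 1) := fun q => by
      rcases N with _ | M
      · rw [hγm, LinearMap.comp_apply, eq_zero_of_fil (by simp) (hr.conMinus q), map_zero]
        exact zero_mem _
      · have h := symb_R (n := M) (hr.conMinus q)
        rw [hγm, LinearMap.comp_apply, Nat.add_sub_cancel]
        convert h using 2 <;> push_cast <;> ring
    have hHR : ∀ i p, Hs F γp vm i p ∈ Binary.R (w + N - 1) (N : ℤ) := fun i p => by
      fin_cases i
      · exact sub_mem (hγpR _) (Submodule.smul_mem _ _ (hvmR _))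
      · exact add_mem (hγpR _) (Submodule.smul_mem _ _ (hvmR _))
    have hGR : ∀ l p, Gs F γm vp l p ∈ Binary.R (w + N) ((N : ℤ) - 1) := fun l p => by
      fin_cases l
      · exact add_mem (neg_mem (hγmR _)) (Submodule.smul_mem _ _ (hvpR _))
      · exact sub_mem (neg_mem (hγmR _)) (Submodule.smul_mem _ _ (hvpR _))
    have hsum : ∀ p, Binary.cx (fun i => Hs F γp vm i p) + Binary.cy (fun l => Gs F γm vp l p) = 0 := by
      intro p
      have hx : ∀ i t, symb N (x i * cplus rp t) = X (.inl i) * γp t :=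
        fun i t => symb_x_mul (hr.conPlus t) i
      have hd : ∀ i q, symb N (d i * cminus rm q) = X (.inr i) * γm q := fun i q => by
        rcases N with _ | M
        · simp [hγm, eq_zero_of_fil (by simp) (hr.conMinus q)]
        · have h : cminus rm q ∈ fil (w + 1) (M : ℤ) := by simpa using hr.conMinus q
          rw [symb_d_mul h, hγm]; rfl
      have h := congrArg (symb N) (hpsi p)
      simp only [psi, psiTerm, map_add, map_sub, map_smul, map_zero, hx, hd, rho_p, rho_m] at h
      refine Eq.trans ?_ h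
      simp [Binary.cx, Binary.cy, Binary.sx, Binary.sy, Hs, Gs, mul_add, mul_sub]
      module
    rcases N with _ | M
    · have hG0 : ∀ l p, Gs F γm vp l p = 0 :=
        fun l p => Binary.eq_zero_of_neg (hGR l p) (Or.inr (by simp))
      have hH0 : ∀ i p, Hs F γp vm i p = 0 := fun i p => by
        have h : Binary.cx (fun i => Hs F γp vm i p) = 0 := by
          simpa [hG0, Binary.cy] using hsum p
        obtain ⟨z, hz, e⟩ := Binary.ker_cx (fun i => hHR i p) h
        rw [Binary.eq_zero_of_neg hz (Or.inl (by simp; omega))] at e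
        have := congrFun e i
        fin_cases i <;> simpa [Binary.sx] using this
      obtain ⟨⟨zp, zvm⟩, zm, zvp⟩ := eq_zero_of_pairs F hH0 hG0
      refine ⟨0, fun i k p => zero_mem _, ?_, ?_⟩
      · rw [dplus_zero]; funext l
        refine LinearMap.ext fun t => (eq_zero_of_fil (w := w) (n := ((0 : ℕ) : ℤ) - 1) (by simp)
          ((symb_eq_zero_iff (hr.plus l t)).1 ?_)).symm
        rw [rho_p, zvp]; fin_cases l <;> simp [Binary.sy]
      · rw [dminus_zero]; funext l
        refine LinearMap.ext fun t => (eq_zero_of_fil (w := w) (n := ((0 : ℕ) : ℤ) - 1) (by simp)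
          ((symb_eq_zero_iff (hr.minus l t)).1 ?_)).symm
        rw [rho_m, zvm]; fin_cases l <;> simp [Binary.sx]
    · have hc : F.c * F.c ≠ 0 := mul_ne_zero F.hc F.hc
      obtain ⟨P, hP, dH, dG⟩ := exists_image F (M := M) hw0 γp γm vp vm
        (fun i p => by convert hHR i p using 2 <;> push_cast <;> ring)
        (fun l p => by convert hGR l p using 2 <;> push_cast <;> ring) hsum
      obtain ⟨⟨ep, evm⟩, em, evp⟩ := eq_zero_of_pairs F
        (γp := γp - Γp F (sigP M P)) (vm := vm - Vm F (sigP M P))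
        (γm := γm - Γm F (sigP M P)) (vp := vp - Vp F (sigP M P))
        (fun i p => by rw [Hs_sub, dH, sub_self]) (fun l p => by rw [Gs_sub, dG, sub_self])
      rw [sub_eq_zero] at ep evm em evp
      have hd := third_dpm F (w := w) (n := ((M + 1 : ℕ) : ℤ)) (P := P)
        (fun a b p => by simpa using hP a b p)
      have next' : Third w (((M + 1 : ℕ) : ℤ) - 1) (rp - dplus F P) (rm - dminus F P) := by
        refine ⟨fun l t => (symb_eq_zero_iff (sub_mem (hr.plus l t) (hd.plus l t))).1 ?_,
          fun l q => (symb_eq_zero_iff (sub_mem (hr.minus l q) (hd.minus l q))).1 ?_,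
          fun t => ?_, fun q => ?_⟩
        · rw [map_sub, rho_p, symb_dplus F hP, evp, sub_self]
        · rw [map_sub, rho_m, symb_dminus F hP, evm, sub_self]
        · have e : cplus (rp - dplus F P) t = cplus rp t - cplus (dplus F P) t := by
            simp [cplus_apply, mul_sub]; abel
          rw [e]
          refine (symb_eq_zero_iff (sub_mem (hr.conPlus t) (hd.conPlus t))).1 ?_
          rw [map_sub, symb_cplus_dplus F hP, ← ep]; exact sub_self _
        · have e : cminus (rm - dminus F P) q = cminus rm q - cminus (dminus F P) q := by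
            simp [cminus_apply, mul_sub]; abel
          rw [e]
          have h := sub_mem (hr.conMinus q) (hd.conMinus q)
          rw [show ((M + 1 : ℕ) : ℤ) - 1 = (M : ℤ) by push_cast; ring] at h ⊢
          refine (symb_eq_zero_iff h).1 ?_
          rw [map_sub, symb_cminus_dminus F hP, ← em]; exact sub_self _
      obtain ⟨Q, hQ, eQp, eQm⟩ := ih _ _ next' fun p => by
        rw [psi_sub, hpsi, psi_dpm, sub_self]
      refine ⟨P + Q, fun a b p => add_mem (by simpa using hP a b p) (fil_mono (by omega) (hQ a b p)),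
        by rw [dplus_add, eQp]; funext l; exact LinearMap.ext fun t => by simp,
        by rw [dminus_add, eQm]; funext l; exact LinearMap.ext fun t => by simp⟩

end Vale.Agent.P195.Exact.Low
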