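import Vale.Agent.P195.Weyl.Symbol
import Mathlib.Tactic.Module
import Mathlib.Tactic.LinearCombination

/-!
P195: the three low cochain maps of the resolution in one degree, written for linear maps into
operators, and their algebraic identities. The degree enters only through `Deg`: three consecutive
spaces of forms with the multiplications, derivatives and their relations.
-/

noncomputable section

namespace Vale.Agent.P195.Exact.Low

open Vale.Agent.P195.Weyl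

/-- Three consecutive degrees `c - 2`, `c - 1`, `c` of forms. -/
structure Deg (Lm L0 Lq : Type*) [AddCommGroup Lm] [Module ℂ Lm] [AddCommGroup L0] [Module ℂ L0]
    [AddCommGroup Lq] [Module ℂ Lq] where
  /-- The middle degree plus one. -/
  c : ℂ
  hc : c ≠ 0
  /-- Multiplication from below. -/
  xm : Fin 2 → Lm →ₗ[ℂ] L0
  /-- Derivative to below. -/
  dm : Fin 2 → L0 →ₗ[ℂ] Lm
  /-- Multiplication to above. -/
  xq : Fin 2 → L0 →ₗ[ℂ] Lq
  /-- Derivative from above. -/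
  dq : Fin 2 → Lq →ₗ[ℂ] L0
  comm : ∀ i k p, dq k (xq i p) = xm i (dm k p) + if i = k then p else 0
  euler : ∀ p, xm 0 (dm 0 p) + xm 1 (dm 1 p) = (c - 1) • p
  eulerM : ∀ t, dm 0 (xm 0 t) + dm 1 (xm 1 t) = c • t
  eulerQ : ∀ q, xq 0 (dq 0 q) + xq 1 (dq 1 q) = c • q
  commD : ∀ q, dm 1 (dq 0 q) = dm 0 (dq 1 q)
  commX : ∀ t, xq 1 (xm 0 t) = xq 0 (xm 1 t)

variable {Lm L0 Lq : Type*} [AddCommGroup Lm] [Module ℂ Lm] [AddCommGroup L0] [Module ℂ L0]
  [AddCommGroup Lq] [Module ℂ Lq] (F : Deg Lm L0 Lq)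
  {M : Type*} [AddCommGroup M] [Module ℂ M]

/-- Contraction of a cochain with multiplication from below. -/
def Sk (P : Fin 2 → Fin 2 → L0 →ₗ[ℂ] M) (i : Fin 2) : Lm →ₗ[ℂ] M :=
  (P i 0).comp (F.xm 0) + (P i 1).comp (F.xm 1)

/-- Contraction of a cochain with derivatives from above. -/
def Uk (P : Fin 2 → Fin 2 → L0 →ₗ[ℂ] M) (k : Fin 2) : Lq →ₗ[ℂ] M :=
  (P 0 k).comp (F.dq 0) + (P 1 k).comp (F.dq 1)

/-- Trace of a cochain. -/
def Tr (P : Fin 2 → Fin 2 → L0 →ₗ[ℂ] M) : L0 →ₗ[ℂ] M := P 0 0 + P 1 1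

theorem Sk_apply (P : Fin 2 → Fin 2 → L0 →ₗ[ℂ] M) (i : Fin 2) (t : Lm) :
    Sk F P i t = P i 0 (F.xm 0 t) + P i 1 (F.xm 1 t) := rfl

theorem Uk_apply (P : Fin 2 → Fin 2 → L0 →ₗ[ℂ] M) (k : Fin 2) (q : Lq) :
    Uk F P k q = P 0 k (F.dq 0 q) + P 1 k (F.dq 1 q) := rfl

theorem Tr_apply (P : Fin 2 → Fin 2 → L0 →ₗ[ℂ] M) (p : L0) : Tr P p = P 0 0 p + P 1 1 p := rfl

/-- The Euler operator. -/
abbrev eul : Op := x 0 * d 0 + x 1 * d 1

/-- Left multiplication. -/
abbrev ml (u : Op) : Op →ₗ[ℂ] Op := LinearMap.mulLeft ℂ u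

/-- The map out of the cochains on the first space. -/
def dzero (X : L0 →ₗ[ℂ] Op) (i k : Fin 2) : L0 →ₗ[ℂ] Op :=
  (ml (x i * d k)).comp X - X.comp ((F.xm i).comp (F.dm k))

theorem dzero_apply (X : L0 →ₗ[ℂ] Op) (i k : Fin 2) (p : L0) :
    dzero F X i k p = x i * d k * X p - X (F.xm i (F.dm k p)) := rfl

/-- The component at `S+` of the map out of the cochains on the second space. -/
def dplus (P : Fin 2 → Fin 2 → L0 →ₗ[ℂ] Op) (l : Fin 2) : Lm →ₗ[ℂ] Op :=
  (ml (eul + 1)).comp (Sk F P l) - (ml (x l * d 0)).comp (Sk F P 0) -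
    (ml (x l * d 1)).comp (Sk F P 1) - F.c • Sk F P l + F.c • (Tr P).comp (F.xm l)

theorem dplus_apply (P : Fin 2 → Fin 2 → L0 →ₗ[ℂ] Op) (l : Fin 2) (t : Lm) :
    dplus F P l t = (eul + 1) * Sk F P l t - x l * d 0 * Sk F P 0 t - x l * d 1 * Sk F P 1 t -
      F.c • Sk F P l t + F.c • Tr P (F.xm l t) := rfl

/-- The component at `S-` of the map out of the cochains on the second space. -/
def dminus (P : Fin 2 → Fin 2 → L0 →ₗ[ℂ] Op) (l : Fin 2) : Lq →ₗ[ℂ] Op :=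
  (ml eul).comp (Uk F P l) - (ml (x 0 * d l)).comp (Uk F P 0) -
    (ml (x 1 * d l)).comp (Uk F P 1) - F.c • Uk F P l + F.c • (Tr P).comp (F.dq l)

theorem dminus_apply (P : Fin 2 → Fin 2 → L0 →ₗ[ℂ] Op) (l : Fin 2) (q : Lq) :
    dminus F P l q = eul * Uk F P l q - x 0 * d l * Uk F P 0 q - x 1 * d l * Uk F P 1 q -
      F.c • Uk F P l q + F.c • Tr P (F.dq l q) := rfl

/-- Contraction with the derivatives. -/
def cplus (r : Fin 2 → Lm →ₗ[ℂ] Op) : Lm →ₗ[ℂ] Op :=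
  (ml (d 0)).comp (r 0) + (ml (d 1)).comp (r 1)

theorem cplus_apply (r : Fin 2 → Lm →ₗ[ℂ] Op) (t : Lm) :
    cplus r t = d 0 * r 0 t + d 1 * r 1 t := rfl

/-- Contraction with the variables. -/
def cminus (r : Fin 2 → Lq →ₗ[ℂ] Op) : Lq →ₗ[ℂ] Op :=
  (ml (x 0)).comp (r 0) + (ml (x 1)).comp (r 1)

theorem cminus_apply (r : Fin 2 → Lq →ₗ[ℂ] Op) (q : Lq) :
    cminus r q = x 0 * r 0 q + x 1 * r 1 q := rfl

/-- One summand of the map out of the cochains on the third space. -/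
def psiTerm (rp : Fin 2 → Lm →ₗ[ℂ] Op) (rm : Fin 2 → Lq →ₗ[ℂ] Op) (m : Fin 2) (p : L0) : Op :=
  x m * cplus rp (F.dm m p) - d m * cminus rm (F.xq m p) - F.c • rp m (F.dm m p) +
    F.c • rm m (F.xq m p)

/-- The map out of the cochains on the third space. -/
def psi (rp : Fin 2 → Lm →ₗ[ℂ] Op) (rm : Fin 2 → Lq →ₗ[ℂ] Op) (p : L0) : Op :=
  psiTerm F rp rm 0 p + psiTerm F rp rm 1 p

theorem psi_add (rp sp : Fin 2 → Lm →ₗ[ℂ] Op) (rm sm : Fin 2 → Lq →ₗ[ℂ] Op) (p : L0) :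
    psi F (rp + sp) (rm + sm) p = psi F rp rm p + psi F sp sm p := by
  simp only [psi, psiTerm, cplus_apply, cminus_apply, Pi.add_apply, LinearMap.add_apply, mul_add]
  module

theorem psi_sub (rp sp : Fin 2 → Lm →ₗ[ℂ] Op) (rm sm : Fin 2 → Lq →ₗ[ℂ] Op) (p : L0) :
    psi F (rp - sp) (rm - sm) p = psi F rp rm p - psi F sp sm p := by
  simp only [psi, psiTerm, cplus_apply, cminus_apply, Pi.sub_apply, LinearMap.sub_apply, mul_sub,
    mul_add]
  module

theorem d_x_self_mul (a : Fin 2) (u : Op) : d a * (x a * u) = x a * (d a * u) + u := by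
  rw [← mul_assoc, d_x_self, add_mul, one_mul, mul_assoc]

theorem d0_x1_mul (u : Op) : d 0 * (x 1 * u) = x 1 * (d 0 * u) := by
  rw [← mul_assoc, d_x_ne (by decide), mul_assoc]

theorem d1_x0_mul (u : Op) : d 1 * (x 0 * u) = x 0 * (d 1 * u) := by
  rw [← mul_assoc, d_x_ne (by decide), mul_assoc]

theorem d1_d0_mul (u : Op) : d 1 * (d 0 * u) = d 0 * (d 1 * u) := by
  rw [← mul_assoc, (d_comm 1 0).eq, mul_assoc]

theorem x1_x0_mul (u : Op) : x 1 * (x 0 * u) = x 0 * (x 1 * u) := by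
  rw [← mul_assoc, x, x, ← mulP_mul, mul_comm (MvPolynomial.X 1 : Pol), mulP_mul, mul_assoc]

/-- The exact value of the contraction at `S+`. -/
theorem cplus_dplus (P : Fin 2 → Fin 2 → L0 →ₗ[ℂ] Op) (t : Lm) :
    cplus (dplus F P) t = F.c • (d 0 * Tr P (F.xm 0 t) + d 1 * Tr P (F.xm 1 t) -
      d 0 * Sk F P 0 t - d 1 * Sk F P 1 t) := by
  simp only [cplus_apply, dplus_apply]
  simp only [eul, mul_add, add_mul, mul_sub, sub_mul, mul_smul_comm, smul_mul_assoc, one_mul,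
    mul_assoc, d_x_self_mul, d0_x1_mul, d1_x0_mul, d1_d0_mul, x1_x0_mul]
  try module

/-- The exact value of the contraction at `S-`. -/
theorem cminus_dminus (P : Fin 2 → Fin 2 → L0 →ₗ[ℂ] Op) (q : Lq) :
    cminus (dminus F P) q = F.c • (x 0 * Tr P (F.dq 0 q) + x 1 * Tr P (F.dq 1 q) -
      x 0 * Uk F P 0 q - x 1 * Uk F P 1 q) := by
  simp only [cminus_apply, dminus_apply]
  simp only [eul, mul_add, add_mul, mul_sub, sub_mul, mul_smul_comm, smul_mul_assoc, one_mul,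
    mul_assoc, d_x_self_mul, d0_x1_mul, d1_x0_mul, d1_d0_mul, x1_x0_mul]
  try module

theorem euler_one (p : L0) : F.xm 1 (F.dm 1 p) = (F.c - 1) • p - F.xm 0 (F.dm 0 p) :=
  eq_sub_of_add_eq' (F.euler p)

/-- The composite of the second and third maps vanishes. -/
theorem psi_dpm (P : Fin 2 → Fin 2 → L0 →ₗ[ℂ] Op) (p : L0) :
    psi F (dplus F P) (dminus F P) p = 0 := by
  simp only [psi, psiTerm, cplus_dplus, cminus_dminus, dplus_apply, dminus_apply, Sk_apply,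
    Uk_apply, Tr_apply, F.comm, Fin.isValue, zero_ne_one, one_ne_zero, if_true, if_false,
    add_zero, euler_one, map_add, map_sub, map_smul]
  simp only [eul, mul_add, add_mul, mul_sub, sub_mul, mul_smul_comm, smul_mul_assoc, one_mul,
    mul_assoc, d_x_self_mul, d0_x1_mul, d1_x0_mul, d1_d0_mul, x1_x0_mul]
  try module

theorem Sk_dzero (X : L0 →ₗ[ℂ] Op) (i : Fin 2) (t : Lm) :
    Sk F (dzero F X) i t =
      x i * d 0 * X (F.xm 0 t) + x i * d 1 * X (F.xm 1 t) - F.c • X (F.xm i t) := by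
  have h : X (F.xm i (F.dm 0 (F.xm 0 t))) + X (F.xm i (F.dm 1 (F.xm 1 t))) =
      F.c • X (F.xm i t) := by
    rw [← map_add, ← map_add, F.eulerM, map_smul, map_smul]
  rw [Sk_apply, dzero_apply, dzero_apply]
  linear_combination (norm := module) -h

theorem Uk_dzero (X : L0 →ₗ[ℂ] Op) (k : Fin 2) (q : Lq) :
    Uk F (dzero F X) k q =
      x 0 * d k * X (F.dq 0 q) + x 1 * d k * X (F.dq 1 q) - (F.c - 1) • X (F.dq k q) := by
  have hcomm : ∀ i, F.dm k (F.dq i q) = F.dm i (F.dq k q) := by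
    intro i
    fin_cases i <;> fin_cases k <;> first | rfl | exact F.commD q | exact (F.commD q).symm
  have h : X (F.xm 0 (F.dm k (F.dq 0 q))) + X (F.xm 1 (F.dm k (F.dq 1 q))) =
      (F.c - 1) • X (F.dq k q) := by
    rw [hcomm, hcomm, ← map_add, F.euler, map_smul]
  rw [Uk_apply, dzero_apply, dzero_apply]
  linear_combination (norm := module) -h

theorem Tr_dzero (X : L0 →ₗ[ℂ] Op) (p : L0) :
    Tr (dzero F X) p = x 0 * d 0 * X p + x 1 * d 1 * X p - (F.c - 1) • X p := by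
  have h : X (F.xm 0 (F.dm 0 p)) + X (F.xm 1 (F.dm 1 p)) = (F.c - 1) • X p := by
    rw [← map_add, F.euler, map_smul]
  rw [Tr_apply, dzero_apply, dzero_apply]
  linear_combination (norm := module) -h

/-- The composite of the first and second maps vanishes at `S+`. -/
theorem dplus_dzero (X : L0 →ₗ[ℂ] Op) : dplus F (dzero F X) = 0 := by
  funext l
  refine LinearMap.ext fun t => ?_
  rw [Pi.zero_apply, LinearMap.zero_apply, dplus_apply, Sk_dzero, Sk_dzero, Sk_dzero, Tr_dzero]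
  fin_cases l <;> simp only [Fin.isValue, Fin.zero_eta, Fin.mk_one] <;> (
    simp only [eul, mul_add, add_mul, mul_sub, sub_mul, mul_smul_comm, smul_mul_assoc, one_mul,
      mul_assoc, d_x_self_mul, d0_x1_mul, d1_x0_mul, d1_d0_mul, x1_x0_mul]
    try module)

/-- The composite of the first and second maps vanishes at `S-`. -/
theorem dminus_dzero (X : L0 →ₗ[ℂ] Op) : dminus F (dzero F X) = 0 := by
  funext l
  refine LinearMap.ext fun q => ?_
  rw [Pi.zero_apply, LinearMap.zero_apply, dminus_apply, Uk_dzero, Uk_dzero, Uk_dzero, Tr_dzero]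
  fin_cases l <;> simp only [Fin.isValue, Fin.zero_eta, Fin.mk_one] <;> (
    simp only [eul, mul_add, add_mul, mul_sub, sub_mul, mul_smul_comm, smul_mul_assoc, one_mul,
      mul_assoc, d_x_self_mul, d0_x1_mul, d1_x0_mul, d1_d0_mul, x1_x0_mul]
    try module)

end Vale.Agent.P195.Exact.Low
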