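import Vale.Agent.P195.Exact.LowCore

/-!
P195: exactness of the low cochain maps with values in pairs of operators whose contraction
`a * α - b * β` drops in level, as in the two spinor lattices.
-/

noncomputable section

namespace Vale.Agent.P195.Exact.Low

open MvPolynomial
open Vale.Agent.P195.Weyl
open Vale.Agent.P195.Orbit

/-- Right multiplication. -/
abbrev mr (u : Op) : Op →ₗ[ℂ] Op := LinearMap.mulRight ℂ u

variable {Lm L0 Lq : Type*} [AddCommGroup Lm] [Module ℂ Lm] [AddCommGroup L0] [Module ℂ L0]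
  [AddCommGroup Lq] [Module ℂ Lq] (F : Deg Lm L0 Lq)
  {W : Type*} [AddCommGroup W] [Module ℂ W]

/-- The contraction of a pair of cochains. -/
def con (α β : Op) (f g : W →ₗ[ℂ] Op) : W →ₗ[ℂ] Op := (mr α).comp f - (mr β).comp g

theorem con_apply (α β : Op) (f g : W →ₗ[ℂ] Op) (u : W) :
    con α β f g u = f u * α - g u * β := rfl

theorem dzero_con (α β : Op) (Y Z : L0 →ₗ[ℂ] Op) :
    dzero F (con α β Y Z) = fun i k => con α β (dzero F Y i k) (dzero F Z i k) := by
  funext i k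
  refine LinearMap.ext fun p => ?_
  simp only [dzero_apply, con_apply, mul_sub, sub_mul, mul_assoc]
  abel

theorem dplus_con (α β : Op) (P Q : Fin 2 → Fin 2 → L0 →ₗ[ℂ] Op) :
    dplus F (fun i k => con α β (P i k) (Q i k)) =
      fun l => con α β (dplus F P l) (dplus F Q l) := by
  funext l
  refine LinearMap.ext fun t => ?_
  simp only [dplus_apply, con_apply, Sk_apply, Tr_apply, mul_add, mul_sub, add_mul, sub_mul,
    one_mul, mul_assoc, smul_mul_assoc]
  module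

theorem dminus_con (α β : Op) (P Q : Fin 2 → Fin 2 → L0 →ₗ[ℂ] Op) :
    dminus F (fun i k => con α β (P i k) (Q i k)) =
      fun l => con α β (dminus F P l) (dminus F Q l) := by
  funext l
  refine LinearMap.ext fun t => ?_
  simp only [dminus_apply, con_apply, Uk_apply, Tr_apply, mul_add, mul_sub, add_mul, sub_mul,
    mul_assoc, smul_mul_assoc]
  module

theorem cplus_con (α β : Op) (r s : Fin 2 → Lm →ₗ[ℂ] Op) :
    cplus (fun l => con α β (r l) (s l)) = con α β (cplus r) (cplus s) := by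
  refine LinearMap.ext fun t => ?_
  simp only [cplus_apply, con_apply, mul_sub, add_mul, mul_assoc]
  abel

theorem cminus_con (α β : Op) (r s : Fin 2 → Lq →ₗ[ℂ] Op) :
    cminus (fun l => con α β (r l) (s l)) = con α β (cminus r) (cminus s) := by
  refine LinearMap.ext fun t => ?_
  simp only [cminus_apply, con_apply, mul_sub, add_mul, mul_assoc]
  abel

/-- The first map detects the level. -/
theorem drop_zero {v m : ℤ} {X : L0 →ₗ[ℂ] Op} (hX : ∀ p, X p ∈ fil v m)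
    (h : ∀ i k p, dzero F X i k p ∈ fil v m) (p : L0) : X p ∈ fil v (m - 1) := by
  rcases lt_or_ge m 0 with hm | hm
  · rw [eq_zero_of_fil hm (hX p)]; exact zero_mem _
  obtain ⟨N, rfl⟩ := Int.eq_ofNat_of_zero_le hm
  refine (symb_eq_zero_iff (hX p)).1 ?_
  have e := symb_low (h 0 0 p)
  rw [dzero_apply, map_sub, symb_xd_mul (hX p), symb_low (hX _), sub_zero] at e
  exact (mul_eq_zero.1 ((mul_eq_zero.1 e).resolve_left (X_ne_zero _))).resolve_left (X_ne_zero _)

/-- A cochain at the second vertex whose image drops in level agrees at the top with an image. -/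
theorem drop_one {v : ℤ} {N : ℕ} {P : Fin 2 → Fin 2 → L0 →ₗ[ℂ] Op}
    (hP : ∀ i k p, P i k p ∈ fil v N) (h : Third v N (dplus F P) (dminus F P)) (p : L0) :
    ∃ η, η ∈ Binary.R (v + N - 1) ((N : ℤ) - 1) ∧
      ∀ i k, X (.inl i) * (X (.inr k) * η) = symb N (P i k p) := by
  refine symb_kernel F hP
    (LinearMap.ext fun t => Binary.sy_eq_zero (funext fun l => ?_))
    (LinearMap.ext fun q => Binary.sx_eq_zero (funext fun l => ?_))
    (LinearMap.ext fun t => ?_) (LinearMap.ext fun q => ?_) p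
  · rw [← symb_dplus F hP l t, symb_low (h.plus l t)]; rfl
  · rw [← symb_dminus F hP l q, symb_low (h.minus l q)]; rfl
  · rw [← symb_cplus_dplus F hP t, symb_low (h.conPlus t)]; rfl
  · rw [← symb_cminus_dminus F hP q, symb_eq_zero_of_lt (h.conMinus q) (by omega)]; rfl

/-- Exactness at the third vertex for pairs. -/
theorem pair_two {w t v e : ℤ} (hw0 : 0 ≤ w) (hw1 : w ≤ 1) (α β : Op)
    (hcon : ∀ {k : ℤ} {a b : Op}, a ∈ fil w k → b ∈ fil w k → a * α - b * β ∈ fil v (k + e))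
    (hlift : ∀ M : ℕ, (M : ℤ) = t + e - 1 → ∀ η ∈ Binary.R (v + M) (M : ℤ),
      ∃ a ∈ fil w (t - 1), ∃ b ∈ fil w (t - 1), symb M (a * α - b * β) = η)
    (rp rp' : Fin 2 → Lm →ₗ[ℂ] Op) (rm rm' : Fin 2 → Lq →ₗ[ℂ] Op)
    (hr : Third w (t + 1) rp rm) (hr' : Third w (t + 1) rp' rm')
    (hc : Third v (t + e) (fun l => con α β (rp l) (rp' l)) (fun l => con α β (rm l) (rm' l)))
    (h0 : ∀ p, psi F rp rm p = 0) (h0' : ∀ p, psi F rp' rm' p = 0) :
    ∃ P P' : Fin 2 → Fin 2 → L0 →ₗ[ℂ] Op, (∀ i k p, P i k p ∈ fil w t) ∧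
      (∀ i k p, P' i k p ∈ fil w t) ∧
      (∀ i k p, con α β (P i k) (P' i k) p ∈ fil v (t + e - 1)) ∧
      (dplus F P = rp ∧ dminus F P = rm) ∧ dplus F P' = rp' ∧ dminus F P' = rm' := by
  obtain ⟨P, hP, ep, em⟩ := core_two F hw0 hw1 (t + 1) rp rm hr h0
  obtain ⟨P', hP', ep', em'⟩ := core_two F hw0 hw1 (t + 1) rp' rm' hr' h0'
  simp only [add_sub_cancel_right] at hP hP'
  set C : Fin 2 → Fin 2 → L0 →ₗ[ℂ] Op := fun i k => con α β (P i k) (P' i k) with hC
  have hCm : ∀ i k p, C i k p ∈ fil v (t + e) := fun i k p => hcon (hP i k p) (hP' i k p)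
  have hC3 : Third v (t + e) (dplus F C) (dminus F C) := by
    rwa [hC, dplus_con, dminus_con, ep, ep', em, em']
  rcases lt_or_ge (t + e) 1 with hlow | hlow
  · refine ⟨P, P', hP, hP', fun i k p => ?_, ⟨ep, em⟩, ep', em'⟩
    rcases lt_or_ge (t + e) 0 with h | h
    · rw [show con α β (P i k) (P' i k) p = 0 from eq_zero_of_fil h (hCm i k p)]; exact zero_mem _
    · have hN : t + e = ((0 : ℕ) : ℤ) := by simp; omega
      rw [hN] at hCm hC3 ⊢
      obtain ⟨η, hη, he⟩ := drop_one F hCm hC3 p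
      refine (symb_eq_zero_iff (hCm i k p)).1 ?_
      rw [← he, Binary.eq_zero_of_neg hη (Or.inr (by simp)), mul_zero, mul_zero]
  · obtain ⟨M, hM⟩ : ∃ M : ℕ, (M : ℤ) = t + e - 1 := ⟨(t + e - 1).toNat, by omega⟩
    have hN : t + e = ((M + 1 : ℕ) : ℤ) := by push_cast; omega
    rw [hN] at hCm hC3
    obtain ⟨φ, hφ, hsφ⟩ := exists_lift ((fil w (t - 1)).prod (fil w (t - 1)))
      (LinearMap.pi fun i : Fin 2 => LinearMap.pi fun k : Fin 2 =>
        (mlS (X (.inl i))).comp ((mlS (X (.inr k))).comp ((symb M).comp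
          ((mr α).comp (LinearMap.fst ℂ Op Op) - (mr β).comp (LinearMap.snd ℂ Op Op)))))
      (LinearMap.pi fun i => LinearMap.pi fun k => sigP (M + 1) C i k) fun p => by
        obtain ⟨η, hη, he⟩ := drop_one F hCm hC3 p
        obtain ⟨a, ha, b, hb, hab⟩ := hlift M hM η (by convert hη using 2 <;> push_cast <;> ring)
        exact ⟨(a, b), ⟨ha, hb⟩, funext fun i => funext fun k => by simp [hab, sigP, he]⟩
    set Y : L0 →ₗ[ℂ] Op := (LinearMap.fst ℂ Op Op).comp φ with hY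
    set Z : L0 →ₗ[ℂ] Op := (LinearMap.snd ℂ Op Op).comp φ with hZ
    have hYm : ∀ p, Y p ∈ fil w (t - 1) := fun p => (hφ p).1
    have hZm : ∀ p, Z p ∈ fil w (t - 1) := fun p => (hφ p).2
    have hYZ : ∀ p, con α β Y Z p ∈ fil v (M : ℤ) := fun p => by
      have h := hcon (hYm p) (hZm p)
      rwa [show t - 1 + e = (M : ℤ) by omega] at h
    refine ⟨P - dzero F Y, P' - dzero F Z, fun i k p => sub_mem (hP i k p) (dzero_mem F hYm i k p),
      fun i k p => sub_mem (hP' i k p) (dzero_mem F hZm i k p), fun i k p => ?_, ⟨?_, ?_⟩, ?_, ?_⟩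
    · have e1 : con α β ((P - dzero F Y) i k) ((P' - dzero F Z) i k) p =
          C i k p - dzero F (con α β Y Z) i k p := by
        rw [dzero_con]
        simp [hC, con_apply, sub_mul]
        abel
      rw [e1, hN]
      refine (symb_eq_zero_iff (sub_mem (hCm i k p)
        (dzero_mem F (fun q => by simpa using hYZ q) i k p))).1 ?_
      rw [map_sub, dzero_apply, map_sub, symb_xd_mul (hYZ p), symb_low (hYZ _), sub_zero]
      have e2 : X (.inl i) * (X (.inr k) * symb M (con α β Y Z p)) = symb (M + 1) (C i k p) :=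
        congrFun (congrFun (hsφ p) i) k
      rw [e2, sub_self]
    · rw [dplus_sub, ep, dplus_dzero]; funext l; exact LinearMap.ext fun t => by simp
    · rw [dminus_sub, em, dminus_dzero]; funext l; exact LinearMap.ext fun t => by simp
    · rw [dplus_sub, ep', dplus_dzero]; funext l; exact LinearMap.ext fun t => by simp
    · rw [dminus_sub, em', dminus_dzero]; funext l; exact LinearMap.ext fun t => by simp

/-- Exactness at the second vertex for pairs. -/
theorem pair_one {w t v e : ℤ} (α β : Op)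
    (hcon : ∀ {k : ℤ} {a b : Op}, a ∈ fil w k → b ∈ fil w k → a * α - b * β ∈ fil v (k + e))
    (P P' : Fin 2 → Fin 2 → L0 →ₗ[ℂ] Op) (hP : ∀ i k p, P i k p ∈ fil w t)
    (hP' : ∀ i k p, P' i k p ∈ fil w t)
    (hc : ∀ i k p, con α β (P i k) (P' i k) p ∈ fil v (t + e - 1))
    (h : dplus F P = 0 ∧ dminus F P = 0) (h' : dplus F P' = 0 ∧ dminus F P' = 0) :
    ∃ Y Z : L0 →ₗ[ℂ] Op, (∀ p, Y p ∈ fil w (t - 1)) ∧ (∀ p, Z p ∈ fil w (t - 1)) ∧
      (∀ p, con α β Y Z p ∈ fil v (t + e - 2)) ∧ dzero F Y = P ∧ dzero F Z = P' := by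
  obtain ⟨Y, hY, eY⟩ := core_one F w t P hP h.1 h.2
  obtain ⟨Z, hZ, eZ⟩ := core_one F w t P' hP' h'.1 h'.2
  refine ⟨Y, Z, hY, hZ, fun p => ?_, eY, eZ⟩
  have hYZ : ∀ q, con α β Y Z q ∈ fil v (t + e - 1) := fun q => by
    have h := hcon (hY q) (hZ q)
    rwa [show t - 1 + e = t + e - 1 by omega] at h
  have := drop_zero F hYZ (fun i k q => by rw [dzero_con, eY, eZ]; exact hc i k q) p
  rwa [show t + e - 1 - 1 = t + e - 2 by omega] at this

theorem conD_fil {w k : ℤ} {a b : Op} (ha : a ∈ fil w k) (hb : b ∈ fil w k) :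
    a * d 1 - b * d 0 ∈ fil (w - 1) (k + 1) := sub_mem (mul_d_mem ha 1) (mul_d_mem hb 0)

theorem conX_fil {w k : ℤ} {a b : Op} (ha : a ∈ fil w k) (hb : b ∈ fil w k) :
    a * x 1 - b * x 0 ∈ fil (w + 1) (k + 0) := by
  rw [add_zero]; exact sub_mem (mul_x_mem ha 1) (mul_x_mem hb 0)

theorem conD_lift {w t : ℤ} (ht : 1 ≤ t ∨ w + t ≤ 0) (M : ℕ) (hM : (M : ℤ) = t + 1 - 1)
    (η : Sym) (hη : η ∈ Binary.R (w - 1 + M) (M : ℤ)) :
    ∃ a ∈ fil w (t - 1), ∃ b ∈ fil w (t - 1), symb M (a * d 1 - b * d 0) = η := by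
  rcases ht with ht | ht
  · obtain ⟨K, rfl⟩ : ∃ K : ℕ, M = K + 1 := ⟨M - 1, by omega⟩
    obtain ⟨u, z, hu, hz, e⟩ := Binary.split_y (by push_cast; omega) hη
    have hw : ∀ {f : Sym}, f ∈ Binary.R (w - 1 + ((K + 1 : ℕ) : ℤ)) (((K + 1 : ℕ) : ℤ) - 1) →
        ∃ o ∈ fil w (K : ℤ), symb K o = f := fun hf =>
      exists_symb (by convert hf using 2 <;> push_cast <;> ring)
    obtain ⟨a, ha, hsa⟩ := hw hz
    obtain ⟨b, hb, hsb⟩ := hw (neg_mem hu)
    have hK : (K : ℤ) = t - 1 := by push_cast at hM; omega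
    refine ⟨a, hK ▸ ha, b, hK ▸ hb, ?_⟩
    rw [map_sub, symb_mul_d ha, symb_mul_d hb, hsa, hsb, e]
    ring
  · refine ⟨0, zero_mem _, 0, zero_mem _, ?_⟩
    rw [Binary.eq_zero_of_neg hη (Or.inl (by omega))]
    simp

theorem conX_lift {w t : ℤ} (hw : 0 ≤ w) (M : ℕ) (hM : (M : ℤ) = t + 0 - 1)
    (η : Sym) (hη : η ∈ Binary.R (w + 1 + M) (M : ℤ)) :
    ∃ a ∈ fil w (t - 1), ∃ b ∈ fil w (t - 1), symb M (a * x 1 - b * x 0) = η := by
  obtain ⟨u, z, hu, hz, e⟩ := Binary.split_x (by omega) hη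
  have hw' : ∀ {f : Sym}, f ∈ Binary.R (w + 1 + (M : ℤ) - 1) (M : ℤ) →
      ∃ o ∈ fil w (M : ℤ), symb M o = f := fun hf =>
    exists_symb (by convert hf using 2; ring)
  obtain ⟨a, ha, hsa⟩ := hw' hz
  obtain ⟨b, hb, hsb⟩ := hw' (neg_mem hu)
  have hK : (M : ℤ) = t - 1 := by omega
  refine ⟨a, hK ▸ ha, b, hK ▸ hb, ?_⟩
  rw [map_sub, symb_mul_x ha, symb_mul_x hb, hsa, hsb, e]
  ring

end Vale.Agent.P195.Exact.Low
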