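import Vale.Agent.P195.Weyl.Symbol
import Vale.Agent.P195.Orbit.Binary

/-!
P195: the two spinor lattices. A pair of operators lies in a lattice exactly when its contraction,
which kills the extra generator, lies one level down; this gives their symbols.
-/

noncomputable section

namespace Vale.Agent.P195.Exact

open MvPolynomial
open Vale.Agent.P195.Weyl
open Vale.Agent.P195.Orbit

/-- Right multiplication of one operator by two. -/
def rpair (a b : Op) : Op →ₗ[ℂ] Op × Op :=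
  (LinearMap.mulRight ℂ a).prod (LinearMap.mulRight ℂ b)

/-- Pairs of level `n` and weight `w` with corrections along the variables. -/
def latX (w n : ℤ) : Submodule ℂ (Op × Op) :=
  (fil w n).prod (fil w n) ⊔ (fil (w - 1) (n + 1)).map (rpair (x 0) (x 1))

/-- Pairs of level `n` and weight `w` with corrections along the derivatives. -/
def latD (w n : ℤ) : Submodule ℂ (Op × Op) :=
  (fil w n).prod (fil w n) ⊔ (fil (w + 1) n).map (rpair (d 0) (d 1))

/-- Contraction killing the variable correction. -/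
def conX : Op × Op →ₗ[ℂ] Op :=
  (LinearMap.mulRight ℂ (x 1)).comp (LinearMap.fst ℂ Op Op) -
    (LinearMap.mulRight ℂ (x 0)).comp (LinearMap.snd ℂ Op Op)

/-- Contraction killing the derivative correction. -/
def conD : Op × Op →ₗ[ℂ] Op :=
  (LinearMap.mulRight ℂ (d 1)).comp (LinearMap.fst ℂ Op Op) -
    (LinearMap.mulRight ℂ (d 0)).comp (LinearMap.snd ℂ Op Op)

theorem conX_apply (s : Op × Op) : conX s = s.1 * x 1 - s.2 * x 0 := rfl

theorem conD_apply (s : Op × Op) : conD s = s.1 * d 1 - s.2 * d 0 := rfl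

theorem rpair_apply (a b f : Op) : rpair a b f = (f * a, f * b) := rfl

theorem conX_rpair (f : Op) : conX (rpair (x 0) (x 1) f) = 0 := by
  rw [conX_apply, rpair_apply, mul_assoc, mul_assoc, x, x, ← mulP_mul, ← mulP_mul,
    mul_comm (X 0 : Pol), sub_self]

theorem conD_rpair (f : Op) : conD (rpair (d 0) (d 1) f) = 0 := by
  rw [conD_apply, rpair_apply, mul_assoc, mul_assoc, (d_comm 1 0).eq, sub_self]

theorem mul_x_mem {w n : ℤ} {u : Op} (hu : u ∈ fil w n) (a : Fin 2) :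
    u * x a ∈ fil (w + 1) n := by
  have h := Weyl.mul_mem hu (x_mem a le_rfl)
  rw [add_zero] at h
  exact h

theorem mul_d_mem {w n : ℤ} {u : Op} (hu : u ∈ fil w n) (a : Fin 2) :
    u * d a ∈ fil (w - 1) (n + 1) := by
  have h := Weyl.mul_mem hu (d_mem a le_rfl)
  rw [← sub_eq_add_neg] at h
  exact h

theorem latX_bounds {w n : ℤ} {s : Op × Op} (hs : s ∈ latX w n) :
    s.1 ∈ fil w (n + 1) ∧ s.2 ∈ fil w (n + 1) ∧ conX s ∈ fil (w + 1) n := by
  obtain ⟨g, ⟨h1, h2⟩, _, ⟨f, hf, rfl⟩, rfl⟩ := Submodule.mem_sup.1 hs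
  refine ⟨add_mem (fil_mono (by omega) h1) ?_, add_mem (fil_mono (by omega) h2) ?_, ?_⟩
  · simpa [rpair_apply] using mul_x_mem hf 0
  · simpa [rpair_apply] using mul_x_mem hf 1
  · rw [map_add, conX_rpair, add_zero, conX_apply]
    exact sub_mem (mul_x_mem h1 1) (mul_x_mem h2 0)

theorem latD_bounds {w n : ℤ} {s : Op × Op} (hs : s ∈ latD w n) :
    s.1 ∈ fil w (n + 1) ∧ s.2 ∈ fil w (n + 1) ∧ conD s ∈ fil (w - 1) (n + 1) := by
  obtain ⟨g, ⟨h1, h2⟩, _, ⟨f, hf, rfl⟩, rfl⟩ := Submodule.mem_sup.1 hs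
  refine ⟨add_mem (fil_mono (by omega) h1) ?_, add_mem (fil_mono (by omega) h2) ?_, ?_⟩
  · simpa [rpair_apply] using mul_d_mem hf 0
  · simpa [rpair_apply] using mul_d_mem hf 1
  · rw [map_add, conD_rpair, add_zero, conD_apply]
    exact sub_mem (mul_d_mem h1 1) (mul_d_mem h2 0)

theorem symb_mul_x {w : ℤ} {N : ℕ} {u : Op} (hu : u ∈ fil w N) (a : Fin 2) :
    symb N (u * x a) = symb N u * X (.inl a) := by
  have := symb_mul (n' := 0) hu (x_mem a le_rfl)
  rwa [symb_x, add_zero] at this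

theorem symb_mul_d {w : ℤ} {N : ℕ} {u : Op} (hu : u ∈ fil w N) (a : Fin 2) :
    symb (N + 1) (u * d a) = symb N u * X (.inr a) := by
  have := symb_mul (n' := 1) hu (d_mem a le_rfl)
  rwa [symb_d] at this

theorem symb_R {w : ℤ} {n : ℕ} {k : ℤ} {u : Op} (hu : u ∈ fil w k) :
    symb n u ∈ Binary.R (w + n) (n : ℤ) := Binary.mem_R.2 (symb_bideg hu)

theorem exists_symb {w : ℤ} {n : ℕ} {f : Sym} (hf : f ∈ Binary.R (w + n) (n : ℤ)) :
    ∃ u ∈ fil w n, symb n u = f := symb_surj (Binary.mem_R.1 hf)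

theorem mem_latX {w n : ℤ} {s : Op × Op} (h1 : s.1 ∈ fil w (n + 1)) (h2 : s.2 ∈ fil w (n + 1))
    (hc : conX s ∈ fil (w + 1) n) : s ∈ latX w n := by
  rcases lt_or_ge (n + 1) 0 with hn | hn
  · rw [fil_neg hn, Submodule.mem_bot] at h1 h2
    rw [show s = 0 from Prod.ext h1 h2]
    exact zero_mem _
  · obtain ⟨N, hN⟩ : ∃ N : ℕ, (N : ℤ) = n + 1 := ⟨(n + 1).toNat, Int.toNat_of_nonneg hn⟩
    rw [← hN] at h1 h2
    have e := symb_eq_zero_of_lt hc (show n < (N : ℤ) by omega)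
    rw [conX_apply, map_sub, symb_mul_x h1, symb_mul_x h2] at e
    obtain ⟨v, hv, hv1, hv0⟩ := Binary.mid Binary.pair_x (u := -symb N s.2) (w := symb N s.1)
      (neg_mem (symb_R h2)) (by linear_combination e)
    have hv' : -v ∈ Binary.R (w - 1 + N) (N : ℤ) := by
      simpa [Binary.da, Binary.db, sub_add_eq_add_sub] using neg_mem hv
    obtain ⟨f, hf, hfv⟩ := exists_symb hv'
    have hN1 : (N : ℤ) - 1 = n := by omega
    have g1 : s.1 - f * x 0 ∈ fil w n := hN1 ▸ (symb_eq_zero_iff (sub_mem h1 (by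
      simpa using mul_x_mem hf 0))).1 (by
      rw [map_sub, symb_mul_x hf, hfv, hv0]; ring)
    have g2 : s.2 - f * x 1 ∈ fil w n := hN1 ▸ (symb_eq_zero_iff (sub_mem h2 (by
      simpa using mul_x_mem hf 1))).1 (by
      rw [map_sub, symb_mul_x hf, hfv]
      linear_combination -hv1)
    rw [show s = (s.1 - f * x 0, s.2 - f * x 1) + rpair (x 0) (x 1) f by simp [rpair_apply]]
    rw [hN] at hf
    exact Submodule.mem_sup.2 ⟨_, ⟨g1, g2⟩, _, ⟨f, hf, rfl⟩, rfl⟩

theorem mem_latD {w n : ℤ} {s : Op × Op} (h1 : s.1 ∈ fil w (n + 1)) (h2 : s.2 ∈ fil w (n + 1))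
    (hc : conD s ∈ fil (w - 1) (n + 1)) : s ∈ latD w n := by
  rcases lt_or_ge (n + 1) 0 with hn | hn
  · rw [fil_neg hn, Submodule.mem_bot] at h1 h2
    rw [show s = 0 from Prod.ext h1 h2]
    exact zero_mem _
  · obtain ⟨N, hN⟩ : ∃ N : ℕ, (N : ℤ) = n + 1 := ⟨(n + 1).toNat, Int.toNat_of_nonneg hn⟩
    rw [← hN] at h1 h2
    have e := symb_eq_zero_of_lt hc (show n + 1 < ((N + 1 : ℕ) : ℤ) by omega)
    rw [conD_apply, map_sub, symb_mul_d h1, symb_mul_d h2] at e
    obtain ⟨v, hv, hv1, hv0⟩ := Binary.mid Binary.pair_y (u := -symb N s.2) (w := symb N s.1)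
      (neg_mem (symb_R h2)) (by linear_combination e)
    have hv' : -v ∈ Binary.R (w + N) ((N : ℤ) - 1) := by
      simpa [Binary.da, Binary.db] using neg_mem hv
    rcases Nat.eq_zero_or_pos N with h0 | h0
    · subst h0
      have hz : v = 0 := Binary.eq_zero_of_neg hv (Or.inr (by simp [Binary.db]))
      rw [hz, mul_zero, neg_zero] at hv0
      rw [hz, mul_zero, neg_eq_zero] at hv1
      have z1 := (symb_eq_zero_iff h1).1 hv0
      have z2 := (symb_eq_zero_iff h2).1 hv1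
      rw [fil_neg (by simp), Submodule.mem_bot] at z1 z2
      rw [show s = 0 from Prod.ext z1 z2]
      exact zero_mem _
    · obtain ⟨M, rfl⟩ : ∃ M : ℕ, N = M + 1 := ⟨N - 1, by omega⟩
      have hv'' : -v ∈ Binary.R (w + 1 + M) (M : ℤ) := by
        convert hv' using 2 <;> push_cast <;> ring
      obtain ⟨f, hf, hfv⟩ := exists_symb hv''
      have hMn : (M : ℤ) = n := by push_cast at hN; omega
      have m1 : f * d 1 ∈ fil w ((M + 1 : ℕ) : ℤ) := by simpa using mul_d_mem hf 1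
      have m0 : f * d 0 ∈ fil w ((M + 1 : ℕ) : ℤ) := by simpa using mul_d_mem hf 0
      have hd : ((M + 1 : ℕ) : ℤ) - 1 = n := by omega
      have g1 : s.1 - f * d 0 ∈ fil w n := hd ▸ (symb_eq_zero_iff (sub_mem h1 m0)).1 (by
        rw [map_sub, symb_mul_d hf, hfv, hv0]; ring)
      have g2 : s.2 - f * d 1 ∈ fil w n := hd ▸ (symb_eq_zero_iff (sub_mem h2 m1)).1 (by
        rw [map_sub, symb_mul_d hf, hfv]; linear_combination -hv1)
      rw [show s = (s.1 - f * d 0, s.2 - f * d 1) + rpair (d 0) (d 1) f by simp [rpair_apply]]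
      rw [hMn] at hf
      exact Submodule.mem_sup.2 ⟨_, ⟨g1, g2⟩, _, ⟨f, hf, rfl⟩, rfl⟩

end Vale.Agent.P195.Exact
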