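import Vale.Agent.P195.Model.Cplx
import Vale.Agent.P195.Exact.Spinor

/-!
P195: lattice rows and lattice-shifting matrices by components, and the symbol sequences
`0 → fil² → spinor lattice → R → 0`.
-/

noncomputable section

namespace Vale.Agent.P195.Exact

open MvPolynomial
open Matrix (vecMul)
open Vale.Agent.P195.Weyl
open Vale.Agent.P195.Orbit
open Vale.Agent.P195.Model (Row Mat lat gen gw gn smulRow vproj vx rowsAt mem_rowsAt)

/-- Membership in the lattice of slots `1, 2` by contraction. -/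
theorem mem_latD_iff {w n : ℤ} {s : Op × Op} : s ∈ latD w n ↔
    s.1 ∈ fil w (n + 1) ∧ s.2 ∈ fil w (n + 1) ∧
      s.1 * d 1 - s.2 * d 0 ∈ fil (w - 1) (n + 1) :=
  ⟨fun h => latD_bounds h, fun ⟨h1, h2, h3⟩ => mem_latD h1 h2 h3⟩

/-- Membership in the lattice of slots `3, 4` by contraction. -/
theorem mem_latX_iff {w n : ℤ} {s : Op × Op} : s ∈ latX w n ↔
    s.1 ∈ fil w (n + 1) ∧ s.2 ∈ fil w (n + 1) ∧ s.1 * x 1 - s.2 * x 0 ∈ fil (w + 1) n :=
  ⟨fun h => latX_bounds h, fun ⟨h1, h2, h3⟩ => mem_latX h1 h2 h3⟩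

theorem latD_of_fil {w n : ℤ} {a b : Op} (ha : a ∈ fil w n) (hb : b ∈ fil w n) :
    (a, b) ∈ latD w n := Submodule.mem_sup_left ⟨ha, hb⟩

theorem latX_of_fil {w n : ℤ} {a b : Op} (ha : a ∈ fil w n) (hb : b ∈ fil w n) :
    (a, b) ∈ latX w n := Submodule.mem_sup_left ⟨ha, hb⟩

theorem latD_of_gen {w n : ℤ} {f : Op} (hf : f ∈ fil (w + 1) n) :
    (f * d 0, f * d 1) ∈ latD w n := Submodule.mem_sup_right ⟨f, hf, rfl⟩

theorem latX_of_gen {w n : ℤ} {f : Op} (hf : f ∈ fil (w - 1) (n + 1)) :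
    (f * x 0, f * x 1) ∈ latX w n := Submodule.mem_sup_right ⟨f, hf, rfl⟩

theorem latD_cases {w n : ℤ} {s : Op × Op} (h : s ∈ latD w n) :
    ∃ a ∈ fil w n, ∃ b ∈ fil w n, ∃ f ∈ fil (w + 1) n, s = (a + f * d 0, b + f * d 1) := by
  obtain ⟨g, ⟨h1, h2⟩, _, ⟨f, hf, rfl⟩, rfl⟩ := Submodule.mem_sup.1 h
  exact ⟨g.1, h1, g.2, h2, f, hf, rfl⟩

theorem latX_cases {w n : ℤ} {s : Op × Op} (h : s ∈ latX w n) :
    ∃ a ∈ fil w n, ∃ b ∈ fil w n, ∃ f ∈ fil (w - 1) (n + 1),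
      s = (a + f * x 0, b + f * x 1) := by
  obtain ⟨g, ⟨h1, h2⟩, _, ⟨f, hf, rfl⟩, rfl⟩ := Submodule.mem_sup.1 h
  exact ⟨g.1, h1, g.2, h2, f, hf, rfl⟩

theorem latD_mono {w n n' : ℤ} (h : n ≤ n') : latD w n ≤ latD w n' := fun s hs => by
  obtain ⟨a, ha, b, hb, f, hf, rfl⟩ := latD_cases hs
  rw [← Prod.mk_add_mk]
  exact add_mem (latD_of_fil (fil_mono h ha) (fil_mono h hb)) (latD_of_gen (fil_mono h hf))

theorem latX_mono {w n n' : ℤ} (h : n ≤ n') : latX w n ≤ latX w n' := fun s hs => by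
  obtain ⟨a, ha, b, hb, f, hf, rfl⟩ := latX_cases hs
  rw [← Prod.mk_add_mk]
  exact add_mem (latX_of_fil (fil_mono h ha) (fil_mono h hb))
    (latX_of_gen (fil_mono (by omega) hf))

theorem latD_eq_bot {w n : ℤ} (h : n < 0) {s : Op × Op} (hs : s ∈ latD w n) : s = 0 := by
  obtain ⟨a, ha, b, hb, f, hf, rfl⟩ := latD_cases hs
  rw [fil_neg h, Submodule.mem_bot] at ha hb hf
  simp [ha, hb, hf]

theorem latX_eq_bot {w n : ℤ} (h : n + 1 < 0) {s : Op × Op} (hs : s ∈ latX w n) : s = 0 := by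
  obtain ⟨a, ha, b, hb, f, hf, rfl⟩ := latX_cases hs
  rw [fil_neg (by omega), Submodule.mem_bot] at ha hb
  rw [fil_neg h, Submodule.mem_bot] at hf
  simp [ha, hb, hf]

/-- Left multiplication shifts the spinor lattices. -/
theorem mul_mem_latD {a b w n w' n' : ℤ} {u : Op} {s : Op × Op} (hu : u ∈ fil a b)
    (hs : s ∈ latD w n) (hw : a + w = w') (hn : b + n ≤ n') :
    (u * s.1, u * s.2) ∈ latD w' n' := by
  obtain ⟨p, hp, q, hq, f, hf, rfl⟩ := latD_cases hs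
  subst hw
  refine latD_mono hn ?_
  simp only [mul_add, ← mul_assoc]
  rw [← Prod.mk_add_mk]
  exact add_mem (latD_of_fil (Weyl.mul_mem hu hp) (Weyl.mul_mem hu hq))
    (latD_of_gen (by rw [add_assoc]; exact Weyl.mul_mem hu hf))

theorem mul_mem_latX {a b w n w' n' : ℤ} {u : Op} {s : Op × Op} (hu : u ∈ fil a b)
    (hs : s ∈ latX w n) (hw : a + w = w') (hn : b + n ≤ n') :
    (u * s.1, u * s.2) ∈ latX w' n' := by
  obtain ⟨p, hp, q, hq, f, hf, rfl⟩ := latX_cases hs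
  subst hw
  refine latX_mono hn ?_
  simp only [mul_add, ← mul_assoc]
  rw [← Prod.mk_add_mk]
  exact add_mem (latX_of_fil (Weyl.mul_mem hu hp) (Weyl.mul_mem hu hq))
    (latX_of_gen (by rw [add_sub_assoc, add_assoc]; exact Weyl.mul_mem hu hf))

/-! ### Lattice rows by components -/

/-- A pair placed in slots `1, 2`. -/
def colD (s : Op × Op) : Row := s.1 • gen 1 + s.2 • gen 2

/-- A pair placed in slots `3, 4`. -/
def colX (s : Op × Op) : Row := s.1 • gen 3 + s.2 • gen 4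

theorem colD_mem {w n : ℤ} {s : Op × Op} (hs : s ∈ latD w n) : colD s ∈ lat w n := by
  obtain ⟨a, ha, b, hb, f, hf, rfl⟩ := latD_cases hs
  have e : colD (a + f * d 0, b + f * d 1) = a • gen 1 + b • gen 2 + f • gen 7 := by
    ext r
    fin_cases r <;> simp [colD, gen]
  rw [e]
  exact add_mem (add_mem (Model.smul_gen_mem 1 (by simpa [gw, gn] using ha))
    (Model.smul_gen_mem 2 (by simpa [gw, gn] using hb)))
    (Model.smul_gen_mem 7 (by simpa [gw, gn] using hf))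

theorem colX_mem {w n : ℤ} {s : Op × Op} (hs : s ∈ latX w n) : colX s ∈ lat w n := by
  obtain ⟨a, ha, b, hb, f, hf, rfl⟩ := latX_cases hs
  have e : colX (a + f * x 0, b + f * x 1) = a • gen 3 + b • gen 4 + f • gen 8 := by
    ext r
    fin_cases r <;> simp [colX, gen]
  rw [e]
  exact add_mem (add_mem (Model.smul_gen_mem 3 (by simpa [gw, gn] using ha))
    (Model.smul_gen_mem 4 (by simpa [gw, gn] using hb)))
    (Model.smul_gen_mem 8 (by simpa [gw, gn] using hf))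

theorem row_eq (c : Row) :
    c = c 0 • gen 0 + colD (c 1, c 2) + colX (c 3, c 4) + c 5 • gen 5 + c 6 • gen 6 := by
  ext r
  fin_cases r <;> simp [colD, colX, gen]

/-- A row is a lattice row exactly when each of its five components is. -/
theorem mem_lat_iff {w n : ℤ} {c : Row} : c ∈ lat w n ↔
    c 0 ∈ fil w n ∧ (c 1, c 2) ∈ latD w n ∧ (c 3, c 4) ∈ latX w n ∧
      c 5 ∈ fil w (n + 1) ∧ c 6 ∈ fil w (n + 2) := by
  constructor
  · intro hc
    refine Model.lat_induction (P := fun c : Row => c 0 ∈ fil w n ∧ (c 1, c 2) ∈ latD w n ∧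
      (c 3, c 4) ∈ latX w n ∧ c 5 ∈ fil w (n + 1) ∧ c 6 ∈ fil w (n + 2)) ?_ ?_ ?_ hc
    · exact ⟨zero_mem _, zero_mem _, zero_mem _, zero_mem _, zero_mem _⟩
    · rintro a b ⟨a0, a1, a2, a5, a6⟩ ⟨b0, b1, b2, b5, b6⟩
      simp only [Pi.add_apply, ← Prod.mk_add_mk]
      exact ⟨add_mem a0 b0, add_mem a1 b1, add_mem a2 b2, add_mem a5 b5, add_mem a6 b6⟩
    · intro g u hu
      have P0 : ((0 : Op), (0 : Op)) ∈ latD w n := zero_mem _
      have X0 : ((0 : Op), (0 : Op)) ∈ latX w n := zero_mem _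
      fin_cases g <;> simp [gw, gn] at hu <;>
        simp [gen, P0, X0, hu, latD_of_fil, latX_of_fil, latD_of_gen,
          latX_of_gen]
  · rintro ⟨h0, h1, h2, h5, h6⟩
    rw [row_eq c]
    exact add_mem (add_mem (add_mem (add_mem
      (Model.smul_gen_mem 0 (by simpa [gw, gn] using h0)) (colD_mem h1)) (colX_mem h2))
      (Model.smul_gen_mem 5 (by simpa [gw, gn] using h5)))
      (Model.smul_gen_mem 6 (by simpa [gw, gn] using h6))

/-! ### Matrices by rows -/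

/-- A matrix shifts the lattices exactly when its rows and their two contractions are lattice
rows of the shifted weight and level. -/
theorem mem_hom_rows {s t : ℤ} {M : Mat} : M ∈ Model.hom s t ↔
    M 0 ∈ lat s t ∧ (M 1 ∈ lat s t ∧ M 2 ∈ lat s t ∧ d 0 • M 1 + d 1 • M 2 ∈ lat (s - 1) t) ∧
      (M 3 ∈ lat s t ∧ M 4 ∈ lat s t ∧ x 0 • M 3 + x 1 • M 4 ∈ lat (s + 1) (t - 1)) ∧
      M 5 ∈ lat s (t - 1) ∧ M 6 ∈ lat s (t - 2) := by
  have e : ∀ g, vecMul (gen g) M =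
      ![M 0, M 1, M 2, M 3, M 4, M 5, M 6, d 0 • M 1 + d 1 • M 2, x 0 • M 3 + x 1 • M 4] g := by
    intro g
    fin_cases g <;> ext r <;> simp [gen, Matrix.vecMul, dotProduct, Fin.sum_univ_seven]
  have ew : ∀ g, gw g + s = ![s, s, s, s, s, s, s, s - 1, s + 1] g ∧
      gn g + t = ![t, t, t, t, t, t - 1, t - 2, t, t - 1] g := by
    intro g
    fin_cases g <;> simp [gw, gn] <;> omega
  rw [Model.mem_hom_iff]
  constructor
  · intro h
    have h' := fun g => e g ▸ (ew g).1 ▸ (ew g).2 ▸ h g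
    refine ⟨?_, ⟨?_, ?_, ?_⟩, ⟨?_, ?_, ?_⟩, ?_, ?_⟩
    · simpa using h' 0
    · simpa using h' 1
    · simpa using h' 2
    · simpa using h' 7
    · simpa using h' 3
    · simpa using h' 4
    · simpa using h' 8
    · simpa using h' 5
    · simpa using h' 6
  · rintro ⟨h0, ⟨h1, h2, h7⟩, ⟨h3, h4, h8⟩, h5, h6⟩ g
    rw [e, (ew g).1, (ew g).2]
    fin_cases g <;> simp [h0, h1, h2, h3, h4, h5, h6, h7, h8]

/-- A matrix lives in the rows of a vertex exactly when its other rows vanish. -/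
theorem vproj_mul_eq_iff {i : Fin 5} {M : Mat} :
    vproj i * M = M ↔ ∀ r, vx r ≠ i → M r = 0 := by
  constructor
  · intro h r hr
    funext k
    rw [← h, vproj, Matrix.diagonal_mul, if_neg hr, zero_mul]
    rfl
  · intro h
    ext r k
    rw [vproj, Matrix.diagonal_mul]
    by_cases hr : vx r = i
    · rw [if_pos hr, one_mul]
    · rw [if_neg hr, zero_mul, h r hr]
      rfl

theorem mem_rowsAt_zero {s t : ℤ} {M : Mat} : M ∈ rowsAt 0 s t ↔
    M 0 ∈ lat s t ∧ M 1 = 0 ∧ M 2 = 0 ∧ M 3 = 0 ∧ M 4 = 0 ∧ M 5 = 0 ∧ M 6 = 0 := by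
  rw [mem_rowsAt, mem_hom_rows, vproj_mul_eq_iff]
  constructor
  · rintro ⟨⟨h, -⟩, z⟩
    exact ⟨h, z 1 (by decide), z 2 (by decide), z 3 (by decide), z 4 (by decide),
      z 5 (by decide), z 6 (by decide)⟩
  · rintro ⟨h, h1, h2, h3, h4, h5, h6⟩
    refine ⟨by simp [h, h1, h2, h3, h4, h5, h6], fun r hr => ?_⟩
    fin_cases r <;> first | exact absurd rfl hr | assumption

theorem mem_rowsAt_one {s t : ℤ} {M : Mat} : M ∈ rowsAt 1 s t ↔
    (M 1 ∈ lat s t ∧ M 2 ∈ lat s t ∧ d 0 • M 1 + d 1 • M 2 ∈ lat (s - 1) t) ∧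
      M 0 = 0 ∧ M 3 = 0 ∧ M 4 = 0 ∧ M 5 = 0 ∧ M 6 = 0 := by
  rw [mem_rowsAt, mem_hom_rows, vproj_mul_eq_iff]
  constructor
  · rintro ⟨⟨-, h, -⟩, z⟩
    exact ⟨h, z 0 (by decide), z 3 (by decide), z 4 (by decide), z 5 (by decide), z 6 (by decide)⟩
  · rintro ⟨h, h0, h3, h4, h5, h6⟩
    refine ⟨by simp [h, h0, h3, h4, h5, h6], fun r hr => ?_⟩
    fin_cases r <;> first | exact absurd rfl hr | assumption

theorem mem_rowsAt_two {s t : ℤ} {M : Mat} : M ∈ rowsAt 2 s t ↔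
    (M 3 ∈ lat s t ∧ M 4 ∈ lat s t ∧ x 0 • M 3 + x 1 • M 4 ∈ lat (s + 1) (t - 1)) ∧
      M 0 = 0 ∧ M 1 = 0 ∧ M 2 = 0 ∧ M 5 = 0 ∧ M 6 = 0 := by
  rw [mem_rowsAt, mem_hom_rows, vproj_mul_eq_iff]
  constructor
  · rintro ⟨⟨-, -, h, -⟩, z⟩
    exact ⟨h, z 0 (by decide), z 1 (by decide), z 2 (by decide), z 5 (by decide), z 6 (by decide)⟩
  · rintro ⟨h, h0, h1, h2, h5, h6⟩
    refine ⟨by simp [h, h0, h1, h2, h5, h6], fun r hr => ?_⟩
    fin_cases r <;> first | exact absurd rfl hr | assumption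

theorem mem_rowsAt_three {s t : ℤ} {M : Mat} : M ∈ rowsAt 3 s t ↔
    M 5 ∈ lat s (t - 1) ∧ M 0 = 0 ∧ M 1 = 0 ∧ M 2 = 0 ∧ M 3 = 0 ∧ M 4 = 0 ∧ M 6 = 0 := by
  rw [mem_rowsAt, mem_hom_rows, vproj_mul_eq_iff]
  constructor
  · rintro ⟨⟨-, -, -, h, -⟩, z⟩
    exact ⟨h, z 0 (by decide), z 1 (by decide), z 2 (by decide), z 3 (by decide), z 4 (by decide),
      z 6 (by decide)⟩
  · rintro ⟨h, h0, h1, h2, h3, h4, h6⟩
    refine ⟨by simp [h, h0, h1, h2, h3, h4, h6], fun r hr => ?_⟩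
    fin_cases r <;> first | exact absurd rfl hr | assumption

theorem mem_rowsAt_four {s t : ℤ} {M : Mat} : M ∈ rowsAt 4 s t ↔
    M 6 ∈ lat s (t - 2) ∧ M 0 = 0 ∧ M 1 = 0 ∧ M 2 = 0 ∧ M 3 = 0 ∧ M 4 = 0 ∧ M 5 = 0 := by
  rw [mem_rowsAt, mem_hom_rows, vproj_mul_eq_iff]
  constructor
  · rintro ⟨⟨-, -, -, -, h⟩, z⟩
    exact ⟨h, z 0 (by decide), z 1 (by decide), z 2 (by decide), z 3 (by decide), z 4 (by decide),
      z 5 (by decide)⟩
  · rintro ⟨h, h0, h1, h2, h3, h4, h5⟩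
    refine ⟨by simp [h, h0, h1, h2, h3, h4, h5], fun r hr => ?_⟩
    fin_cases r <;> first | exact absurd rfl hr | assumption

/-! ### Symbol maps of the spinor lattices -/

/-- Division by a variable. -/
def divX (i : Fin 2 ⊕ Fin 2) : Sym →ₗ[ℂ] Sym where
  toFun f := f.divMonomial (Finsupp.single i 1)
  map_add' f g := by ext m; simp [coeff_divMonomial]
  map_smul' c f := by ext m; simp [coeff_divMonomial]

theorem divX_X_mul (i : Fin 2 ⊕ Fin 2) (f : Sym) : divX i (f * X i) = f := by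
  ext m
  simp [divX, mul_comm f]

/-- Symbol of a pair of slots `3, 4` of level `N - 1`: the symbol of its correction. -/
def qX (N : ℕ) : Op × Op →ₗ[ℂ] Sym :=
  (divX (.inl 0)).comp ((symb N).comp (LinearMap.fst ℂ Op Op))

/-- Symbol of a pair of slots `1, 2` of level `N`: the symbol of its correction. -/
def qD (N : ℕ) : Op × Op →ₗ[ℂ] Sym :=
  (divX (.inr 0)).comp ((symb (N + 1)).comp (LinearMap.fst ℂ Op Op))

theorem qX_eq {w : ℤ} {N : ℕ} {a b f : Op} (ha : a ∈ fil w ((N : ℤ) - 1))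
    (hf : f ∈ fil (w - 1) N) : qX N (a + f * x 0, b) = symb N f := by
  show divX _ (symb N (a + f * x 0)) = _
  rw [map_add, symb_eq_zero_of_lt ha (by omega), zero_add, symb_mul_x hf, divX_X_mul]

theorem qD_eq {w : ℤ} {N : ℕ} {a b f : Op} (ha : a ∈ fil w N) (hf : f ∈ fil (w + 1) N) :
    qD N (a + f * d 0, b) = symb N f := by
  show divX _ (symb (N + 1) (a + f * d 0)) = _
  rw [map_add, symb_eq_zero_of_lt ha (by omega), zero_add, symb_mul_d hf, divX_X_mul]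

theorem latX_pred {w : ℤ} {N : ℕ} {s : Op × Op} (hs : s ∈ latX w ((N : ℤ) - 1)) :
    ∃ a ∈ fil w ((N : ℤ) - 1), ∃ b ∈ fil w ((N : ℤ) - 1), ∃ f ∈ fil (w - 1) N,
      s = (a + f * x 0, b + f * x 1) := by
  obtain ⟨a, ha, b, hb, f, hf, e⟩ := latX_cases hs
  rw [sub_add_cancel] at hf
  exact ⟨a, ha, b, hb, f, hf, e⟩

/-- The image of `qX` lies in one bihomogeneous piece. -/
theorem qX_mem {w : ℤ} {N : ℕ} {s : Op × Op} (hs : s ∈ latX w ((N : ℤ) - 1)) :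
    qX N s ∈ Binary.R (w - 1 + N) (N : ℤ) := by
  obtain ⟨a, ha, b, hb, f, hf, rfl⟩ := latX_pred hs
  rw [qX_eq ha hf]
  exact symb_R hf

theorem qD_mem {w : ℤ} {N : ℕ} {s : Op × Op} (hs : s ∈ latD w N) :
    qD N s ∈ Binary.R (w + 1 + N) (N : ℤ) := by
  obtain ⟨a, ha, b, hb, f, hf, rfl⟩ := latD_cases hs
  rw [qD_eq ha hf]
  exact symb_R hf

/-- The kernel of `qX` consists of the pairs without correction. -/
theorem qX_eq_zero_iff {w : ℤ} {N : ℕ} {s : Op × Op} (hs : s ∈ latX w ((N : ℤ) - 1)) :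
    qX N s = 0 ↔ s.1 ∈ fil w ((N : ℤ) - 1) ∧ s.2 ∈ fil w ((N : ℤ) - 1) := by
  obtain ⟨a, ha, b, hb, f, hf, rfl⟩ := latX_pred hs
  rw [qX_eq ha hf]
  constructor
  · intro h
    have h' := (symb_eq_zero_iff hf).1 h
    exact ⟨add_mem ha (by simpa using mul_x_mem h' 0), add_mem hb (by simpa using mul_x_mem h' 1)⟩
  · rintro ⟨h1, -⟩
    have e := symb_eq_zero_of_lt h1 (show (N : ℤ) - 1 < (N : ℤ) by omega)
    rw [map_add, symb_eq_zero_of_lt ha (by omega), zero_add, symb_mul_x hf] at e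
    exact (mul_eq_zero.1 e).resolve_right (X_ne_zero _)

theorem qD_eq_zero_iff {w : ℤ} {N : ℕ} {s : Op × Op} (hs : s ∈ latD w N) :
    qD N s = 0 ↔ s.1 ∈ fil w N ∧ s.2 ∈ fil w N := by
  obtain ⟨a, ha, b, hb, f, hf, rfl⟩ := latD_cases hs
  rw [qD_eq ha hf]
  constructor
  · intro h
    have h' := (symb_eq_zero_iff hf).1 h
    exact ⟨add_mem ha (by simpa using mul_d_mem h' 0), add_mem hb (by simpa using mul_d_mem h' 1)⟩
  · rintro ⟨h1, -⟩
    have e := symb_eq_zero_of_lt h1 (show (N : ℤ) < ((N + 1 : ℕ) : ℤ) by omega)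
    rw [map_add, symb_eq_zero_of_lt ha (by omega), zero_add, symb_mul_d hf] at e
    exact (mul_eq_zero.1 e).resolve_right (X_ne_zero _)

/-- `qX` is onto its piece. -/
theorem qX_surj {w : ℤ} {N : ℕ} {φ : Sym} (hφ : φ ∈ Binary.R (w - 1 + N) (N : ℤ)) :
    ∃ s ∈ latX w ((N : ℤ) - 1), qX N s = φ := by
  obtain ⟨f, hf, rfl⟩ := exists_symb hφ
  refine ⟨(f * x 0, f * x 1), latX_of_gen (by rwa [sub_add_cancel]), ?_⟩
  simpa using qX_eq (b := f * x 1) (zero_mem (fil w ((N : ℤ) - 1))) hf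

theorem qD_surj {w : ℤ} {N : ℕ} {φ : Sym} (hφ : φ ∈ Binary.R (w + 1 + N) (N : ℤ)) :
    ∃ s ∈ latD w N, qD N s = φ := by
  obtain ⟨f, hf, rfl⟩ := exists_symb hφ
  refine ⟨(f * d 0, f * d 1), latD_of_gen hf, ?_⟩
  simpa using qD_eq (b := f * d 1) (zero_mem (fil w (N : ℤ))) hf

/-- Left multiplication by an operator of order `k` multiplies symbols. -/
theorem qX_mul {m w : ℤ} {k N : ℕ} {u : Op} {s : Op × Op} (hu : u ∈ fil m k)
    (hs : s ∈ latX w ((N : ℤ) - 1)) :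
    qX (k + N) (u * s.1, u * s.2) = symb k u * qX N s := by
  obtain ⟨a, ha, b, hb, f, hf, rfl⟩ := latX_pred hs
  rw [qX_eq ha hf, ← symb_mul hu hf]
  show qX (k + N) (u * (a + f * x 0), u * (b + f * x 1)) = _
  rw [mul_add, ← mul_assoc]
  refine qX_eq (w := m + w) (fil_mono (by push_cast; omega) (Weyl.mul_mem hu ha)) ?_
  rw [add_sub_assoc, Nat.cast_add]
  exact Weyl.mul_mem hu hf

theorem qD_mul {m w : ℤ} {k N : ℕ} {u : Op} {s : Op × Op} (hu : u ∈ fil m k)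
    (hs : s ∈ latD w N) :
    qD (k + N) (u * s.1, u * s.2) = symb k u * qD N s := by
  obtain ⟨a, ha, b, hb, f, hf, rfl⟩ := latD_cases hs
  rw [qD_eq ha hf, ← symb_mul hu hf]
  show qD (k + N) (u * (a + f * d 0), u * (b + f * d 1)) = _
  rw [mul_add, ← mul_assoc]
  refine qD_eq (w := m + w) (fil_mono (by push_cast; omega) (Weyl.mul_mem hu ha)) ?_
  rw [add_assoc, Nat.cast_add]
  exact Weyl.mul_mem hu hf

end Vale.Agent.P195.Exact
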