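import Vale.Agent.P195.Exact.LowPair
import Vale.Agent.P195.Exact.Sym

/-!
P195: exactness of the low cochain maps with values in lattice rows, column by column.
-/

noncomputable section

namespace Vale.Agent.P195.Exact.Low

open Vale.Agent.P195.Weyl
open Vale.Agent.P195.Model (Row lat)

variable {Lm L0 Lq : Type*} [AddCommGroup Lm] [Module ℂ Lm] [AddCommGroup L0] [Module ℂ L0]
  [AddCommGroup Lq] [Module ℂ Lq] (F : Deg Lm L0 Lq)

/-- One column of a map into rows. -/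
def colOf {W : Type*} [AddCommGroup W] [Module ℂ W] (c : Fin 7) (r : W →ₗ[ℂ] Row) : W →ₗ[ℂ] Op :=
  (LinearMap.proj c).comp r

theorem colOf_apply {W : Type*} [AddCommGroup W] [Module ℂ W] (c : Fin 7) (r : W →ₗ[ℂ] Row)
    (u : W) : colOf c r u = r u c := rfl

/-- The first map is injective on rows. -/
theorem rows_zero {s t : ℤ} (X : L0 →ₗ[ℂ] Row) (hX : ∀ p, X p ∈ lat s (t - 2))
    (h : ∀ c, dzero F (colOf c X) = 0) : X = 0 := by
  have hc : ∀ c, ∃ n, ∀ p, colOf c X p ∈ fil s n := fun c =>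
    ⟨t - 2 + 2, fun p => Model.entry_mem (hX p) c⟩
  refine LinearMap.ext fun p => funext fun c => ?_
  obtain ⟨n, hn⟩ := hc c
  exact LinearMap.congr_fun (core_zero F s n _ hn (h c)) p

/-- Exactness at the second vertex on rows. -/
theorem rows_one {s t : ℤ} (P : Fin 2 → Fin 2 → L0 →ₗ[ℂ] Row)
    (hP : ∀ i k p, P i k p ∈ lat s (t - 1))
    (hp : ∀ c, dplus F (fun i k => colOf c (P i k)) = 0)
    (hm : ∀ c, dminus F (fun i k => colOf c (P i k)) = 0) :
    ∃ X : L0 →ₗ[ℂ] Row, (∀ p, X p ∈ lat s (t - 2)) ∧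
      ∀ c, dzero F (colOf c X) = fun i k => colOf c (P i k) := by
  have hl := fun i k p => mem_lat_iff.1 (hP i k p)
  obtain ⟨Y0, h0, e0⟩ := core_one F s (t - 1) (fun i k => colOf 0 (P i k))
    (fun i k p => (hl i k p).1) (hp 0) (hm 0)
  obtain ⟨Y5, h5, e5⟩ := core_one F s t (fun i k => colOf 5 (P i k))
    (fun i k p => by
      have h := (hl i k p).2.2.2.1
      rwa [sub_add_cancel] at h) (hp 5) (hm 5)
  obtain ⟨Y6, h6, e6⟩ := core_one F s (t + 1) (fun i k => colOf 6 (P i k))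
    (fun i k p => by
      have h := (hl i k p).2.2.2.2
      rwa [show t - 1 + 2 = t + 1 by ring] at h) (hp 6) (hm 6)
  obtain ⟨Y1, Y2, h1, h2, h12, e1, e2⟩ := pair_one F (w := s) (t := t) (v := s - 1) (e := 1)
    (d 1) (d 0) (fun ha hb => conD_fil ha hb)
    (fun i k => colOf 1 (P i k)) (fun i k => colOf 2 (P i k))
    (fun i k p => by simpa [colOf_apply] using (mem_latD_iff.1 (hl i k p).2.1).1)
    (fun i k p => by simpa [colOf_apply] using (mem_latD_iff.1 (hl i k p).2.1).2.1)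
    (fun i k p => by simpa [colOf_apply, con_apply] using (mem_latD_iff.1 (hl i k p).2.1).2.2)
    ⟨hp 1, hm 1⟩ ⟨hp 2, hm 2⟩
  obtain ⟨Y3, Y4, h3, h4, h34, e3, e4⟩ := pair_one F (w := s) (t := t) (v := s + 1) (e := 0)
    (x 1) (x 0) (fun ha hb => conX_fil ha hb)
    (fun i k => colOf 3 (P i k)) (fun i k => colOf 4 (P i k))
    (fun i k p => by simpa [colOf_apply] using (mem_latX_iff.1 (hl i k p).2.2.1).1)
    (fun i k p => by simpa [colOf_apply] using (mem_latX_iff.1 (hl i k p).2.2.1).2.1)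
    (fun i k p => by simpa [colOf_apply, con_apply] using (mem_latX_iff.1 (hl i k p).2.2.1).2.2)
    ⟨hp 3, hm 3⟩ ⟨hp 4, hm 4⟩
  refine ⟨LinearMap.pi ![Y0, Y1, Y2, Y3, Y4, Y5, Y6], fun p => mem_lat_iff.2 ⟨?_, ?_, ?_, ?_, ?_⟩,
    fun c => ?_⟩
  · simpa [show t - 1 - 1 = t - 2 by ring] using h0 p
  · refine mem_latD_iff.2 ⟨?_, ?_, ?_⟩
    · simpa [show t - 2 + 1 = t - 1 by ring] using h1 p
    · simpa [show t - 2 + 1 = t - 1 by ring] using h2 p
    · simpa [con_apply, show t + 1 - 2 = t - 1 by ring, show t - 2 + 1 = t - 1 by ring] using h12 p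
  · refine mem_latX_iff.2 ⟨?_, ?_, ?_⟩
    · simpa [show t - 2 + 1 = t - 1 by ring] using h3 p
    · simpa [show t - 2 + 1 = t - 1 by ring] using h4 p
    · simpa [con_apply] using h34 p
  · simpa [show t - 2 + 1 = t - 1 by ring] using h5 p
  · simpa [show t - 2 + 2 = t by ring] using h6 p
  · have e : colOf c (LinearMap.pi ![Y0, Y1, Y2, Y3, Y4, Y5, Y6]) =
        ![Y0, Y1, Y2, Y3, Y4, Y5, Y6] c := LinearMap.ext fun p => rfl
    rw [e]
    fin_cases c <;> simp [e0, e1, e2, e3, e4, e5, e6]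

/-- Exactness at the third vertex on rows. -/
theorem rows_two {s t : ℤ} (hs0 : 0 ≤ s) (hs1 : s ≤ 1) (hst : 1 ≤ t ∨ s + t ≤ 0)
    (rp : Fin 2 → Lm →ₗ[ℂ] Row) (rm : Fin 2 → Lq →ₗ[ℂ] Row)
    (hrp : ∀ l u, rp l u ∈ lat s t) (hrm : ∀ l q, rm l q ∈ lat s t)
    (hcp : ∀ u, d 0 • rp 0 u + d 1 • rp 1 u ∈ lat (s - 1) t)
    (hcm : ∀ q, x 0 • rm 0 q + x 1 • rm 1 q ∈ lat (s + 1) (t - 1))
    (hpsi : ∀ c p, psi F (fun l => colOf c (rp l)) (fun l => colOf c (rm l)) p = 0) :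
    ∃ P : Fin 2 → Fin 2 → L0 →ₗ[ℂ] Row, (∀ i k p, P i k p ∈ lat s (t - 1)) ∧
      ∀ c, dplus F (fun i k => colOf c (P i k)) = (fun l => colOf c (rp l)) ∧
        dminus F (fun i k => colOf c (P i k)) = fun l => colOf c (rm l) := by
  have lp := fun l u => mem_lat_iff.1 (hrp l u)
  have lm := fun l q => mem_lat_iff.1 (hrm l q)
  have cp := fun u => mem_lat_iff.1 (hcp u)
  have cm := fun q => mem_lat_iff.1 (hcm q)
  have sp : ∀ c u, cplus (fun l => colOf c (rp l)) u = (d 0 • rp 0 u + d 1 • rp 1 u) c :=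
    fun c u => rfl
  have sm : ∀ c q, cminus (fun l => colOf c (rm l)) q = (x 0 • rm 0 q + x 1 • rm 1 q) c :=
    fun c q => rfl
  have e11 : t - 1 + 1 = t := by ring
  have e10 : t + 1 - 1 = t := by ring
  obtain ⟨P0, h0, p0, m0⟩ := core_two F hs0 hs1 t (fun l => colOf 0 (rp l))
    (fun l => colOf 0 (rm l))
    ⟨fun l u => (lp l u).1, fun l q => (lm l q).1, fun u => by rw [sp]; exact (cp u).1,
      fun q => by rw [sm]; exact (cm q).1⟩ (hpsi 0)
  obtain ⟨P5, h5, p5, m5⟩ := core_two F hs0 hs1 (t + 1) (fun l => colOf 5 (rp l))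
    (fun l => colOf 5 (rm l))
    ⟨fun l u => (lp l u).2.2.2.1, fun l q => (lm l q).2.2.2.1,
      fun u => by rw [sp]; exact (cp u).2.2.2.1,
      fun q => by rw [sm]; simpa [e11, e10] using (cm q).2.2.2.1⟩ (hpsi 5)
  obtain ⟨P6, h6, p6, m6⟩ := core_two F hs0 hs1 (t + 2) (fun l => colOf 6 (rp l))
    (fun l => colOf 6 (rm l))
    ⟨fun l u => (lp l u).2.2.2.2, fun l q => (lm l q).2.2.2.2,
      fun u => by rw [sp]; exact (cp u).2.2.2.2,
      fun q => by
        rw [sm]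
        have h := (cm q).2.2.2.2
        rwa [show t - 1 + 2 = t + 2 - 1 by ring] at h⟩ (hpsi 6)
  have Dp := fun l u => mem_latD_iff.1 (lp l u).2.1
  have Dm := fun l q => mem_latD_iff.1 (lm l q).2.1
  have Dcp := fun u => mem_latD_iff.1 (cp u).2.1
  have Dcm := fun q => mem_latD_iff.1 (cm q).2.1
  have Xp := fun l u => mem_latX_iff.1 (lp l u).2.2.1
  have Xm := fun l q => mem_latX_iff.1 (lm l q).2.2.1
  have Xcp := fun u => mem_latX_iff.1 (cp u).2.2.1
  have Xcm := fun q => mem_latX_iff.1 (cm q).2.2.1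
  obtain ⟨P1, P2, h1, h2, h12, ⟨p1, m1⟩, p2, m2⟩ := pair_two F (w := s) (t := t) (v := s - 1)
    (e := 1) hs0 hs1 (d 1) (d 0) (fun ha hb => conD_fil ha hb)
    (fun M hM η hη => conD_lift hst M hM η hη)
    (fun l => colOf 1 (rp l)) (fun l => colOf 2 (rp l))
    (fun l => colOf 1 (rm l)) (fun l => colOf 2 (rm l))
    ⟨fun l u => (Dp l u).1, fun l q => (Dm l q).1, fun u => by rw [sp]; exact (Dcp u).1,
      fun q => by rw [sm]; simpa [e11, e10] using (Dcm q).1⟩
    ⟨fun l u => (Dp l u).2.1, fun l q => (Dm l q).2.1, fun u => by rw [sp]; exact (Dcp u).2.1,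
      fun q => by rw [sm]; simpa [e11, e10] using (Dcm q).2.1⟩
    ⟨fun l u => (Dp l u).2.2, fun l q => (Dm l q).2.2,
      fun u => by rw [cplus_con, con_apply, sp, sp]; exact (Dcp u).2.2,
      fun q => by
        rw [cminus_con, con_apply, sm, sm]
        simpa [e11, e10] using (Dcm q).2.2⟩
    (hpsi 1) (hpsi 2)
  obtain ⟨P3, P4, h3, h4, h34, ⟨p3, m3⟩, p4, m4⟩ := pair_two F (w := s) (t := t) (v := s + 1)
    (e := 0) hs0 hs1 (x 1) (x 0) (fun ha hb => conX_fil ha hb)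
    (fun M hM η hη => conX_lift hs0 M hM η hη)
    (fun l => colOf 3 (rp l)) (fun l => colOf 4 (rp l))
    (fun l => colOf 3 (rm l)) (fun l => colOf 4 (rm l))
    ⟨fun l u => (Xp l u).1, fun l q => (Xm l q).1, fun u => by rw [sp]; exact (Xcp u).1,
      fun q => by rw [sm]; simpa [e11, e10] using (Xcm q).1⟩
    ⟨fun l u => (Xp l u).2.1, fun l q => (Xm l q).2.1, fun u => by rw [sp]; exact (Xcp u).2.1,
      fun q => by rw [sm]; simpa [e11, e10] using (Xcm q).2.1⟩
    ⟨fun l u => by simpa [colOf_apply, con_apply] using (Xp l u).2.2,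
      fun l q => by simpa [colOf_apply, con_apply] using (Xm l q).2.2,
      fun u => by rw [cplus_con, con_apply, sp, sp]; simpa using (Xcp u).2.2,
      fun q => by rw [cminus_con, con_apply, sm, sm]; simpa using (Xcm q).2.2⟩
    (hpsi 3) (hpsi 4)
  refine ⟨fun i k => LinearMap.pi ![P0 i k, P1 i k, P2 i k, P3 i k, P4 i k, P5 i k, P6 i k],
    fun i k p => mem_lat_iff.2 ⟨?_, ?_, ?_, ?_, ?_⟩, fun c => ?_⟩
  · simpa using h0 i k p
  · refine mem_latD_iff.2 ⟨?_, ?_, ?_⟩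
    · simpa [e11] using h1 i k p
    · simpa [e11] using h2 i k p
    · simpa [con_apply, e11, e10] using h12 i k p
  · refine mem_latX_iff.2 ⟨?_, ?_, ?_⟩
    · simpa [e11] using h3 i k p
    · simpa [e11] using h4 i k p
    · simpa [con_apply] using h34 i k p
  · simpa [e11, e10] using h5 i k p
  · simpa [show t - 1 + 2 = t + 2 - 1 by ring] using h6 i k p
  · have e : (fun i k => colOf c (LinearMap.pi ![P0 i k, P1 i k, P2 i k, P3 i k, P4 i k, P5 i k,
        P6 i k])) = ![P0, P1, P2, P3, P4, P5, P6] c := by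
      funext i k
      refine LinearMap.ext fun p => ?_
      fin_cases c <;> rfl
    rw [e]
    fin_cases c <;> simp [p0, p1, p2, p3, p4, p5, p6, m0, m1, m2, m3, m4, m5, m6]

end Vale.Agent.P195.Exact.Low
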