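import Vale.Agent.P195.Exact.LowOps
import Vale.Agent.P195.Exact.Spinor
import Mathlib.LinearAlgebra.Basis.VectorSpace

/-!
P195: symbols of the low cochain maps. Cochains at `S±` are measured by two pairs `(H, G)` with
`cx H + cy G` the symbol of the next map; the pairs of an image are Koszul boundaries.
-/

noncomputable section

namespace Vale.Agent.P195.Exact.Low

open MvPolynomial
open Vale.Agent.P195.Weyl
open Vale.Agent.P195.Orbit

/-- Pointwise preimages in a subspace give a linear lift. -/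
theorem exists_lift {W U V : Type*} [AddCommGroup W] [Module ℂ W] [AddCommGroup U] [Module ℂ U]
    [AddCommGroup V] [Module ℂ V] (S : Submodule ℂ V) (g : V →ₗ[ℂ] U) (f : W →ₗ[ℂ] U)
    (h : ∀ w, ∃ v ∈ S, g v = f w) :
    ∃ φ : W →ₗ[ℂ] V, (∀ w, φ w ∈ S) ∧ ∀ w, g (φ w) = f w := by
  choose v hv hg using h
  let b := Module.Basis.ofVectorSpace ℂ W
  let φ : W →ₗ[ℂ] S := b.constr ℂ fun i => ⟨v (b i), hv (b i)⟩
  refine ⟨S.subtype.comp φ, fun w => (φ w).2, fun w => ?_⟩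
  have e : g.comp (S.subtype.comp φ) = f := b.ext fun i => by simp [φ, hg]
  exact LinearMap.congr_fun e w

theorem x_mul_fil {m k : ℤ} {u : Op} (hu : u ∈ fil m k) (i : Fin 2) :
    x i * u ∈ fil (m + 1) k := by
  have h := Weyl.mul_mem (x_mem i le_rfl) hu
  rwa [zero_add, add_comm] at h

theorem xd_mul_fil {m k : ℤ} {u : Op} (hu : u ∈ fil m k) (i l : Fin 2) :
    x i * d l * u ∈ fil m (k + 1) := by
  have h := x_mul_fil (d_mul_mem hu l) i
  rwa [sub_add_cancel, ← mul_assoc] at h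

theorem symb_x_mul {m : ℤ} {N : ℕ} {u : Op} (hu : u ∈ fil m N) (i : Fin 2) :
    symb N (x i * u) = X (.inl i) * symb N u := by
  have h := symb_mul (n := 0) (x_mem i le_rfl) hu
  rwa [symb_x, zero_add] at h

theorem symb_d_mul {m : ℤ} {N : ℕ} {u : Op} (hu : u ∈ fil m N) (i : Fin 2) :
    symb (N + 1) (d i * u) = X (.inr i) * symb N u := by
  have h := symb_mul (n := 1) (d_mem i le_rfl) hu
  rwa [symb_d, add_comm 1 N] at h

theorem symb_xd_mul {m : ℤ} {N : ℕ} {u : Op} (hu : u ∈ fil m N) (i l : Fin 2) :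
    symb (N + 1) (x i * d l * u) = X (.inl i) * (X (.inr l) * symb N u) := by
  rw [mul_assoc, symb_x_mul (m := m - 1) (by push_cast; exact d_mul_mem hu l) i, symb_d_mul hu l]

/-- `sy` as a linear map. -/
def syL : Sym →ₗ[ℂ] Fin 2 → Sym where
  toFun := Binary.sy
  map_add' u v := by
    funext i; fin_cases i <;> simp [Binary.sy, mul_add]; ring
  map_smul' c u := by
    funext i; fin_cases i <;> simp [Binary.sy]

/-- `sx` as a linear map. -/
def sxL : Sym →ₗ[ℂ] Fin 2 → Sym where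
  toFun := Binary.sx
  map_add' u v := by
    funext i; fin_cases i <;> simp [Binary.sx, mul_add]; ring
  map_smul' c u := by
    funext i; fin_cases i <;> simp [Binary.sx]

variable {Lm L0 Lq : Type*} [AddCommGroup Lm] [Module ℂ Lm] [AddCommGroup L0] [Module ℂ L0]
  [AddCommGroup Lq] [Module ℂ Lq] (F : Deg Lm L0 Lq)

/-- Left multiplication of symbols. -/
abbrev mlS (f : Sym) : Sym →ₗ[ℂ] Sym := LinearMap.mulLeft ℂ f

/-- Symbol potential at `S+` of an image. -/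
def Vp (π : Fin 2 → Fin 2 → L0 →ₗ[ℂ] Sym) : Lm →ₗ[ℂ] Sym :=
  (mlS (X (.inl 1))).comp (Sk F π 0) - (mlS (X (.inl 0))).comp (Sk F π 1)

/-- Symbol potential at `S-` of an image. -/
def Vm (π : Fin 2 → Fin 2 → L0 →ₗ[ℂ] Sym) : Lq →ₗ[ℂ] Sym :=
  (mlS (X (.inr 1))).comp (Uk F π 0) - (mlS (X (.inr 0))).comp (Uk F π 1)

/-- Symbol of the contraction at `S+` of an image. -/
def Γp (π : Fin 2 → Fin 2 → L0 →ₗ[ℂ] Sym) : Lm →ₗ[ℂ] Sym :=
  F.c • ((mlS (X (.inr 0))).comp ((Tr π).comp (F.xm 0)) +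
    (mlS (X (.inr 1))).comp ((Tr π).comp (F.xm 1)) -
    (mlS (X (.inr 0))).comp (Sk F π 0) - (mlS (X (.inr 1))).comp (Sk F π 1))

/-- Symbol of the contraction at `S-` of an image. -/
def Γm (π : Fin 2 → Fin 2 → L0 →ₗ[ℂ] Sym) : Lq →ₗ[ℂ] Sym :=
  F.c • ((mlS (X (.inl 0))).comp ((Tr π).comp (F.dq 0)) +
    (mlS (X (.inl 1))).comp ((Tr π).comp (F.dq 1)) -
    (mlS (X (.inl 0))).comp (Uk F π 0) - (mlS (X (.inl 1))).comp (Uk F π 1))

/-- The first pair. -/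
def Hs (γp : Lm →ₗ[ℂ] Sym) (vm : Lq →ₗ[ℂ] Sym) : Fin 2 → L0 →ₗ[ℂ] Sym :=
  ![γp.comp (F.dm 0) - F.c • vm.comp (F.xq 1), γp.comp (F.dm 1) + F.c • vm.comp (F.xq 0)]

/-- The second pair. -/
def Gs (γm : Lq →ₗ[ℂ] Sym) (vp : Lm →ₗ[ℂ] Sym) : Fin 2 → L0 →ₗ[ℂ] Sym :=
  ![-γm.comp (F.xq 0) + F.c • vp.comp (F.dm 1), -γm.comp (F.xq 1) - F.c • vp.comp (F.dm 0)]

theorem Hs_sub (γ γ' : Lm →ₗ[ℂ] Sym) (v v' : Lq →ₗ[ℂ] Sym) (i : Fin 2) (p : L0) :
    Hs F (γ - γ') (v - v') i p = Hs F γ v i p - Hs F γ' v' i p := by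
  fin_cases i <;> simp [Hs] <;> module

theorem Gs_sub (γ γ' : Lq →ₗ[ℂ] Sym) (v v' : Lm →ₗ[ℂ] Sym) (i : Fin 2) (p : L0) :
    Gs F (γ - γ') (v - v') i p = Gs F γ v i p - Gs F γ' v' i p := by
  fin_cases i <;> simp [Gs] <;> module

/-- The cofactors of a square of symbols. -/
def adj (π : Fin 2 → Fin 2 → Sym) : Fin 2 → Fin 2 → Sym :=
  ![![π 1 1, -π 1 0], ![-π 0 1, π 0 0]]

theorem Hs_image (π : Fin 2 → Fin 2 → L0 →ₗ[ℂ] Sym) (i : Fin 2) (p : L0) :
    Hs F (Γp F π) (Vm F π) i p =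
      (F.c * F.c) • Binary.cy (adj (fun a b => π a b p) i) := by
  fin_cases i <;>
  · simp [Hs, Γp, Vm, Sk_apply, Uk_apply, Tr_apply, Binary.cy, adj, F.comm, euler_one, mul_add,
      mul_sub]
    module

theorem Gs_image (π : Fin 2 → Fin 2 → L0 →ₗ[ℂ] Sym) (l : Fin 2) (p : L0) :
    Gs F (Γm F π) (Vp F π) l p =
      -((F.c * F.c) • Binary.cx (fun i => adj (fun a b => π a b p) i l)) := by
  fin_cases l <;>
  · simp [Gs, Γm, Vp, Sk_apply, Uk_apply, Tr_apply, Binary.cx, adj, F.comm, euler_one, mul_add,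
      mul_sub]
    module

/-- The two pairs determine the potentials and the contractions. -/
theorem eq_zero_of_pairs {γp vp : Lm →ₗ[ℂ] Sym} {γm vm : Lq →ₗ[ℂ] Sym}
    (hH : ∀ i p, Hs F γp vm i p = 0) (hG : ∀ i p, Gs F γm vp i p = 0) :
    (γp = 0 ∧ vm = 0) ∧ γm = 0 ∧ vp = 0 := by
  have H0 : ∀ p, γp (F.dm 0 p) = F.c • vm (F.xq 1 p) :=
    fun p => sub_eq_zero.1 (by simpa [Hs] using hH 0 p)
  have H1 : ∀ p, γp (F.dm 1 p) = -(F.c • vm (F.xq 0 p)) :=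
    fun p => eq_neg_of_add_eq_zero_left (by simpa [Hs] using hH 1 p)
  have G0 : ∀ p, γm (F.xq 0 p) = F.c • vp (F.dm 1 p) :=
    fun p => (neg_add_eq_zero.1 (by simpa [Gs] using hG 0 p))
  have G1 : ∀ p, γm (F.xq 1 p) = -(F.c • vp (F.dm 0 p)) := fun p => by
    have h : -γm (F.xq 1 p) - F.c • vp (F.dm 0 p) = 0 := by simpa [Gs] using hG 1 p
    linear_combination (norm := module) -h
  have gp : γp = 0 := LinearMap.ext fun t => by
    apply smul_right_injective Sym F.hc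
    simp only [LinearMap.zero_apply, smul_zero]
    rw [← map_smul, ← F.eulerM, map_add, H0, H1, F.commX, add_neg_cancel]
  have gm : γm = 0 := LinearMap.ext fun q => by
    apply smul_right_injective Sym F.hc
    simp only [LinearMap.zero_apply, smul_zero]
    rw [← map_smul, ← F.eulerQ, map_add, G0, G1, F.commD, add_neg_cancel]
  have vm0 : ∀ i p, vm (F.xq i p) = 0 := fun i p => by
    apply smul_right_injective Sym F.hc
    simp only [smul_zero]
    fin_cases i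
    · simpa [gp] using (H1 p).symm
    · simpa [gp] using (H0 p).symm
  have vp0 : ∀ i p, vp (F.dm i p) = 0 := fun i p => by
    apply smul_right_injective Sym F.hc
    simp only [smul_zero]
    fin_cases i
    · simpa [gm] using (G1 p).symm
    · simpa [gm] using (G0 p).symm
  refine ⟨⟨gp, LinearMap.ext fun q => ?_⟩, gm, LinearMap.ext fun t => ?_⟩
  · apply smul_right_injective Sym F.hc
    simp only [LinearMap.zero_apply, smul_zero]
    rw [← map_smul, ← F.eulerQ, map_add, vm0, vm0, add_zero]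
  · apply smul_right_injective Sym F.hc
    simp only [LinearMap.zero_apply, smul_zero]
    rw [← map_smul, ← F.eulerM, map_add, vp0, vp0, add_zero]

/-- The symbol of a cochain at the second vertex. -/
def sigP (N : ℕ) (P : Fin 2 → Fin 2 → L0 →ₗ[ℂ] Op) : Fin 2 → Fin 2 → L0 →ₗ[ℂ] Sym :=
  fun i k => (symb N).comp (P i k)

theorem Sk_mem {w k : ℤ} {P : Fin 2 → Fin 2 → L0 →ₗ[ℂ] Op} (hP : ∀ i l p, P i l p ∈ fil w k)
    (i : Fin 2) (t : Lm) : Sk F P i t ∈ fil w k :=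
  add_mem (hP _ _ _) (hP _ _ _)

theorem Uk_mem {w k : ℤ} {P : Fin 2 → Fin 2 → L0 →ₗ[ℂ] Op} (hP : ∀ i l p, P i l p ∈ fil w k)
    (i : Fin 2) (q : Lq) : Uk F P i q ∈ fil w k :=
  add_mem (hP _ _ _) (hP _ _ _)

theorem Tr_mem {w k : ℤ} {P : Fin 2 → Fin 2 → L0 →ₗ[ℂ] Op} (hP : ∀ i l p, P i l p ∈ fil w k)
    (p : L0) : Tr P p ∈ fil w k :=
  add_mem (hP _ _ _) (hP _ _ _)

theorem Sk_sig (N : ℕ) (P : Fin 2 → Fin 2 → L0 →ₗ[ℂ] Op) (i : Fin 2) (t : Lm) :
    symb N (Sk F P i t) = Sk F (sigP N P) i t := map_add _ _ _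

theorem Uk_sig (N : ℕ) (P : Fin 2 → Fin 2 → L0 →ₗ[ℂ] Op) (i : Fin 2) (q : Lq) :
    symb N (Uk F P i q) = Uk F (sigP N P) i q := map_add _ _ _

theorem Tr_sig (N : ℕ) (P : Fin 2 → Fin 2 → L0 →ₗ[ℂ] Op) (p : L0) :
    symb N (Tr P p) = Tr (sigP N P) p := map_add _ _ _

theorem symb_low {w : ℤ} {N : ℕ} {u : Op} (hu : u ∈ fil w N) : symb (N + 1) u = 0 :=
  symb_eq_zero_of_lt hu (by push_cast; omega)

theorem symb_dplus {w : ℤ} {N : ℕ} {P : Fin 2 → Fin 2 → L0 →ₗ[ℂ] Op}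
    (hP : ∀ i l p, P i l p ∈ fil w N) (l : Fin 2) (t : Lm) :
    symb (N + 1) (dplus F P l t) = Binary.sy (Vp F (sigP N P) t) l := by
  have hS := fun i => Sk_mem F hP i t
  simp only [dplus_apply, eul, add_mul, one_mul, map_add, map_sub, map_smul,
    symb_xd_mul (hS _), symb_low (hS _), symb_low (Tr_mem hP _), Sk_sig]
  fin_cases l <;> simp [Binary.sy, Vp] <;> ring

theorem symb_dminus {w : ℤ} {N : ℕ} {P : Fin 2 → Fin 2 → L0 →ₗ[ℂ] Op}
    (hP : ∀ i l p, P i l p ∈ fil w N) (l : Fin 2) (q : Lq) :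
    symb (N + 1) (dminus F P l q) = Binary.sx (Vm F (sigP N P) q) l := by
  have hS := fun i => Uk_mem F hP i q
  simp only [dminus_apply, eul, add_mul, map_add, map_sub, map_smul,
    symb_xd_mul (hS _), symb_low (hS _), symb_low (Tr_mem hP _), Uk_sig]
  fin_cases l <;> simp [Binary.sx, Vm] <;> ring

theorem symb_cplus_dplus {w : ℤ} {N : ℕ} {P : Fin 2 → Fin 2 → L0 →ₗ[ℂ] Op}
    (hP : ∀ i l p, P i l p ∈ fil w N) (t : Lm) :
    symb (N + 1) (cplus (dplus F P) t) = Γp F (sigP N P) t := by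
  simp only [cplus_dplus, map_add, map_sub, map_smul, symb_d_mul (Tr_mem hP _),
    symb_d_mul (Sk_mem F hP _ t), Sk_sig, Tr_sig]
  simp [Γp]

theorem symb_cminus_dminus {w : ℤ} {N : ℕ} {P : Fin 2 → Fin 2 → L0 →ₗ[ℂ] Op}
    (hP : ∀ i l p, P i l p ∈ fil w N) (q : Lq) :
    symb N (cminus (dminus F P) q) = Γm F (sigP N P) q := by
  simp only [cminus_dminus, map_add, map_sub, map_smul, symb_x_mul (Tr_mem hP _),
    symb_x_mul (Uk_mem F hP _ q), Uk_sig, Tr_sig]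
  simp [Γm]

end Vale.Agent.P195.Exact.Low
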