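import Vale.Agent.P195.Exact.Spinor

/-!
P195: operators and spinors of top order split off a derivative or a variable on the left.
-/

noncomputable section

namespace Vale.Agent.P195.Exact

open Vale.Agent.P195.Weyl
open Finsupp (single)

/-- An operator of level `n + 1` is `∂₀ a + ∂₁ b` up to level `n`. -/
theorem fil_splitD {w n : ℤ} (hn : 0 ≤ n) {u : Op} (hu : u ∈ fil w (n + 1)) :
    ∃ a ∈ fil (w + 1) n, ∃ b ∈ fil (w + 1) n, ∃ c ∈ fil w n, u = d 0 * a + d 1 * b + c := by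
  refine fil_induction (motive := fun u => ∃ a ∈ fil (w + 1) n, ∃ b ∈ fil (w + 1) n,
    ∃ c ∈ fil w n, u = d 0 * a + d 1 * b + c) hu (fun p q hm hq => ?_) ?_ ?_ ?_
  · by_cases h : (q.degree : ℤ) ≤ n
    · exact ⟨0, zero_mem _, 0, zero_mem _, _, nmon_mem hm h, by simp⟩
    have key : ∀ a : Fin 2, q a ≠ 0 →
        nmon p (q - single a 1) ∈ fil (w + 1) n ∧
          (p a : ℂ) • nmon (p - single a 1) (q - single a 1) ∈ fil w n ∧
          nmon p q = d a * nmon p (q - single a 1) -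
            (p a : ℂ) • nmon (p - single a 1) (q - single a 1) := by
      intro a ha
      have e : q - single a 1 + single a 1 = q :=
        tsub_add_cancel_of_le (Finsupp.single_le_iff.2 (Nat.one_le_iff_ne_zero.2 ha))
      have hd := degree_sub_single ha
      refine ⟨nmon_mem (by omega) (by omega), ?_, by rw [d_nmon, e, add_sub_cancel_right]⟩
      rcases eq_or_ne (p a) 0 with hp | hp
      · simp [hp]
      · have hd' := degree_sub_single hp
        exact Submodule.smul_mem _ _ (nmon_mem (by omega) (by omega))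
    have h2 := degree_two q
    rcases eq_or_ne (q 0) 0 with h0 | h0
    · obtain ⟨ha, hc, he⟩ := key 1 (by omega)
      exact ⟨0, zero_mem _, _, ha, _, neg_mem hc, by rw [he, sub_eq_add_neg]; simp⟩
    · obtain ⟨ha, hc, he⟩ := key 0 h0
      exact ⟨_, ha, 0, zero_mem _, _, neg_mem hc, by rw [he, sub_eq_add_neg]; simp⟩
  · exact ⟨0, zero_mem _, 0, zero_mem _, 0, zero_mem _, by simp⟩
  · rintro u v ⟨a, ha, b, hb, c, hc, rfl⟩ ⟨a', ha', b', hb', c', hc', rfl⟩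
    exact ⟨a + a', add_mem ha ha', b + b', add_mem hb hb', c + c', add_mem hc hc', by
      rw [mul_add, mul_add]; abel⟩
  · rintro z u ⟨a, ha, b, hb, c, hc, rfl⟩
    exact ⟨z • a, Submodule.smul_mem _ _ ha, z • b, Submodule.smul_mem _ _ hb, z • c,
      Submodule.smul_mem _ _ hc, by simp [smul_add, mul_smul_comm]⟩

/-- An operator of level `n` is `x₀ a + x₁ b` up to level `n - 1`. -/
theorem fil_splitX {w n : ℤ} (hw : 1 ≤ w + n) {u : Op} (hu : u ∈ fil w n) :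
    ∃ a ∈ fil (w - 1) n, ∃ b ∈ fil (w - 1) n, ∃ c ∈ fil w (n - 1),
      u = x 0 * a + x 1 * b + c := by
  refine fil_induction (motive := fun u => ∃ a ∈ fil (w - 1) n, ∃ b ∈ fil (w - 1) n,
    ∃ c ∈ fil w (n - 1), u = x 0 * a + x 1 * b + c) hu (fun p q hm hq => ?_) ?_ ?_ ?_
  · by_cases h : (q.degree : ℤ) ≤ n - 1
    · exact ⟨0, zero_mem _, 0, zero_mem _, _, nmon_mem hm h, by simp⟩
    have key : ∀ a : Fin 2, p a ≠ 0 → nmon (p - single a 1) q ∈ fil (w - 1) n ∧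
        nmon p q = x a * nmon (p - single a 1) q := by
      intro a ha
      have e : single a 1 + (p - single a 1) = p :=
        add_tsub_cancel_of_le (Finsupp.single_le_iff.2 (Nat.one_le_iff_ne_zero.2 ha))
      have hd := degree_sub_single ha
      exact ⟨nmon_mem (by omega) (by omega), (by rw [← congrArg (nmon · q) e, ← mulP_nmon]; rfl)⟩
    have h2 := degree_two p
    rcases eq_or_ne (p 0) 0 with h0 | h0
    · obtain ⟨ha, he⟩ := key 1 (by omega)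
      exact ⟨0, zero_mem _, _, ha, 0, zero_mem _, by rw [he]; simp⟩
    · obtain ⟨ha, he⟩ := key 0 h0
      exact ⟨_, ha, 0, zero_mem _, 0, zero_mem _, by rw [he]; simp⟩
  · exact ⟨0, zero_mem _, 0, zero_mem _, 0, zero_mem _, by simp⟩
  · rintro u v ⟨a, ha, b, hb, c, hc, rfl⟩ ⟨a', ha', b', hb', c', hc', rfl⟩
    exact ⟨a + a', add_mem ha ha', b + b', add_mem hb hb', c + c', add_mem hc hc', by
      rw [mul_add, mul_add]; abel⟩
  · rintro z u ⟨a, ha, b, hb, c, hc, rfl⟩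
    exact ⟨z • a, Submodule.smul_mem _ _ ha, z • b, Submodule.smul_mem _ _ hb, z • c,
      Submodule.smul_mem _ _ hc, by simp [smul_add, mul_smul_comm]⟩

/-- Left multiplication of a pair. -/
def lpair (u : Op) : Op × Op →ₗ[ℂ] Op × Op :=
  (LinearMap.mulLeft ℂ u).prodMap (LinearMap.mulLeft ℂ u)

theorem lpair_apply (u : Op) (s : Op × Op) : lpair u s = (u * s.1, u * s.2) := rfl

theorem latX_of {w n : ℤ} {a b f : Op} (ha : a ∈ fil w n) (hb : b ∈ fil w n)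
    (hf : f ∈ fil (w - 1) (n + 1)) : (a, b) + rpair (x 0) (x 1) f ∈ latX w n :=
  Submodule.add_mem_sup ⟨ha, hb⟩ (Submodule.mem_map_of_mem hf)

theorem latD_of {w n : ℤ} {a b f : Op} (ha : a ∈ fil w n) (hb : b ∈ fil w n)
    (hf : f ∈ fil (w + 1) n) : (a, b) + rpair (d 0) (d 1) f ∈ latD w n :=
  Submodule.add_mem_sup ⟨ha, hb⟩ (Submodule.mem_map_of_mem hf)

theorem latX_splitD {w n : ℤ} (hn : 0 ≤ n) {s : Op × Op} (hs : s ∈ latX w (n + 1)) :
    ∃ a ∈ latX (w + 1) n, ∃ b ∈ latX (w + 1) n, ∃ c ∈ latX w n,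
      s = lpair (d 0) a + lpair (d 1) b + c := by
  obtain ⟨g, ⟨h1, h2⟩, _, ⟨f, hf, rfl⟩, rfl⟩ := Submodule.mem_sup.1 hs
  obtain ⟨a, ha, b, hb, c, hc, e1⟩ := fil_splitD hn h1
  obtain ⟨a', ha', b', hb', c', hc', e2⟩ := fil_splitD hn h2
  obtain ⟨f0, hf0, f1, hf1, f', hf', e3⟩ := fil_splitD (w := w - 1) (by omega : (0 : ℤ) ≤ n + 1) hf
  rw [show w - 1 + 1 = w + 1 - 1 by ring] at hf0 hf1
  refine ⟨_, latX_of ha ha' hf0, _, latX_of hb hb' hf1, _, latX_of hc hc' hf', ?_⟩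
  ext1 <;> simp [lpair_apply, rpair_apply, e1, e2, e3, mul_add, add_mul, mul_assoc] <;> abel

theorem latD_splitD {w n : ℤ} (hn : 0 ≤ n) {s : Op × Op} (hs : s ∈ latD w (n + 1)) :
    ∃ a ∈ latD (w + 1) n, ∃ b ∈ latD (w + 1) n, ∃ c ∈ latD w n,
      s = lpair (d 0) a + lpair (d 1) b + c := by
  obtain ⟨g, ⟨h1, h2⟩, _, ⟨f, hf, rfl⟩, rfl⟩ := Submodule.mem_sup.1 hs
  obtain ⟨a, ha, b, hb, c, hc, e1⟩ := fil_splitD hn h1
  obtain ⟨a', ha', b', hb', c', hc', e2⟩ := fil_splitD hn h2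
  obtain ⟨f0, hf0, f1, hf1, f', hf', e3⟩ := fil_splitD hn hf
  refine ⟨_, latD_of ha ha' hf0, _, latD_of hb hb' hf1, _, latD_of hc hc' hf', ?_⟩
  ext1 <;> simp [lpair_apply, rpair_apply, e1, e2, e3, mul_add, add_mul, mul_assoc] <;> abel

theorem latX_splitX {w n : ℤ} (hw : 1 ≤ w + n) {s : Op × Op} (hs : s ∈ latX w n) :
    ∃ a ∈ latX (w - 1) n, ∃ b ∈ latX (w - 1) n, ∃ c ∈ latX w (n - 1),
      s = lpair (x 0) a + lpair (x 1) b + c := by
  obtain ⟨g, ⟨h1, h2⟩, _, ⟨f, hf, rfl⟩, rfl⟩ := Submodule.mem_sup.1 hs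
  obtain ⟨a, ha, b, hb, c, hc, e1⟩ := fil_splitX hw h1
  obtain ⟨a', ha', b', hb', c', hc', e2⟩ := fil_splitX hw h2
  obtain ⟨f0, hf0, f1, hf1, f', hf', e3⟩ := fil_splitX (by omega : 1 ≤ w - 1 + (n + 1)) hf
  rw [show n + 1 - 1 = n - 1 + 1 by ring] at hf'
  refine ⟨_, latX_of ha ha' hf0, _, latX_of hb hb' hf1, _, latX_of hc hc' hf', ?_⟩
  ext1 <;> simp [lpair_apply, rpair_apply, e1, e2, e3, mul_add, add_mul, mul_assoc] <;> abel

theorem latD_splitX {w n : ℤ} (hw : 1 ≤ w + n) {s : Op × Op} (hs : s ∈ latD w n) :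
    ∃ a ∈ latD (w - 1) n, ∃ b ∈ latD (w - 1) n, ∃ c ∈ latD w (n - 1),
      s = lpair (x 0) a + lpair (x 1) b + c := by
  obtain ⟨g, ⟨h1, h2⟩, _, ⟨f, hf, rfl⟩, rfl⟩ := Submodule.mem_sup.1 hs
  obtain ⟨a, ha, b, hb, c, hc, e1⟩ := fil_splitX hw h1
  obtain ⟨a', ha', b', hb', c', hc', e2⟩ := fil_splitX hw h2
  obtain ⟨f0, hf0, f1, hf1, f', hf', e3⟩ := fil_splitX (by omega : 1 ≤ w + 1 + n) hf
  rw [show w + 1 - 1 = w - 1 + 1 by ring] at hf0 hf1
  refine ⟨_, latD_of ha ha' hf0, _, latD_of hb hb' hf1, _, latD_of hc hc' hf', ?_⟩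
  ext1 <;> simp [lpair_apply, rpair_apply, e1, e2, e3, mul_add, add_mul, mul_assoc] <;> abel

end Vale.Agent.P195.Exact
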