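import Vale.Agent.P195.Exact.Square
import Vale.Agent.P195.Exact.Split

/-!
P195: the four places of the resolution of the forms of degree `j` on coefficient families, their
filtrations and differentials as linear maps, and the splitting of their top levels.
-/

noncomputable section

namespace Vale.Agent.P195.Exact

open Vale.Agent.P195.Weyl

/-- Coefficient families of operators. -/
abbrev Fam : Type := Exp → Op

/-- Families at the first place. -/
abbrev PH : Type := Fin 2 → Fin 2 → Fam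

/-- Families at the second place: slots `3, 4` and slots `1, 2`. -/
abbrev PQ : Type := (Fin 2 → Fam) × (Fin 2 → Fam)

/-- Left multiplication of every coefficient. -/
def lmF (u : Op) : Fam →ₗ[ℂ] Fam := mapc (LinearMap.mulLeft ℂ u)

/-- Left multiplication at the first place. -/
def lmH (u : Op) : PH →ₗ[ℂ] PH :=
  LinearMap.compLeft (LinearMap.compLeft (lmF u) (Fin 2)) (Fin 2)

/-- Left multiplication at the second place. -/
def lmQ (u : Op) : PQ →ₗ[ℂ] PQ :=
  (LinearMap.compLeft (lmF u) (Fin 2)).prodMap (LinearMap.compLeft (lmF u) (Fin 2))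

theorem lmF_apply (u : Op) (U : Fam) (p : Exp) : lmF u U p = u * U p := rfl

theorem lmH_apply (u : Op) (H : PH) (i k : Fin 2) : lmH u H i k = lmF u (H i k) := rfl

theorem lmQ_fst (u : Op) (z : PQ) (l : Fin 2) : (lmQ u z).1 l = lmF u (z.1 l) := rfl

theorem lmQ_snd (u : Op) (z : PQ) (l : Fin 2) : (lmQ u z).2 l = lmF u (z.2 l) := rfl

/-- Right multiplication of every coefficient, as a linear map. -/
def rmL (a : Op) : Fam →ₗ[ℂ] Fam := mapc (LinearMap.mulRight ℂ a)

theorem rmL_apply (a : Op) (U : Fam) : rmL a U = rm a U := rfl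

theorem lmF_rmL (u a : Op) (U : Fam) : lmF u (rmL a U) = rmL a (lmF u U) :=
  funext fun _ => (mul_assoc _ _ _).symm

theorem lmF_rm (u a : Op) (U : Fam) : lmF u (rm a U) = rm a (lmF u U) := lmF_rmL u a U

theorem lmF_dd (u : Op) (a : Fin 2) (U : Fam) : lmF u (dd a U) = dd a (lmF u U) := mapc_dd _ a U

theorem lmF_xx (u : Op) (a : Fin 2) (U : Fam) : lmF u (xx a U) = xx a (lmF u U) := mapc_xx _ a U

theorem cX_add (s s' : Fin 2 → Fam) : cX (s + s') = cX s + cX s' := by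
  simp [cX, om_add]; abel

theorem cX_smul (z : ℂ) (s : Fin 2 → Fam) : cX (z • s) = z • cX s := by
  simp [cX, om_smul, smul_sub]

theorem cD_add (s s' : Fin 2 → Fam) : cD (s + s') = cD s + cD s' := by
  simp [cD, om_add]; abel

theorem cD_smul (z : ℂ) (s : Fin 2 → Fam) : cD (z • s) = z • cD s := by
  simp [cD, om_smul, smul_sub]

theorem lmF_cX (u : Op) (s : Fin 2 → Fam) :
    lmF u (cX s) = cX (fun l => lmF u (s l)) := by
  simp [cX, map_sub, lmF_rm]

theorem lmF_cD (u : Op) (s : Fin 2 → Fam) :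
    lmF u (cD s) = cD (fun l => lmF u (s l)) := by
  simp [cD, map_sub, lmF_rm]

/-- The first differential. -/
def δ₁ : PH →ₗ[ℂ] Fam where
  toFun H := D₁ H
  map_add' H H' := by
    simp only [D₁, Pi.add_apply, om_add, map_add, Fin.sum_univ_two]
    abel
  map_smul' z H := by
    simp [D₁, Fin.sum_univ_two, om_smul, map_smul, smul_add, smul_sub]

variable (j : ℕ)

/-- The second differential. -/
def δ₂ : PQ →ₗ[ℂ] PH where
  toFun z := fun i k => D₂X j z.1 i k + D₂D j z.2 i k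
  map_add' z z' := funext fun i => funext fun k => by
    simp only [D₂X, D₂D, Prod.fst_add, Prod.snd_add, cX_add, cD_add, Pi.add_apply, map_add, om_add,
      Finset.sum_add_distrib, smul_add]
    split_ifs <;> abel
  map_smul' c z := funext fun i => funext fun k => by
    simp only [D₂X, D₂D, Prod.smul_fst, Prod.smul_snd, cX_smul, cD_smul, Pi.smul_apply, map_smul,
      om_smul, ← Finset.smul_sum, RingHom.id_apply, smul_add, smul_sub]
    split_ifs <;> simp [smul_comm c]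

/-- The third differential. -/
def δ₃ : Fam →ₗ[ℂ] PQ where
  toFun G := (D₃X j G, D₃D j G)
  map_add' G G' := by
    refine Prod.ext (funext fun l => ?_) (funext fun l => ?_) <;>
      simp [D₃X, D₃D, Fin.sum_univ_two, map_add, om_add] <;> abel
  map_smul' c G := by
    refine Prod.ext (funext fun l => ?_) (funext fun l => ?_) <;>
      simp [D₃X, D₃D, Fin.sum_univ_two, map_smul, om_smul, smul_add, smul_sub, smul_comm c]

theorem δ₁_apply (H : PH) : δ₁ H = D₁ H := rfl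

theorem δ₂_apply (z : PQ) (i k : Fin 2) : δ₂ j z i k = D₂X j z.1 i k + D₂D j z.2 i k := rfl

theorem δ₃_apply (G : Fam) : δ₃ j G = (D₃X j G, D₃D j G) := rfl

theorem δ₁_lm (u : Op) (H : PH) : δ₁ (lmH u H) = lmF u (δ₁ H) := by
  simp [δ₁_apply, D₁, map_sum, map_sub, lmH_apply, lmF_rm, lmF_dd, lmF_xx]

theorem δ₂_lm (u : Op) (z : PQ) : δ₂ j (lmQ u z) = lmH u (δ₂ j z) := by
  funext i k
  simp only [δ₂_apply, D₂X, D₂D, lmQ_fst, lmQ_snd, lmH_apply, map_add, map_sub, map_smul, lmF_rm,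
    lmF_dd, lmF_xx, lmF_cX, lmF_cD]
  congr 1 <;> congr 1 <;>
    first | rfl | (split_ifs <;> simp [lmF_dd, lmF_xx])

theorem δ₃_lm (u : Op) (G : Fam) : δ₃ j (lmF u G) = lmQ u (δ₃ j G) := by
  refine Prod.ext (funext fun l => ?_) (funext fun l => ?_) <;>
    simp [δ₃_apply, D₃X, D₃D, lmQ_fst, lmQ_snd, map_sum, lmF_rm, lmF_dd, lmF_xx, map_add, map_sub]

/-- The rows of weight `w` and level `n` at the bottom place. -/
def C₀ (w n : ℤ) : Submodule ℂ Fam := forms Op j ⊓ valued (fil w (n + 2))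

/-- The rows at the first place. -/
def C₁ (w n : ℤ) : Submodule ℂ PH :=
  Submodule.pi Set.univ fun _ => Submodule.pi Set.univ fun _ =>
    forms Op j ⊓ valued (fil w (n + 1))

/-- The rows at the second place. -/
def C₂ (w n : ℤ) : Submodule ℂ PQ where
  carrier := {z | MemQ j w n z.1 z.2}
  zero_mem' := ⟨fun _ => Submodule.zero_mem _, fun _ => Submodule.zero_mem _,
    fun _ => Submodule.zero_mem (latX w n), fun _ => Submodule.zero_mem (latD w n)⟩
  add_mem' {a b} h h' := ⟨fun l => Submodule.add_mem _ (h.degX l) (h'.degX l),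
    fun l => Submodule.add_mem _ (h.degD l) (h'.degD l),
    fun p => show (a.1 0 p, a.1 1 p) + (b.1 0 p, b.1 1 p) ∈ latX w n from
      Submodule.add_mem _ (h.levX p) (h'.levX p),
    fun p => show (a.2 0 p, a.2 1 p) + (b.2 0 p, b.2 1 p) ∈ latD w n from
      Submodule.add_mem _ (h.levD p) (h'.levD p)⟩
  smul_mem' c z h := ⟨fun l => Submodule.smul_mem _ c (h.degX l),
    fun l => Submodule.smul_mem _ c (h.degD l),
    fun p => show c • (z.1 0 p, z.1 1 p) ∈ latX w n from Submodule.smul_mem _ c (h.levX p),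
    fun p => show c • (z.2 0 p, z.2 1 p) ∈ latD w n from Submodule.smul_mem _ c (h.levD p)⟩

/-- The rows at the last place. -/
def C₃ (w n : ℤ) : Submodule ℂ Fam := forms Op j ⊓ valued (fil w n)

variable {j}

theorem mem_C₁ {w n : ℤ} {H : PH} : H ∈ C₁ j w n ↔ MemH j w (n + 1) H := by
  refine ⟨fun h => ⟨fun i k => ?_, fun i k => ?_⟩, fun h i _ k _ => ⟨h.deg i k, h.lev i k⟩⟩
  · exact (h i trivial k trivial).1
  · exact (h i trivial k trivial).2

theorem mem_C₂ {w n : ℤ} {z : PQ} : z ∈ C₂ j w n ↔ MemQ j w n z.1 z.2 := Iff.rfl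

/-- Splitting a family coefficientwise. -/
theorem family_split {K : Type*} [AddCommGroup K] [Module ℂ K] (P : Exp → Prop)
    (S S' T : Submodule ℂ K) (L₀ L₁ : K →ₗ[ℂ] K)
    (h : ∀ u ∈ S, ∃ a ∈ S', ∃ b ∈ S', ∃ c ∈ T, u = L₀ a + L₁ b + c)
    (U : Exp → K) (hP : ∀ p, ¬P p → U p = 0) (hS : ∀ p, U p ∈ S) :
    ∃ a b c : Exp → K, (∀ p, ¬P p → a p = 0 ∧ b p = 0 ∧ c p = 0) ∧
      (∀ p, a p ∈ S' ∧ b p ∈ S' ∧ c p ∈ T) ∧ ∀ p, U p = L₀ (a p) + L₁ (b p) + c p := by
  classical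
  choose a ha b hb c hc e using fun p => h (U p) (hS p)
  refine ⟨fun p => if P p then a p else 0, fun p => if P p then b p else 0,
    fun p => if P p then c p else 0, fun p hp => by simp [hp], fun p => ?_, fun p => ?_⟩ <;>
    by_cases hp : P p <;> simp [hp, ha, hb, hc, ← e]
  exact hP p hp

/-- Splitting the rows at the last place. -/
theorem C₃_split {w n w' n' : ℤ} {w₀ n₀ : ℤ} (u₀ u₁ : Op)
    (h : ∀ u ∈ fil w n, ∃ a ∈ fil w' n', ∃ b ∈ fil w' n', ∃ c ∈ fil w₀ n₀,
      u = u₀ * a + u₁ * b + c) {G : Fam} (hG : G ∈ C₃ j w n) :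
    ∃ a ∈ C₃ j w' n', ∃ b ∈ C₃ j w' n', G - (lmF u₀ a + lmF u₁ b) ∈ C₃ j w₀ n₀ := by
  obtain ⟨a, b, c, hz, hm, he⟩ := family_split (fun p : Exp => p.degree = j) _ _ _
    (LinearMap.mulLeft ℂ u₀) (LinearMap.mulLeft ℂ u₁) h G hG.1 (mem_valued.1 hG.2)
  refine ⟨a, ⟨fun p hp => (hz p hp).1, mem_valued.2 fun p => (hm p).1⟩,
    b, ⟨fun p hp => (hz p hp).2.1, mem_valued.2 fun p => (hm p).2.1⟩, ?_⟩
  have e : G - (lmF u₀ a + lmF u₁ b) = c := funext fun p => by
    simp [he p, lmF_apply]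
  rw [e]
  exact ⟨fun p hp => (hz p hp).2.2, mem_valued.2 fun p => (hm p).2.2⟩

/-- A family of pairs as a pair of families. -/
def unzip (U : Exp → Op × Op) : Fin 2 → Fam := ![fun p => (U p).1, fun p => (U p).2]

/-- Splitting the rows at the second place. -/
theorem C₂_split {w n w' n' : ℤ} {w₀ n₀ : ℤ} (u₀ u₁ : Op)
    (hX : ∀ u ∈ latX w n, ∃ a ∈ latX w' n', ∃ b ∈ latX w' n', ∃ c ∈ latX w₀ n₀,
      u = lpair u₀ a + lpair u₁ b + c)
    (hD : ∀ u ∈ latD w n, ∃ a ∈ latD w' n', ∃ b ∈ latD w' n', ∃ c ∈ latD w₀ n₀,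
      u = lpair u₀ a + lpair u₁ b + c) {z : PQ} (hz : z ∈ C₂ j w n) :
    ∃ a ∈ C₂ j w' n', ∃ b ∈ C₂ j w' n', z - (lmQ u₀ a + lmQ u₁ b) ∈ C₂ j w₀ n₀ := by
  obtain ⟨aX, bX, cX', zX, mX, eX⟩ := family_split (fun p : Exp => p.degree = j + 1) _ _ _
    (lpair u₀) (lpair u₁) hX (fun p => (z.1 0 p, z.1 1 p))
    (fun p hp => Prod.ext (hz.degX 0 p hp) (hz.degX 1 p hp)) hz.levX
  obtain ⟨aD, bD, cD', zD, mD, eD⟩ := family_split (fun p : Exp => p.degree + 1 = j) _ _ _
    (lpair u₀) (lpair u₁) hD (fun p => (z.2 0 p, z.2 1 p))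
    (fun p hp => Prod.ext (down_iff.1 (hz.degD 0) p hp) (down_iff.1 (hz.degD 1) p hp)) hz.levD
  refine ⟨(unzip aX, unzip aD), ⟨fun l p hp => ?_, fun l => down_iff.2 fun p hp => ?_,
      fun p => (mX p).1, fun p => (mD p).1⟩,
    (unzip bX, unzip bD), ⟨fun l p hp => ?_, fun l => down_iff.2 fun p hp => ?_,
      fun p => (mX p).2.1, fun p => (mD p).2.1⟩, ?_⟩
  · fin_cases l <;> simp [unzip, (zX p hp).1]
  · fin_cases l <;> simp [unzip, (zD p hp).1]
  · fin_cases l <;> simp [unzip, (zX p hp).2.1]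
  · fin_cases l <;> simp [unzip, (zD p hp).2.1]
  have eX' : ∀ l p, (z - (lmQ u₀ (unzip aX, unzip aD) + lmQ u₁ (unzip bX, unzip bD))).1 l p =
      unzip cX' l p := fun l p => by
    have := eX p
    simp only [lpair_apply, Prod.ext_iff, Prod.fst_add, Prod.snd_add] at this
    fin_cases l <;> simp [unzip, lmQ_fst, lmF_apply, this.1, this.2]
  have eD' : ∀ l p, (z - (lmQ u₀ (unzip aX, unzip aD) + lmQ u₁ (unzip bX, unzip bD))).2 l p =
      unzip cD' l p := fun l p => by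
    have := eD p
    simp only [lpair_apply, Prod.ext_iff, Prod.fst_add, Prod.snd_add] at this
    fin_cases l <;> simp [unzip, lmQ_snd, lmF_apply, this.1, this.2]
  refine ⟨fun l p hp => ?_, fun l => down_iff.2 fun p hp => ?_, fun p => ?_, fun p => ?_⟩
  · rw [eX']; fin_cases l <;> simp [unzip, (zX p hp).2.2]
  · rw [eD']; fin_cases l <;> simp [unzip, (zD p hp).2.2]
  · rw [eX' 0 p, eX' 1 p]; exact (mX p).2.2
  · rw [eD' 0 p, eD' 1 p]; exact (mD p).2.2

end Vale.Agent.P195.Exact
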