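import Vale.Agent.P195.Exact.Core

/-!
P195: one step of the order induction at each place of the resolution.
-/

noncomputable section

namespace Vale.Agent.P195.Exact

open MvPolynomial
open Vale.Agent.P195.Weyl
open Vale.Agent.P195.Orbit

variable {K : Type*} [AddCommGroup K] [Module ℂ K]

theorem valued_forms_of {S : Submodule ℂ K} {j : ℕ} (f : Exp → K) (hf : ∀ p, f p ∈ S) :
    (fun p => if p.degree = j then f p else 0) ∈ forms K j ⊓ valued S :=
  ⟨fun p hp => if_neg hp, mem_valued.2 fun p => by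
    show (if p.degree = j then f p else 0) ∈ S
    split_ifs
    · exact hf p
    · exact zero_mem _⟩

theorem down_xx {j : ℕ} {t : Exp → K} (ht : t ∈ down K j) (a : Fin 2) :
    xx a t ∈ forms K j := by
  rcases j with _ | i
  · rw [down_zero, Submodule.mem_bot] at ht
    rw [ht, map_zero]; exact zero_mem _
  · rw [down_succ] at ht; exact xx_mem a ht

theorem pairUp_valued {S : Submodule ℂ K} {q t : Exp → K} (hq : q ∈ valued S) (ht : t ∈ valued S)
    (a : Fin 2) : pairUp q t a ∈ valued S := by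
  fin_cases a
  · exact add_mem (valued_dd 0 hq) (valued_xx 1 ht)
  · exact sub_mem (valued_dd 1 hq) (valued_xx 0 ht)

theorem pairUp_sub (q q' t t' : Exp → K) (a : Fin 2) :
    pairUp (q - q') (t - t') a = pairUp q t a - pairUp q' t' a := by
  fin_cases a <;> simp [pairUp, map_sub] <;> abel

theorem pairUp_eq_zero {j : ℕ} {q t : Exp → K} (hq : q ∈ forms K (j + 1)) (ht : t ∈ down K j)
    (h : ∀ a, pairUp q t a = 0) : q = 0 ∧ t = 0 := by
  constructor
  · have := xx_pairUp hq t
    rw [h, h, map_zero, map_zero, add_zero] at this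
    exact (smul_eq_zero.1 this.symm).resolve_left (by exact_mod_cast Nat.succ_ne_zero j)
  · rcases j with _ | i
    · rwa [down_zero, Submodule.mem_bot] at ht
    · rw [down_succ] at ht
      have := dd_pairUp q ht
      rw [h, h, map_zero, map_zero, sub_zero] at this
      exact (smul_eq_zero.1 this.symm).resolve_left
        (by exact_mod_cast (show i + 2 ≠ 0 by omega))

theorem exists_pair_in (j : ℕ) {S : Submodule ℂ K} {u : Fin 2 → Exp → K}
    (hu : ∀ a, u a ∈ forms K j) (hS : ∀ a, u a ∈ valued S) :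
    ∃ q t, q ∈ forms K (j + 1) ∧ q ∈ valued S ∧ t ∈ down K j ∧ t ∈ valued S ∧
      ∀ a, pairUp q t a = u a := by
  rcases j with _ | i
  · refine ⟨xx 0 (u 0) + xx 1 (u 1), 0, add_mem (xx_mem 0 (hu 0)) (xx_mem 1 (hu 1)),
      add_mem (valued_xx 0 (hS 0)) (valued_xx 1 (hS 1)), zero_mem _, zero_mem _, fun a => ?_⟩
    have z : ∀ a b, dd b (u a) = 0 := fun a b => funext fun p => by
      rw [dd_apply, hu a _ (by simp [map_add, Finsupp.degree_single]), smul_zero]; rfl
    fin_cases a <;>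
      simp [pairUp, map_add, dd_xx_self, dd_xx_ne (show (0 : Fin 2) ≠ 1 by decide),
        dd_xx_ne (show (1 : Fin 2) ≠ 0 by decide), z]
  · have hc : ((i : ℂ) + 2) ≠ 0 := by exact_mod_cast (show i + 2 ≠ 0 by omega)
    refine ⟨((i : ℂ) + 2)⁻¹ • (xx 0 (u 0) + xx 1 (u 1)),
      ((i : ℂ) + 2)⁻¹ • (dd 1 (u 0) - dd 0 (u 1)),
      Submodule.smul_mem _ _ (add_mem (xx_mem 0 (hu 0)) (xx_mem 1 (hu 1))),
      Submodule.smul_mem _ _ (add_mem (valued_xx 0 (hS 0)) (valued_xx 1 (hS 1))), ?_,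
      Submodule.smul_mem _ _ (sub_mem (valued_dd 1 (hS 0)) (valued_dd 0 (hS 1))), ?_⟩
    · rw [down_succ]
      exact Submodule.smul_mem _ _ (sub_mem (dd_mem 1 (hu 0)) (dd_mem 0 (hu 1)))
    · have e0 := euler_forms (hu 0)
      have e1 := euler_forms (hu 1)
      push_cast at e0 e1
      intro a
      apply smul_right_injective (Exp → K) hc
      fin_cases a
      · simp [pairUp, map_add, map_sub, smul_smul, mul_inv_cancel₀ hc, smul_add, smul_sub,
          dd_xx_self, dd_xx_ne (show (0 : Fin 2) ≠ 1 by decide)]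
        linear_combination (norm := module) e0
      · simp [pairUp, map_add, map_sub, smul_smul, mul_inv_cancel₀ hc, smul_add, smul_sub,
          dd_xx_self, dd_xx_ne (show (1 : Fin 2) ≠ 0 by decide)]
        linear_combination (norm := module) e1

/-- A spinor along the variables with prescribed symbols. -/
theorem exists_spinX {w : ℤ} {n : ℕ} (ha : 0 ≤ w + n) {J : ℕ} {Φ C : Exp → Sym}
    (hΦf : Φ ∈ forms Sym J) (hΦ : Φ ∈ valued (Binary.R (w + n) ((n : ℤ) + 1)))
    (hCf : C ∈ forms Sym J) (hC : C ∈ valued (Binary.R (w + n + 1) (n : ℤ))) :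
    ∃ s, MemX w n s ∧ (∀ l, s l ∈ forms Op J) ∧
      (∀ l, sy₀ (n + 1) (s l) = rm (X (.inl l)) Φ) ∧ sy₀ n (cX s) = C := by
  have key : ∀ p, ∃ z : Op × Op, z ∈ latX w n ∧ symb (n + 1) z.1 = Φ p * X (.inl 0) ∧
      symb (n + 1) z.2 = Φ p * X (.inl 1) ∧ symb n (conX z) = C p := fun p => by
    obtain ⟨f, hf, hfs⟩ := exists_symb (w := w - 1) (n := n + 1) (f := Φ p) (by
      rw [show w - 1 + ((n + 1 : ℕ) : ℤ) = w + n by push_cast; ring]
      simpa using mem_valued.1 hΦ p)
    obtain ⟨u, v, hu, hv, huv⟩ :=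
      Binary.split_x (show 1 ≤ w + n + 1 by omega) (mem_valued.1 hC p)
    rw [add_sub_cancel_right] at hu hv
    obtain ⟨g0, hg0, hg0s⟩ := exists_symb hv
    obtain ⟨g1, hg1, hg1s⟩ := exists_symb hu
    refine ⟨(g0, -g1) + rpair (x 0) (x 1) f,
      Submodule.mem_sup.2 ⟨_, ⟨hg0, neg_mem hg1⟩, _, ⟨f, by simpa using hf, rfl⟩, rfl⟩, ?_, ?_, ?_⟩
    · simp [rpair_apply, symb_eq_zero_of_lt hg0 (show (n : ℤ) < ((n + 1 : ℕ) : ℤ) by omega),
        symb_mul_x hf, hfs]
    · simp [rpair_apply, symb_eq_zero_of_lt hg1 (show (n : ℤ) < ((n + 1 : ℕ) : ℤ) by omega),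
        symb_mul_x hf, hfs]
    · rw [map_add conX, conX_rpair, add_zero, conX_apply, map_sub, symb_mul_x hg0,
        symb_mul_x (neg_mem hg1), map_neg, hg0s, hg1s, huv]
      ring
  choose z hz h0 h1 hc using key
  refine ⟨![fun p => if p.degree = J then (z p).1 else 0,
    fun p => if p.degree = J then (z p).2 else 0], fun p => ?_, fun l => ?_, fun l => ?_, ?_⟩
  · by_cases hp : p.degree = J
    · simpa [hp] using hz p
    · have : ((0 : Op), (0 : Op)) ∈ latX w n := zero_mem _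
      simpa [hp] using this
  · fin_cases l <;> exact fun p hp => by simp [hp]
  · funext p
    by_cases hp : p.degree = J
    · fin_cases l <;> simp [sy₀_apply, rm_apply, hp, h0, h1]
    · fin_cases l <;> simp [sy₀_apply, rm_apply, hp, hΦf p hp]
  · funext p
    by_cases hp : p.degree = J
    · simpa [sy₀_apply, cX_apply, hp] using hc p
    · simp [sy₀_apply, cX_apply, hp, hCf p hp, conX_apply]

/-- A spinor along the derivatives with prescribed symbols. -/
theorem exists_spinD {w : ℤ} {n : ℕ} {S : Submodule ℂ (Exp → Op)} {T : Submodule ℂ (Exp → Sym)}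
    {P : Exp → Prop} [DecidablePred P]
    (hS : ∀ U : Exp → Op, (∀ p, ¬P p → U p = 0) → U ∈ S)
    (hT : ∀ U ∈ T, ∀ p, ¬P p → U p = 0) {Ψ Γ : Exp → Sym}
    (hΨf : Ψ ∈ T) (hΨ : Ψ ∈ valued (Binary.R (w + n + 1) (n : ℤ)))
    (hΓf : Γ ∈ T) (hΓ : Γ ∈ valued (Binary.R (w + n) ((n : ℤ) + 1))) :
    ∃ r, MemD w n r ∧ (∀ l, r l ∈ S) ∧
      (∀ l, sy₀ (n + 1) (r l) = rm (X (.inr l)) Ψ) ∧ sy₀ (n + 1) (cD r) = Γ := by
  have key : ∀ p, ∃ z : Op × Op, z ∈ latD w n ∧ symb (n + 1) z.1 = Ψ p * X (.inr 0) ∧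
      symb (n + 1) z.2 = Ψ p * X (.inr 1) ∧ symb (n + 1) (conD z) = Γ p := fun p => by
    obtain ⟨f, hf, hfs⟩ := exists_symb (w := w + 1) (n := n) (f := Ψ p) (by
      rw [show w + 1 + (n : ℤ) = w + n + 1 by ring]
      exact mem_valued.1 hΨ p)
    obtain ⟨u, v, hu, hv, huv⟩ :=
      Binary.split_y (show 1 ≤ (n : ℤ) + 1 by omega) (mem_valued.1 hΓ p)
    rw [add_sub_cancel_right] at hu hv
    obtain ⟨g0, hg0, hg0s⟩ := exists_symb hv
    obtain ⟨g1, hg1, hg1s⟩ := exists_symb hu
    refine ⟨(g0, -g1) + rpair (d 0) (d 1) f,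
      Submodule.mem_sup.2 ⟨_, ⟨hg0, neg_mem hg1⟩, _, ⟨f, hf, rfl⟩, rfl⟩, ?_, ?_, ?_⟩
    · simp [rpair_apply, symb_eq_zero_of_lt hg0 (show (n : ℤ) < ((n + 1 : ℕ) : ℤ) by omega),
        symb_mul_d hf, hfs]
    · simp [rpair_apply, symb_eq_zero_of_lt hg1 (show (n : ℤ) < ((n + 1 : ℕ) : ℤ) by omega),
        symb_mul_d hf, hfs]
    · rw [map_add conD, conD_rpair, add_zero, conD_apply, map_sub, symb_mul_d hg0,
        symb_mul_d (neg_mem hg1), map_neg, hg0s, hg1s, huv]
      ring
  choose z hz h0 h1 hc using key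
  refine ⟨![fun p => if P p then (z p).1 else 0, fun p => if P p then (z p).2 else 0],
    fun p => ?_, fun l => hS _ fun p hp => ?_, fun l => ?_, ?_⟩
  · by_cases hp : P p
    · simpa [hp] using hz p
    · have : ((0 : Op), (0 : Op)) ∈ latD w n := zero_mem _
      simpa [hp] using this
  · fin_cases l <;> simp [hp]
  · funext p
    by_cases hp : P p
    · fin_cases l <;> simp [sy₀_apply, rm_apply, hp, h0, h1]
    · fin_cases l <;> simp [sy₀_apply, rm_apply, hp, hT _ hΨf p hp]
  · funext p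
    by_cases hp : P p
    · simpa [sy₀_apply, cD_apply, hp] using hc p
    · simp [sy₀_apply, cD_apply, hp, hT _ hΓf p hp, conD_apply]

theorem down_iff {j : ℕ} {U : Exp → K} :
    U ∈ down K j ↔ ∀ p : Exp, ¬p.degree + 1 = j → U p = 0 := by
  rcases j with _ | i
  · rw [down_zero, Submodule.mem_bot]
    exact ⟨fun h p _ => by rw [h]; rfl, fun h => funext fun p => h p (by omega)⟩
  · rw [down_succ]
    exact ⟨fun h p hp => h p (by omega), fun h p hp => h p (by omega)⟩

/-- The rows of the middle places. -/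
structure MemH (j : ℕ) (w n : ℤ) (H : Fin 2 → Fin 2 → Exp → Op) : Prop where
  deg : ∀ i k, H i k ∈ forms Op j
  lev : ∀ i k, H i k ∈ valued (fil w n)

/-- A pair of spinor families of the second stage. -/
structure MemQ (j : ℕ) (w n : ℤ) (s r : Fin 2 → Exp → Op) : Prop where
  degX : ∀ l, s l ∈ forms Op (j + 1)
  degD : ∀ l, r l ∈ down Op j
  levX : MemX w n s
  levD : MemD w n r

theorem MemQ.levelD₂ {j : ℕ} {w : ℤ} {n : ℤ} {s r : Fin 2 → Exp → Op} (h : MemQ j w n s r) :
    MemH j w (n + 1) (fun i k => D₂X j s i k + D₂D j r i k) := by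
  have es : ∀ a l, dd a (s l) ∈ forms Op j := fun a l => dd_mem a (h.degX l)
  have er : ∀ a l, xx a (r l) ∈ forms Op j := fun a l => down_xx (h.degD l) a
  have cs : ∀ a, rm (x a) (s 0) ∈ forms Op (j + 1) ∧ rm (x a) (s 1) ∈ forms Op (j + 1) :=
    fun a => ⟨fun p hp => by rw [rm_apply, h.degX 0 p hp, zero_mul],
      fun p hp => by rw [rm_apply, h.degX 1 p hp, zero_mul]⟩
  have cr : cD r ∈ down Op j := down_iff.2 fun p hp => by
    rw [cD_apply, down_iff.1 (h.degD 0) p hp, down_iff.1 (h.degD 1) p hp, conD_apply]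
    simp
  refine ⟨fun i k => ?_, fun i k => ?_⟩
  · refine add_mem (add_mem (sub_mem ?_ (Submodule.smul_mem _ _ (es i k))) ?_)
      (add_mem (sub_mem ?_ (Submodule.smul_mem _ _ (er k i))) ?_)
    · intro p hp
      have hcs : cX s ∈ forms Op (j + 1) := sub_mem (cs 1).1 (cs 0).2
      rw [rm_apply, dd_mem i hcs p hp, zero_mul]
    · split_ifs
      · exact Submodule.smul_mem _ _ (Submodule.sum_mem _ fun l _ => es l l)
      · exact zero_mem _
    · intro p hp
      rw [rm_apply, down_xx cr k p hp, zero_mul]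
    · split_ifs
      · exact Submodule.smul_mem _ _ (Submodule.sum_mem _ fun l _ => er l l)
      · exact zero_mem _
  · have hk : dRot k ∈ fil (-1) 1 := by
      fin_cases k
      · exact d_mem 1 le_rfl
      · exact neg_mem (d_mem 0 le_rfl)
    have hi : xRot i ∈ fil 1 0 := by
      fin_cases i
      · exact x_mem 1 le_rfl
      · exact neg_mem (x_mem 0 le_rfl)
    refine add_mem (add_mem (sub_mem ?_ (Submodule.smul_mem _ _ (valued_dd i (h.levX.entry k)))) ?_)
      (add_mem (sub_mem ?_ (Submodule.smul_mem _ _ (valued_xx k (h.levD.entry i)))) ?_)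
    · refine mem_valued.2 fun p => ?_
      have := Weyl.mul_mem (mem_valued.1 (valued_dd i h.levX.con) p) hk
      rw [← sub_eq_add_neg, add_sub_cancel_right] at this
      exact this
    · split_ifs
      · exact Submodule.smul_mem _ _
          (Submodule.sum_mem _ fun l _ => valued_dd l (h.levX.entry l))
      · exact zero_mem _
    · refine mem_valued.2 fun p => ?_
      have := Weyl.mul_mem (mem_valued.1 (valued_xx k h.levD.con) p) hi
      rw [sub_add_cancel, add_zero] at this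
      exact this
    · split_ifs
      · exact Submodule.smul_mem _ _
          (Submodule.sum_mem _ fun l _ => valued_xx l (h.levD.entry l))
      · exact zero_mem _

theorem sy_eq (v : Sym) (l : Fin 2) : Binary.sy v l = v * ky l := by
  fin_cases l <;> simp [Binary.sy, ky] <;> ring

theorem sx_eq (v : Sym) (i : Fin 2) : Binary.sx v i = v * kx i := by
  fin_cases i <;> simp [Binary.sx, kx] <;> ring

/-- Lowering at the first place: everything of positive bidegree is hit. -/
theorem lower₀ {j : ℕ} {w : ℤ} {n : ℕ} (ha : 1 ≤ w + n + 1) {F : Exp → Op}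
    (hFf : F ∈ forms Op j) (hF : F ∈ valued (fil w ((n + 1 : ℕ) : ℤ))) :
    ∃ H, MemH j w n H ∧ F - D₁ H ∈ valued (fil w n) := by
  have key : ∀ p, ∃ h : Fin 2 → Fin 2 → Op, (∀ i k, h i k ∈ fil w n) ∧
      ∑ i, ∑ k, symb n (h i k) * (X (.inl i) * X (.inr k)) = symb (n + 1) (F p) := fun p => by
    have hb : (1 : ℤ) ≤ ((n + 1 : ℕ) : ℤ) := by omega
    obtain ⟨m, hm, hme⟩ := Binary.top_onto (show 1 ≤ w + ((n + 1 : ℕ) : ℤ) by push_cast; omega) hb
      (symb_R (n := n + 1) (mem_valued.1 hF p))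
    have hm' : ∀ i k, m i k ∈ Binary.R (w + n) (n : ℤ) := fun i k => by
      have := hm i k
      rwa [show w + ((n + 1 : ℕ) : ℤ) - 1 = w + n by push_cast; ring,
        show ((n + 1 : ℕ) : ℤ) - 1 = n by push_cast; ring] at this
    choose h hh he using fun i k => exists_symb (hm' i k)
    refine ⟨h, hh, ?_⟩
    rw [← hme]
    simp [Binary.cx, Binary.cy, Fin.sum_univ_two, he]
    ring
  choose h hh he using key
  refine ⟨fun i k p => if p.degree = j then h p i k else 0,
    ⟨fun i k => (valued_forms_of _ fun p => hh p i k).1,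
      fun i k => (valued_forms_of _ fun p => hh p i k).2⟩, mem_valued.2 fun p => ?_⟩
  set H : Fin 2 → Fin 2 → Exp → Op := fun i k p => if p.degree = j then h p i k else 0 with hH
  have hv : ∀ i k, H i k ∈ valued (fil w n) := fun i k =>
    (valued_forms_of _ fun p => hh p i k).2
  have hterm : ∀ i k, xx i (dd k (H i k)) p ∈ fil w n := fun i k =>
    mem_valued.1 (valued_xx i (valued_dd k (hv i k))) p
  have hmul : ∀ i k, H i k p * (x i * d k) ∈ fil w ((n + 1 : ℕ) : ℤ) := fun i k => by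
    have := Weyl.mul_mem (mem_valued.1 (hv i k) p) (xd_mem i k)
    rw [add_zero] at this
    exact_mod_cast this
  have hsum : (∑ i, ∑ k, H i k p * (x i * d k)) ∈ fil w ((n + 1 : ℕ) : ℤ) :=
    Submodule.sum_mem _ fun i _ => Submodule.sum_mem _ fun k _ => hmul i k
  have hs : symb (n + 1) (F p - ∑ i, ∑ k, H i k p * (x i * d k)) = 0 := by
    rw [map_sub, sub_eq_zero, map_sum]
    simp only [map_sum]
    by_cases hp : p.degree = j
    · rw [← he p]
      refine Finset.sum_congr rfl fun i _ => Finset.sum_congr rfl fun k _ => ?_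
      rw [symb_mul (n' := 1) (mem_valued.1 (hv i k) p) (xd_mem i k), symb_xd, hH]
      simp [hp]
    · rw [hFf p hp, map_zero]
      simp [hH, hp]
  have hlow := (symb_eq_zero_iff (sub_mem (mem_valued.1 hF p) hsum)).1 hs
  rw [Pi.sub_apply, D₁]
  simp only [Finset.sum_apply, Pi.sub_apply, rm_apply, Finset.sum_sub_distrib]
  rw [sub_sub_eq_add_sub, add_sub_right_comm]
  refine add_mem (by simpa using hlow) (Submodule.sum_mem _ fun i _ =>
    Submodule.sum_mem _ fun k _ => hterm i k)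

theorem sy₀_D₁ {w : ℤ} {n : ℕ} {j : ℕ} {H : Fin 2 → Fin 2 → Exp → Op} (hH : MemH j w n H)
    (p : Exp) : symb (n + 1) (D₁ H p) =
      Binary.cx (fun i => Binary.cy (fun k => symb n (H i k p))) := by
  have hl : ∀ i k, symb (n + 1) (xx i (dd k (H i k)) p) = 0 := fun i k =>
    symb_eq_zero_of_lt (mem_valued.1 (valued_xx i (valued_dd k (hH.lev i k))) p)
      (by push_cast; omega)
  rw [D₁]
  simp only [Finset.sum_apply, Pi.sub_apply, rm_apply, map_sum, map_sub, hl, sub_zero]
  simp only [symb_mul (n' := 1) (mem_valued.1 (hH.lev _ _) p) (xd_mem _ _), symb_xd,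
    Fin.sum_univ_two, Binary.cx, Binary.cy]
  ring

/-- Lowering at the second place. -/
theorem lower₁ {j : ℕ} {w : ℤ} {n : ℕ} (ha : 0 ≤ w + n) {H : Fin 2 → Fin 2 → Exp → Op}
    (hH : MemH j w ((n + 1 : ℕ) : ℤ) H) (h : D₁ H ∈ valued (fil w ((n : ℤ) + 1))) :
    ∃ s r, MemQ j w n s r ∧ MemH j w n (fun i k => H i k - (D₂X j s i k + D₂D j r i k)) := by
  have key : ∀ p, ∃ A B : Fin 2 → Sym, (∀ i, A i ∈ Binary.R (w + n + 1) (n : ℤ)) ∧
      (∀ k, B k ∈ Binary.R (w + n) ((n : ℤ) + 1)) ∧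
      ∀ i k, symb (n + 1) (H i k p) = A i * ky k + B k * kx i := fun p => by
    obtain ⟨A, B, hA, hB, hAB⟩ := Binary.top_exact (a := w + n + 1) (b := (n : ℤ) + 1) (by omega)
      (m := fun i k => symb (n + 1) (H i k p)) (fun i k => by
        have := symb_R (n := n + 1) (mem_valued.1 (hH.lev i k) p)
        rwa [show w + ((n + 1 : ℕ) : ℤ) = w + n + 1 by push_cast; ring,
          show ((n + 1 : ℕ) : ℤ) = (n : ℤ) + 1 by push_cast; ring] at this)
      (by rw [← sy₀_D₁ hH p]; exact symb_eq_zero_of_lt (mem_valued.1 h p) (by omega))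
    rw [add_sub_cancel_right] at hA hB
    exact ⟨A, B, hA, hB, fun i k => by rw [hAB, sy_eq, sx_eq]⟩
  choose A B hA hB hAB using key
  obtain ⟨C, Ψ', hCf, hC, hΨf, hΨ, hA'⟩ := exists_pair_in j
    (u := fun i p => if p.degree = j then A p i else 0)
    (fun i => (valued_forms_of _ fun p => hA p i).1) (fun i => (valued_forms_of _ fun p => hA p i).2)
  obtain ⟨Φ', Γ', hΦf, hΦ, hΓf, hΓ, hB'⟩ := exists_pair_in j
    (u := fun a p => if p.degree = j then ![-B p 1, B p 0] a else 0)
    (S := Binary.R (w + n) ((n : ℤ) + 1))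
    (fun a => (valued_forms_of _ fun p => by
      fin_cases a
      · exact neg_mem (hB p 1)
      · exact hB p 0).1)
    (fun a => (valued_forms_of _ fun p => by
      fin_cases a
      · exact neg_mem (hB p 1)
      · exact hB p 0).2)
  have hc : ((j : ℂ) + 1) ≠ 0 := by exact_mod_cast Nat.succ_ne_zero j
  obtain ⟨s, hsX, hsf, hsΦ, hsC⟩ := exists_spinX ha
    (Submodule.smul_mem _ (((j : ℂ) + 1)⁻¹) hΦf) (Submodule.smul_mem _ _ hΦ) hCf hC
  obtain ⟨r, hrD, hrf, hrΨ, hrΓ⟩ := exists_spinD (P := fun p : Exp => p.degree + 1 = j)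
    (S := down Op j) (T := down Sym j) (fun U hU => down_iff.2 hU) (fun U hU => down_iff.1 hU)
    (Submodule.smul_mem _ (((j : ℂ) + 1)⁻¹) hΨf) (Submodule.smul_mem _ _ hΨ)
    (neg_mem hΓf) (neg_mem hΓ)
  have hQ : MemQ j w n s r := ⟨hsf, hrf, hsX, hrD⟩
  have hD := hQ.levelD₂
  refine ⟨s, r, hQ, fun i k => sub_mem (hH.deg i k) (hD.deg i k), fun i k => ?_⟩
  refine mem_valued.2 fun p => ?_
  have hp : H i k p - (D₂X j s i k + D₂D j r i k) p ∈ fil w ((n + 1 : ℕ) : ℤ) :=
    sub_mem (mem_valued.1 (hH.lev i k) p) (by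
      push_cast
      exact mem_valued.1 (hD.lev i k) p)
  have := (symb_eq_zero_iff hp).1 (by
    rw [map_sub, ← sy₀_apply (n + 1) (_ + _) p, sy₀_D₂ j hsX hrD hsΦ hrΨ i k, hsC, hrΓ,
      sub_eq_zero]
    by_cases hpd : p.degree = j
    · have a := congrFun (hA' i) p
      have b0 := congrFun (hB' 0) p
      have b1 := congrFun (hB' 1) p
      simp [hpd] at a b0 b1
      have eB : compB j (((j : ℂ) + 1)⁻¹ • Φ') (-Γ') k p = B p k := by
        fin_cases k <;> simp [compB, smul_smul, mul_inv_cancel₀ hc, b0, b1]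
      simp [hAB, rm_apply, compA, smul_smul, mul_inv_cancel₀ hc, a, eB]
    · have a := congrFun (hA' i) p
      have b0 := congrFun (hB' 0) p
      have b1 := congrFun (hB' 1) p
      simp [hpd] at a b0 b1
      have eB : compB j (((j : ℂ) + 1)⁻¹ • Φ') (-Γ') k p = 0 := by
        fin_cases k <;> simp [compB, smul_smul, mul_inv_cancel₀ hc, b0, b1]
      simp [hH.deg i k p hpd, rm_apply, compA, smul_smul, mul_inv_cancel₀ hc, a, eB])
  simpa using this

end Vale.Agent.P195.Exact
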