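import Vale.Agent.P195.Exact.Steps

/-!
P195: the order step at the third place, and the bottom levels.
-/

noncomputable section

namespace Vale.Agent.P195.Exact

open MvPolynomial
open Vale.Agent.P195.Weyl
open Vale.Agent.P195.Orbit

theorem latX_symb {w : ℤ} {N : ℕ} {z : Op × Op} (hz : z ∈ latX w ((N : ℤ) - 1)) :
    ∃ φ ∈ Binary.R (w - 1 + N) (N : ℤ), symb N z.1 = φ * X (.inl 0) ∧
      symb N z.2 = φ * X (.inl 1) := by
  obtain ⟨g, ⟨hg1, hg2⟩, _, ⟨f, hf, rfl⟩, rfl⟩ := Submodule.mem_sup.1 hz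
  rw [sub_add_cancel] at hf
  have hlt : (N : ℤ) - 1 < N := by omega
  refine ⟨symb N f, symb_R hf, ?_, ?_⟩ <;>
    simp [rpair_apply, symb_eq_zero_of_lt hg1 hlt, symb_eq_zero_of_lt hg2 hlt, symb_mul_x hf]

theorem latD_symb {w : ℤ} {n : ℕ} {z : Op × Op} (hz : z ∈ latD w n) :
    ∃ ψ ∈ Binary.R (w + 1 + n) (n : ℤ), symb (n + 1) z.1 = ψ * X (.inr 0) ∧
      symb (n + 1) z.2 = ψ * X (.inr 1) := by
  obtain ⟨g, ⟨hg1, hg2⟩, _, ⟨f, hf, rfl⟩, rfl⟩ := Submodule.mem_sup.1 hz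
  have hlt : (n : ℤ) < ((n + 1 : ℕ) : ℤ) := by omega
  refine ⟨symb n f, symb_R hf, ?_, ?_⟩ <;>
    simp [rpair_apply, symb_eq_zero_of_lt hg1 hlt, symb_eq_zero_of_lt hg2 hlt, symb_mul_d hf]

theorem exists_symbX {w : ℤ} {N J : ℕ} {s : Fin 2 → Exp → Op} (hs : MemX w ((N : ℤ) - 1) s)
    (hd : ∀ l, s l ∈ forms Op J) :
    ∃ Φ, Φ ∈ forms Sym J ∧ Φ ∈ valued (Binary.R (w - 1 + N) (N : ℤ)) ∧
      ∀ l, sy₀ N (s l) = rm (X (.inl l)) Φ := by
  choose φ hφ h0 h1 using fun p => latX_symb (hs p)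
  refine ⟨_, (valued_forms_of φ hφ).1, (valued_forms_of φ hφ).2, fun l => funext fun p => ?_⟩
  by_cases hp : p.degree = J
  · fin_cases l <;> simp [sy₀_apply, rm_apply, hp, h0, h1]
  · simp [sy₀_apply, rm_apply, hp, hd l p hp]

theorem exists_symbD {j : ℕ} {w : ℤ} {n : ℕ} {r : Fin 2 → Exp → Op} (hr : MemD w n r)
    (hd : ∀ l, r l ∈ down Op j) :
    ∃ Ψ, Ψ ∈ down Sym j ∧ Ψ ∈ valued (Binary.R (w + 1 + n) (n : ℤ)) ∧
      ∀ l, sy₀ (n + 1) (r l) = rm (X (.inr l)) Ψ := by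
  choose ψ hψ h0 h1 using fun p => latD_symb (hr p)
  refine ⟨fun p => if p.degree + 1 = j then ψ p else 0, down_iff.2 fun p hp => if_neg hp,
    mem_valued.2 fun p => ?_, fun l => funext fun p => ?_⟩
  · show (if p.degree + 1 = j then ψ p else 0) ∈ _
    split_ifs
    · exact hψ p
    · exact zero_mem _
  · by_cases hp : p.degree + 1 = j
    · fin_cases l <;> simp [sy₀_apply, rm_apply, hp, h0, h1]
    · simp [sy₀_apply, rm_apply, hp, down_iff.1 (hd l) p hp]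

theorem D₃_mem {j : ℕ} {w : ℤ} {n : ℕ} {G : Exp → Op} (hGf : G ∈ forms Op j)
    (hG : G ∈ valued (fil w n)) : MemQ j w n (D₃X j G) (D₃D j G) := by
  have hm : ∀ (i k : Fin 2) (U : Exp → Op), U ∈ valued (fil w n) →
      rm (x i * d k) U ∈ valued (fil w ((n : ℤ) + 1)) := fun i k U hU => mem_valued.2 fun p => by
    have := Weyl.mul_mem (mem_valued.1 hU p) (xd_mem i k)
    rwa [add_zero] at this
  have hrm : ∀ (a : Op) {J : ℕ} {U : Exp → Op}, U ∈ forms Op J → rm a U ∈ forms Op J :=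
    fun a J U hU p hp => by rw [rm_apply, hU p hp, zero_mul]
  have up : ∀ {U : Exp → Op}, U ∈ valued (fil w n) → U ∈ valued (fil w ((n : ℤ) + 1)) :=
    fun hU => mem_valued.2 fun p => fil_mono (by omega) (mem_valued.1 hU p)
  have eX : ∀ l, D₃X j G l ∈ valued (fil w ((n : ℤ) + 1)) := fun l =>
    add_mem (neg_mem (Submodule.sum_mem _ fun m _ => hm l m _ (valued_xx m hG)))
      (Submodule.smul_mem _ _ (up (valued_xx l hG)))
  have eD : ∀ l, D₃D j G l ∈ valued (fil w ((n : ℤ) + 1)) := fun l =>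
    sub_mem (Submodule.sum_mem _ fun m _ => hm m l _ (valued_dd m hG))
      (Submodule.smul_mem _ _ (up (valued_dd l hG)))
  have cXm : cX (D₃X j G) ∈ valued (fil (w + 1) n) := by
    rw [(sy₀_D₃X j hG).2]
    exact Submodule.smul_mem _ _ (sub_mem (rm_x_mem (valued_xx 0 hG) 1) (rm_x_mem (valued_xx 1 hG) 0))
  have cDm : cD (D₃D j G) ∈ valued (fil (w - 1) ((n : ℤ) + 1)) := by
    rw [(sy₀_D₃D j hG).2]
    exact neg_mem (Submodule.smul_mem _ _
      (sub_mem (rm_d_mem (valued_dd 0 hG) 1) (rm_d_mem (valued_dd 1 hG) 0)))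
  refine ⟨fun l => ?_, fun l => ?_, fun p => mem_latX (mem_valued.1 (eX 0) p)
    (mem_valued.1 (eX 1) p) (mem_valued.1 cXm p), fun p => mem_latD (mem_valued.1 (eD 0) p)
    (mem_valued.1 (eD 1) p) (mem_valued.1 cDm p)⟩
  · exact add_mem (neg_mem (Submodule.sum_mem _ fun m _ => hrm _ (xx_mem m hGf)))
      (Submodule.smul_mem _ _ (xx_mem l hGf))
  · rcases j with _ | i
    · rw [down_zero, Submodule.mem_bot]
      have z : ∀ m, dd m G = 0 := fun m => funext fun p => by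
        rw [dd_apply, hGf _ (by simp [map_add, Finsupp.degree_single]), smul_zero]; rfl
      funext p
      simp [D₃D, z, rm_apply]
    · rw [down_succ]
      exact sub_mem (Submodule.sum_mem _ fun m _ => hrm _ (dd_mem m hGf))
        (Submodule.smul_mem _ _ (dd_mem l hGf))

theorem rm_dd (a : Fin 2) (c : Sym) (U : Exp → Sym) : dd a (rm c U) = rm c (dd a U) :=
  funext fun q => by simp [dd_apply, rm_apply, smul_mul_assoc]

theorem rm_xx (a : Fin 2) (c : Sym) (U : Exp → Sym) : xx a (rm c U) = rm c (xx a U) :=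
  funext fun q => by simp only [xx_apply, rm_apply]; split_ifs <;> simp

theorem rm_add' (c : Sym) (U V : Exp → Sym) : rm c (U + V) = rm c U + rm c V :=
  funext fun q => add_mul _ _ _

theorem rm_smul' (z : ℂ) (c : Sym) (U : Exp → Sym) : rm c (z • U) = z • rm c U :=
  funext fun q => smul_mul_assoc z _ _

theorem rm_neg' (c : Sym) (U : Exp → Sym) : rm c (-U) = -rm c U := funext fun q => neg_mul _ _

theorem rm_neg_left (c : Sym) (U : Exp → Sym) : rm (-c) U = -rm c U := funext fun q => mul_neg _ _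

theorem compA_D₃ {j : ℕ} {G : Exp → Sym} (hG : G ∈ forms Sym j) (i : Fin 2) :
    compA j (((j : ℂ) + 1) • (rm (X (.inl 1)) (xx 0 G) - rm (X (.inl 0)) (xx 1 G)))
        (∑ m, rm (X (.inl m)) (dd m G)) i =
      ((((j : ℂ) + 1) * ((j : ℂ) + 1)) • rm (kx i) G) := by
  have e : xx 1 (dd 1 G) = (j : ℂ) • G - xx 0 (dd 0 G) := eq_sub_of_add_eq' (euler_forms hG)
  fin_cases i <;>
    simp [compA, pairUp, Fin.sum_univ_two, kx, map_sub, map_add, map_smul, rm_dd, rm_xx, rm_add',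
      rm_smul', rm_neg_left, dd_xx_self, dd_xx_ne (show (0 : Fin 2) ≠ 1 by decide),
      dd_xx_ne (show (1 : Fin 2) ≠ 0 by decide), e, sub_eq_add_neg, rm_neg'] <;>
    module

theorem compB_D₃ {j : ℕ} {G : Exp → Sym} (hG : G ∈ forms Sym j) (k : Fin 2) :
    compB j (-∑ m, rm (X (.inr m)) (xx m G))
        (-(((j : ℂ) + 1) • (rm (X (.inr 1)) (dd 0 G) - rm (X (.inr 0)) (dd 1 G)))) k =
      -((((j : ℂ) + 1) * ((j : ℂ) + 1)) • rm (ky k) G) := by
  have e : xx 1 (dd 1 G) = (j : ℂ) • G - xx 0 (dd 0 G) := eq_sub_of_add_eq' (euler_forms hG)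
  fin_cases k <;>
    simp [compB, pairUp, Fin.sum_univ_two, ky, map_sub, map_add, map_neg, map_smul, rm_dd, rm_xx,
      rm_add', rm_smul', rm_neg_left, dd_xx_self, dd_xx_ne (show (0 : Fin 2) ≠ 1 by decide),
      dd_xx_ne (show (1 : Fin 2) ≠ 0 by decide), e, sub_eq_add_neg, rm_neg'] <;>
    module

theorem compA_sub (j : ℕ) (C C' Ψ Ψ' : Exp → Sym) (i : Fin 2) :
    compA j (C - C') (Ψ - Ψ') i = compA j C Ψ i - compA j C' Ψ' i := by
  rw [compA, compA, compA, smul_sub, pairUp_sub]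

theorem compB_sub (j : ℕ) (Φ Φ' Γ Γ' : Exp → Sym) (k : Fin 2) :
    compB j (Φ - Φ') (Γ - Γ') k = compB j Φ Γ k - compB j Φ' Γ' k := by
  have h : ∀ a, pairUp (((j : ℂ) + 1) • (Φ - Φ')) (-(Γ - Γ')) a =
      pairUp (((j : ℂ) + 1) • Φ) (-Γ) a - pairUp (((j : ℂ) + 1) • Φ') (-Γ') a := fun a => by
    rw [← pairUp_sub, smul_sub, neg_sub_neg, neg_sub]
  fin_cases k
  · exact h 1
  · show -_ = -_ - -_
    rw [h 0]
    abel

theorem compA_eq_zero {j : ℕ} {C Ψ : Exp → Sym} (hC : C ∈ forms Sym (j + 1))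
    (hΨ : Ψ ∈ down Sym j) (h : ∀ i, compA j C Ψ i = 0) : C = 0 ∧ Ψ = 0 := by
  obtain ⟨h1, h2⟩ := pairUp_eq_zero hC (Submodule.smul_mem _ _ hΨ) h
  exact ⟨h1, (smul_eq_zero.1 h2).resolve_left (by exact_mod_cast Nat.succ_ne_zero j)⟩

theorem compB_eq_zero {j : ℕ} {Φ Γ : Exp → Sym} (hΦ : Φ ∈ forms Sym (j + 1))
    (hΓ : Γ ∈ down Sym j) (h : ∀ k, compB j Φ Γ k = 0) : Φ = 0 ∧ Γ = 0 := by
  obtain ⟨h1, h2⟩ := pairUp_eq_zero (Submodule.smul_mem _ ((j : ℂ) + 1) hΦ) (neg_mem hΓ)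
    (fun a => by
      fin_cases a
      · exact neg_eq_zero.1 (h 1)
      · exact h 0)
  exact ⟨(smul_eq_zero.1 h1).resolve_left (by exact_mod_cast Nat.succ_ne_zero j),
    neg_eq_zero.1 h2⟩

theorem rm_forms {J : ℕ} (c : Sym) {U : Exp → Sym} (hU : U ∈ forms Sym J) :
    rm c U ∈ forms Sym J := fun p hp => by rw [rm_apply, hU p hp, zero_mul]

theorem cX_forms {J : ℕ} {s : Fin 2 → Exp → Op} (h : ∀ l, s l ∈ forms Op J) :
    cX s ∈ forms Op J := fun p hp => by rw [cX_apply, h 0 p hp, h 1 p hp]; exact map_zero _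

theorem cD_down {j : ℕ} {r : Fin 2 → Exp → Op} (h : ∀ l, r l ∈ down Op j) :
    cD r ∈ down Op j := down_iff.2 fun p hp => by
  rw [cD_apply, down_iff.1 (h 0) p hp, down_iff.1 (h 1) p hp]; exact map_zero _

theorem sy₀_down {j N : ℕ} {U : Exp → Op} (h : U ∈ down Op j) : sy₀ N U ∈ down Sym j :=
  down_iff.2 fun p hp => by rw [sy₀_apply, down_iff.1 h p hp, map_zero]

/-- The four symbols of a second-stage element of level `n`. -/
theorem MemQ.symbols {j : ℕ} {w : ℤ} {n : ℕ} {s r : Fin 2 → Exp → Op} (h : MemQ j w n s r) :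
    ∃ Φ Ψ, Φ ∈ forms Sym (j + 1) ∧ Ψ ∈ down Sym j ∧
      Φ ∈ valued (Binary.R (w + n) ((n : ℤ) + 1)) ∧ Ψ ∈ valued (Binary.R (w + n + 1) (n : ℤ)) ∧
      (∀ l, sy₀ (n + 1) (s l) = rm (X (.inl l)) Φ) ∧
      (∀ l, sy₀ (n + 1) (r l) = rm (X (.inr l)) Ψ) := by
  have hs : MemX w (((n + 1 : ℕ) : ℤ) - 1) s := by
    rw [show ((n + 1 : ℕ) : ℤ) - 1 = n by push_cast; ring]; exact h.levX
  obtain ⟨Φ, hΦf, hΦ, hsΦ⟩ := exists_symbX hs h.degX
  obtain ⟨Ψ, hΨf, hΨ, hrΨ⟩ := exists_symbD h.levD h.degD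
  rw [show w - 1 + ((n + 1 : ℕ) : ℤ) = w + n by push_cast; ring,
    show ((n + 1 : ℕ) : ℤ) = (n : ℤ) + 1 by push_cast; ring] at hΦ
  rw [show w + 1 + (n : ℤ) = w + n + 1 by ring] at hΨ
  exact ⟨Φ, Ψ, hΦf, hΨf, hΦ, hΨ, hsΦ, hrΨ⟩

/-- Lowering at the third place. -/
theorem lower₂ {j : ℕ} {w : ℤ} {n : ℕ} {s r : Fin 2 → Exp → Op} (hQ : MemQ j w n s r)
    (h : ∀ i k, D₂X j s i k + D₂D j r i k ∈ valued (fil w n)) :
    ∃ G, G ∈ forms Op j ∧ G ∈ valued (fil w n) ∧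
      MemQ j w ((n : ℤ) - 1) (s - D₃X j G) (r - D₃D j G) := by
  obtain ⟨Φ, Ψ, hΦf, hΨf, hΦ, hΨ, hsΦ, hrΨ⟩ := hQ.symbols
  set C := sy₀ n (cX s) with hC0
  set Γ := sy₀ (n + 1) (cD r) with hΓ0
  have hC : C ∈ valued (Binary.R (w + n + 1) (n : ℤ)) := by
    have := sy₀_R (N := n) hQ.levX.con
    rwa [show w + 1 + (n : ℤ) = w + n + 1 by ring] at this
  have hΓ : Γ ∈ valued (Binary.R (w + n) ((n : ℤ) + 1)) := by
    have := sy₀_R (N := n + 1) hQ.levD.con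
    rwa [show w - 1 + ((n + 1 : ℕ) : ℤ) = w + n by push_cast; ring,
      show ((n + 1 : ℕ) : ℤ) = (n : ℤ) + 1 by push_cast; ring] at this
  have hCf : C ∈ forms Sym (j + 1) := mapc_mem _ (cX_forms hQ.degX)
  have hΓf : Γ ∈ down Sym j := sy₀_down (cD_down hQ.degD)
  set J : ℂ := (j : ℂ) + 1 with hJ
  have hJJ : J * J ≠ 0 := mul_ne_zero (by rw [hJ]; exact_mod_cast Nat.succ_ne_zero j)
    (by rw [hJ]; exact_mod_cast Nat.succ_ne_zero j)
  have key : ∀ p, ∃ g ∈ fil w n, (∀ i, compA j C Ψ i p = (J * J) • (symb n g * kx i)) ∧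
      ∀ k, compB j Φ Γ k p = -((J * J) • (symb n g * ky k)) := fun p => by
    obtain ⟨v, hv, hvA, hvB⟩ := Binary.mid_exact (a := w + n + 1) (b := (n : ℤ) + 1)
      (p := fun i => compA j C Ψ i p) (r := fun k => compB j Φ Γ k p)
      (fun i => by
        rw [add_sub_cancel_right]
        exact mem_valued.1 (pairUp_valued hC (Submodule.smul_mem _ _ hΨ) i) p)
      (fun i k => by
        have e := congrFun (sy₀_D₂ j hQ.levX hQ.levD hsΦ hrΨ i k) p
        rw [sy₀_low (h i k) (show (n : ℤ) < ((n + 1 : ℕ) : ℤ) by omega)] at e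
        rw [sy_eq, sx_eq]
        exact e.symm)
    rw [add_sub_cancel_right, add_sub_cancel_right] at hv
    obtain ⟨g, hg, hgv⟩ := exists_symb hv
    refine ⟨(J * J)⁻¹ • g, Submodule.smul_mem _ _ hg, fun i => ?_, fun k => ?_⟩
    · rw [map_smul, smul_mul_assoc, smul_smul, mul_inv_cancel₀ hJJ, one_smul, hgv, ← sx_eq]
      exact congrFun hvA i
    · rw [map_smul, smul_mul_assoc, smul_smul, mul_inv_cancel₀ hJJ, one_smul, hgv, ← sy_eq]
      exact congrFun hvB k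
  choose g hg hgA hgB using key
  obtain ⟨hGf, hG⟩ := valued_forms_of (j := j) g hg
  refine ⟨_, hGf, hG, ?_⟩
  set G : Exp → Op := fun p => if p.degree = j then g p else 0 with hGdef
  have hQG := D₃_mem hGf hG
  have hg' : sy₀ n G ∈ forms Sym j := mapc_mem _ hGf
  obtain ⟨hGΦ, hGc⟩ := sy₀_D₃X j hG
  obtain ⟨hGΨ, hGd⟩ := sy₀_D₃D j hG
  have eC : sy₀ n (cX (D₃X j G)) =
      J • (rm (X (.inl 1)) (xx 0 (sy₀ n G)) - rm (X (.inl 0)) (xx 1 (sy₀ n G))) := by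
    rw [hGc, map_smul, map_sub, sy₀_rm_x (valued_xx 0 hG), sy₀_rm_x (valued_xx 1 hG)]
    simp only [sy₀, mapc_xx]
    rfl
  have eΓ : sy₀ (n + 1) (cD (D₃D j G)) =
      -(J • (rm (X (.inr 1)) (dd 0 (sy₀ n G)) - rm (X (.inr 0)) (dd 1 (sy₀ n G)))) := by
    rw [hGd, map_neg, map_smul, map_sub, sy₀_rm_d (valued_dd 0 hG), sy₀_rm_d (valued_dd 1 hG)]
    simp only [sy₀, mapc_dd]
    rfl
  set ΦG : Exp → Sym := -∑ m, rm (X (.inr m)) (xx m (sy₀ n G))
  set ΨG : Exp → Sym := ∑ m, rm (X (.inl m)) (dd m (sy₀ n G))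
  have hΦGf : ΦG ∈ forms Sym (j + 1) :=
    neg_mem (Submodule.sum_mem _ fun m _ => rm_forms _ (xx_mem m hg'))
  have hΨGf : ΨG ∈ down Sym j := by
    rcases j with _ | i
    · have z : ∀ m, dd m (sy₀ n G) = 0 := fun m => funext fun p => by
        rw [dd_apply, hg' _ (by simp [map_add, Finsupp.degree_single]), smul_zero]; rfl
      rw [down_zero, Submodule.mem_bot]
      funext p
      simp [ΨG, z, rm_apply]
    · rw [down_succ]
      exact Submodule.sum_mem _ fun m _ => rm_forms _ (dd_mem m hg')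
  have zA : ∀ i, compA j (C - sy₀ n (cX (D₃X j G))) (Ψ - ΨG) i = 0 := fun i => funext fun p => by
    rw [compA_sub, eC, compA_D₃ hg' i, Pi.sub_apply, Pi.smul_apply, rm_apply, sy₀_apply]
    by_cases hp : p.degree = j
    · rw [hgA p i, hGdef]; simp [hp, hJ]
    · have : compA j C Ψ i p = 0 := by
        have h1 : compA j C Ψ i ∈ forms Sym j := by
          fin_cases i
          · exact add_mem (dd_mem 0 hCf) (down_xx (Submodule.smul_mem _ _ hΨf) 1)
          · exact sub_mem (dd_mem 1 hCf) (down_xx (Submodule.smul_mem _ _ hΨf) 0)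
        exact h1 p hp
      rw [this, hGdef]; simp [hp]
  have zB : ∀ k, compB j (Φ - ΦG) (Γ - sy₀ (n + 1) (cD (D₃D j G))) k = 0 := fun k =>
    funext fun p => by
      rw [compB_sub, eΓ, compB_D₃ hg' k, Pi.sub_apply, Pi.neg_apply, Pi.smul_apply, rm_apply,
        sy₀_apply]
      by_cases hp : p.degree = j
      · rw [hgB p k, hGdef]; simp [hp, hJ]
      · have h1 : ∀ a, pairUp (((j : ℂ) + 1) • Φ) (-Γ) a ∈ forms Sym j := fun a => by
          fin_cases a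
          · exact add_mem (dd_mem 0 (Submodule.smul_mem _ _ hΦf)) (down_xx (neg_mem hΓf) 1)
          · exact sub_mem (dd_mem 1 (Submodule.smul_mem _ _ hΦf)) (down_xx (neg_mem hΓf) 0)
        have : compB j Φ Γ k p = 0 := by
          fin_cases k <;> simp [compB, h1 0 p hp, h1 1 p hp]
        rw [this, hGdef]; simp [hp]
  obtain ⟨zC, zΨ⟩ := compA_eq_zero (sub_mem hCf (mapc_mem _ (cX_forms hQG.degX)))
    (sub_mem hΨf hΨGf) zA
  obtain ⟨zΦ, zΓ⟩ := compB_eq_zero (sub_mem hΦf hΦGf)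
    (sub_mem hΓf (sy₀_down (cD_down hQG.degD))) zB
  have low : ∀ {w' : ℤ} {N : ℕ} {U : Exp → Op}, U ∈ valued (fil w' (N : ℤ)) → sy₀ N U = 0 →
      U ∈ valued (fil w' ((N : ℤ) - 1)) := fun hU hz =>
    mem_valued.2 fun p => (symb_eq_zero_iff (mem_valued.1 hU p)).1 (congrFun hz p)
  have eSX : ∀ l, (s - D₃X j G) l ∈ valued (fil w n) := fun l => by
    have := low (N := n + 1) (U := (s - D₃X j G) l)
      (by push_cast; exact sub_mem (hQ.levX.entry l) (hQG.levX.entry l))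
      (by rw [Pi.sub_apply, map_sub, hsΦ, hGΦ, sub_eq_zero, sub_eq_zero.1 zΦ])
    rwa [show ((n + 1 : ℕ) : ℤ) - 1 = n by push_cast; ring] at this
  have eSD : ∀ l, (r - D₃D j G) l ∈ valued (fil w n) := fun l => by
    have := low (N := n + 1) (U := (r - D₃D j G) l)
      (by push_cast; exact sub_mem (hQ.levD.entry l) (hQG.levD.entry l))
      (by rw [Pi.sub_apply, map_sub, hrΨ, hGΨ, sub_eq_zero, sub_eq_zero.1 zΨ])
    rwa [show ((n + 1 : ℕ) : ℤ) - 1 = n by push_cast; ring] at this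
  have hlX : cX (s - D₃X j G) = cX s - cX (D₃X j G) := funext fun p => by
    simp [cX, rm_apply, sub_mul]; abel
  have hlD : cD (r - D₃D j G) = cD r - cD (D₃D j G) := funext fun p => by
    simp [cD, rm_apply, sub_mul]; abel
  have eCX : cX (s - D₃X j G) ∈ valued (fil (w + 1) ((n : ℤ) - 1)) :=
    low (by rw [hlX]; exact sub_mem hQ.levX.con hQG.levX.con) (by rw [hlX, map_sub]; exact zC)
  have eCD : cD (r - D₃D j G) ∈ valued (fil (w - 1) (n : ℤ)) := by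
    have := low (N := n + 1) (U := cD (r - D₃D j G))
      (by rw [hlD]; push_cast; exact sub_mem hQ.levD.con hQG.levD.con)
      (by rw [hlD, map_sub]; exact zΓ)
    rwa [show ((n + 1 : ℕ) : ℤ) - 1 = n by push_cast; ring] at this
  refine ⟨fun l => sub_mem (hQ.degX l) (hQG.degX l), fun l => sub_mem (hQ.degD l) (hQG.degD l),
    fun p => mem_latX ?_ ?_ (mem_valued.1 eCX p), fun p => mem_latD ?_ ?_ ?_⟩
  all_goals rw [sub_add_cancel]
  · exact mem_valued.1 (eSX 0) p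
  · exact mem_valued.1 (eSX 1) p
  · exact mem_valued.1 (eSD 0) p
  · exact mem_valued.1 (eSD 1) p
  · exact mem_valued.1 eCD p

end Vale.Agent.P195.Exact
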