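import Vale.Agent.P195.Exact.TopRed

/-!
P195: degree three of the cochain complex of the resolution of an orbit module. The trace
functional is onto and its kernel consists of the coboundaries; it commutes with the translation
lift up to a nonzero constant.
-/

noncomputable section

namespace Vale.Agent.P195.Exact.Top

open Matrix MvPolynomial Weyl Model

variable {j : ℕ}

/-- An operator between the forms of two degrees. -/
def mv (u : Op) (a b : ℕ) : Lp a →ₗ[ℂ] Lp b := (pr b).comp (u.comp (Lp a).subtype)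

@[simp] theorem mv_apply (u : Op) (a b : ℕ) (q : Lp a) : mv u a b q = pr b (u q) := rfl

theorem d_mem_Lp {f : Pol} (hf : f ∈ Lp j) (a : Fin 2) : d a f ∈ Lp (j - 1) :=
  IsHomogeneous.pderiv hf

theorem x_mem_Lp {f : Pol} (hf : f ∈ Lp j) (a : Fin 2) : x a f ∈ Lp (j + 1) := by
  rw [x_apply, add_comm]
  exact (isHomogeneous_X ℂ a).mul hf

theorem xd_mem_Lp {f : Pol} (hf : f ∈ Lp j) (a b : Fin 2) : x a (d b f) ∈ Lp j := by
  have h : x a * d b ∈ fil ((-1 : ℤ) + 1) (1 + 0) := by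
    rw [show (-1 : ℤ) + 1 = 1 + -1 by ring, show (1 : ℤ) + 0 = 0 + 1 by ring]
    exact Weyl.mul_mem (x_mem a le_rfl) (d_mem b le_rfl)
  rw [show (-1 : ℤ) + 1 = 0 by ring] at h
  exact apply_mem_Lp h hf

theorem euler_x_d {f : Pol} {k : ℕ} (hf : f ∈ Lp k) :
    x 0 (d 0 f) + x 1 (d 1 f) = (k : ℂ) • f :=
  euler_apply ((mem_homogeneousSubmodule _ _).mp hf)

theorem d_x_sum {f : Pol} {k : ℕ} (hf : f ∈ Lp k) :
    d 0 (x 0 f) + d 1 (x 1 f) = ((k : ℂ) + 2) • f := by
  have h0 := LinearMap.congr_fun (d_x_self 0) f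
  have h1 := LinearMap.congr_fun (d_x_self 1) f
  simp only [Module.End.mul_apply, LinearMap.add_apply, Module.End.one_apply] at h0 h1
  rw [h0, h1, add_smul, ← euler_x_d hf, two_smul]
  abel

theorem sum_d_aPe {f : Pol} (hf : f ∈ Lp j) (l : Fin 2) :
    d 0 (aPe j 0 l f) + d 1 (aPe j 1 l f) = 0 := by
  have hj : ((j - 1 : ℕ) : ℂ) • d l f + (2 : ℂ) • d l f = ((j : ℂ) + 1) • d l f := by
    rcases j with _ | j
    · obtain ⟨a, rfl⟩ : ∃ a, f = C a :=
        ⟨coeff 0 f, totalDegree_eq_zero_iff_eq_C.mp (Nat.le_zero.mp (IsHomogeneous.totalDegree_le hf))⟩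
      simp [d_apply]
    · rw [← add_smul]
      congr 1
      push_cast
      ring
  have h := d_x_sum (d_mem_Lp hf l)
  rw [add_smul, hj] at h
  fin_cases l <;> simp [aPe, map_sub, map_smul] at h ⊢ <;>
    · rw [← sub_eq_zero] at h
      refine (Eq.trans ?_ h)
      abel

theorem sum_x_aMe {f : Pol} (hf : f ∈ Lp j) (l : Fin 2) :
    x 0 (aMe j 0 l f) + x 1 (aMe j 1 l f) = 0 := by
  have e : ∀ m, x m (x l (d m f)) = x l (x m (d m f)) := fun m => by
    rw [← Module.End.mul_apply, x_comm', Module.End.mul_apply]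
  have h := congrArg (x l) (euler_x_d hf)
  rw [map_add, map_smul, ← e, ← e, ← sub_eq_zero] at h
  fin_cases l <;> simp [aMe, map_sub, map_smul] at h ⊢ <;>
    · rw [← neg_eq_zero, ← h]
      abel

theorem entry_val {s i : ℕ} {t : ℤ} {M : Mat} (hM : M ∈ hom s t) (hi : i + s = j) {v : Pol}
    (hv : v ∈ Lp i) (r k : Fin 7) : M r k v ∈ Lp j := by
  have h := apply_homog (hom_entry_mem hM r k) ((mem_homogeneousSubmodule _ _).mp hv)
  rwa [show ((i : ℤ) + (s : ℕ)).toNat = j by omega] at h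

/-- The value at a row of a cochain, as a map of forms. -/
def rowMap (ψ : Pol →ₗ[ℂ] Mat) (l r : Fin 7) (v : Pol) (a b : ℕ) : Lp a →ₗ[ℂ] Lp b :=
  (pr b).comp ((LinearMap.applyₗ v).comp
    ((Matrix.entryLinearMap ℂ Op l r).comp (ψ.comp (Lp a).subtype)))

@[simp] theorem rowMap_apply (ψ : Pol →ₗ[ℂ] Mat) (l r : Fin 7) (v : Pol) (a b : ℕ) (q : Lp a) :
    rowMap ψ l r v a b q = pr b (ψ q l r v) := rfl

/-- Coboundaries have trace zero. -/
theorem Psi_d3L {s i : ℕ} {t : ℤ} (hi : i + s = j) {ψ : (Pol →ₗ[ℂ] Mat) × (Pol →ₗ[ℂ] Mat)}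
    (h1 : ∀ p, ψ.1 p ∈ rowsAt 1 s t) (h2 : ∀ p, ψ.2 p ∈ rowsAt 2 s t) {v : Pol} (hv : v ∈ Lp i)
    (r : Fin 7) : Psi j (d3L j ψ) r v = 0 := by
  set P : Fin 2 → Fin 2 → (Lp j →ₗ[ℂ] Lp j) := fun m l => mv (aPe j m l) j j
  set Q : Fin 2 → Fin 2 → (Lp j →ₗ[ℂ] Lp j) := fun m l => mv (aMe j m l) j j
  set Y : Fin 2 → (Lp (j - 1) →ₗ[ℂ] Lp j) := fun l => rowMap ψ.1 (![1, 2] l) r v (j - 1) j
  set Z : Fin 2 → (Lp (j + 1) →ₗ[ℂ] Lp j) := fun l => rowMap ψ.2 (![3, 4] l) r v (j + 1) j
  have e : endo j (d3L j ψ) r v = ∑ m : Fin 2, ∑ l : Fin 2,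
      ((P m l).comp ((Y l).comp (mv (d m) j (j - 1))) +
        (Q m l).comp ((Z l).comp (mv (x m) j (j + 1)))) := by
    ext q : 1
    have k1 := fun (p : Pol) (l : Fin 7) => pr_val (entry_val (mem_rowsAt.mp (h1 p)).1 hi hv l r)
    have k2 := fun (p : Pol) (l : Fin 7) => pr_val (entry_val (mem_rowsAt.mp (h2 p)).1 hi hv l r)
    simp [P, Q, Y, Z, d3L_apply, Fin.sum_univ_two, aP_mul, aM_mul,
      pr_val (d_mem_Lp q.2 0), pr_val (d_mem_Lp q.2 1), pr_val (x_mem_Lp q.2 0),
      pr_val (x_mem_Lp q.2 1), k1, k2]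
    abel
  have hP : ∀ l, (mv (d 0) j (j - 1)).comp (P 0 l) + (mv (d 1) j (j - 1)).comp (P 1 l) = 0 :=
    fun l => LinearMap.ext fun q => by
      have hm : ∀ m, aPe j m l q ∈ Lp j := fun m => by
        refine sub_mem (xd_mem_Lp q.2 m l) (Submodule.smul_mem _ _ ?_)
        unfold dlt
        split_ifs
        · exact q.2
        · exact zero_mem _
      simp only [LinearMap.add_apply, LinearMap.comp_apply, P, mv_apply, pr_val (hm _),
        LinearMap.zero_apply, ← map_add, sum_d_aPe q.2 l, map_zero]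
  have hQ : ∀ l, (mv (x 0) j (j + 1)).comp (Q 0 l) + (mv (x 1) j (j + 1)).comp (Q 1 l) = 0 :=
    fun l => LinearMap.ext fun q => by
      have hm : ∀ m, aMe j m l q ∈ Lp j := fun m => by
        refine neg_mem (sub_mem (xd_mem_Lp q.2 l m) (Submodule.smul_mem _ _ ?_))
        unfold dlt
        split_ifs
        · exact q.2
        · exact zero_mem _
      simp only [LinearMap.add_apply, LinearMap.comp_apply, Q, mv_apply, pr_val (hm _),
        LinearMap.zero_apply, ← map_add, sum_x_aMe q.2 l, map_zero]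
  have hY : ∀ m l, LinearMap.trace ℂ _ ((P m l).comp ((Y l).comp (mv (d m) j (j - 1)))) =
      LinearMap.trace ℂ _ (((mv (d m) j (j - 1)).comp (P m l)).comp (Y l)) := fun m l => by
    rw [← LinearMap.comp_assoc, LinearMap.trace_comp_comm', LinearMap.comp_assoc]
  have hZ : ∀ m l, LinearMap.trace ℂ _ ((Q m l).comp ((Z l).comp (mv (x m) j (j + 1)))) =
      LinearMap.trace ℂ _ (((mv (x m) j (j + 1)).comp (Q m l)).comp (Z l)) := fun m l => by
    rw [← LinearMap.comp_assoc, LinearMap.trace_comp_comm', LinearMap.comp_assoc]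
  rw [Psi_apply, e]
  simp only [map_sum, map_add, hY, hZ, Fin.sum_univ_two]
  have a := fun l => congrArg (fun T => LinearMap.trace ℂ _ (T.comp (Y l))) (hP l)
  have b := fun l => congrArg (fun T => LinearMap.trace ℂ _ (T.comp (Z l))) (hQ l)
  simp only [LinearMap.add_comp, map_add, LinearMap.zero_comp, map_zero] at a b
  linear_combination a 0 + a 1 + b 0 + b 1

/-- Coboundaries have trace zero, as a statement about `Bd`. -/
theorem Psi_of_mem_Bd {s i : ℕ} {t : ℤ} (hi : i + s = j) {f : Lp j →ₗ[ℂ] Mat}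
    (hf : f ∈ Bd s t j) {v : Pol} (hv : v ∈ Lp i) (r : Fin 7) : Psi j f r v = 0 := by
  obtain ⟨ψ, ⟨h1, h2⟩, rfl⟩ := hf
  exact Psi_d3L hi h1 h2 hv r

theorem Psi_el (φ : Module.Dual ℂ Pol) (c : Row) (r : Fin 7) (v : Pol) :
    Psi j (el j φ c) r v = φ (pr j (c r v)) := by
  rw [Psi_apply, show endo j (el j φ c) r v =
    (φ.comp (Lp j).subtype).smulRight (pr j (c r v)) from LinearMap.ext fun q => by simp,
    LinearMap.trace_smulRight]
  rfl

theorem unit_row_mem {t : ℤ} (ht : 0 ≤ t) (r : Fin 7) {u : Op} {s : ℤ} (hu : u ∈ fil s 0) :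
    (Pi.single r u : Row) ∈ lat s t := by
  obtain ⟨g, hg, hw, hn⟩ := unit_mem r
  rw [← smul_single_eq, ← hg]
  exact smul_gen_mem g (fil_mono (n := 0) (by omega) (by rw [hw, sub_zero]; exact hu))

/-- The trace functional is onto on the degree-zero part. -/
theorem Psi_surj_zero {t : ℤ} (ht : 0 ≤ t) (μ : Fin 7 → Module.Dual ℂ Pol) :
    ∃ f : Lp j →ₗ[ℂ] Mat, (∀ q, f q ∈ rowsAt 0 0 t) ∧
      ∀ r, ∀ v ∈ Lp j, Psi j f r v = μ r v := by
  refine ⟨∑ r, el j (μ r) (Pi.single r 1), fun q => ?_, fun r v hv => ?_⟩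
  · rw [LinearMap.sum_apply]
    exact Submodule.sum_mem _ fun r _ => Submodule.smul_mem _ _
      (top_mem_rowsAt (unit_row_mem ht r (Weyl.one_mem le_rfl)))
  · rw [map_sum, Finset.sum_apply, LinearMap.sum_apply, Finset.sum_eq_single r
      (fun k _ hk => by simp [Psi_el, hk.symm]) (by simp), Psi_el]
    simp [pr_val hv]

/-- The trace functional is onto on the translation part. -/
theorem Psi_surj_one {t : ℤ} (ht : 0 ≤ t) (μ : Fin 7 → Module.Dual ℂ Pol) :
    ∃ f : Lp j →ₗ[ℂ] Mat, (∀ q, f q ∈ rowsAt 0 1 t) ∧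
      ∀ i, i + 1 = j → ∀ r, ∀ v ∈ Lp i, Psi j f r v = μ r v := by
  refine ⟨((j : ℂ) + 1)⁻¹ • ∑ r, ∑ a : Fin 2, el j ((μ r).comp (d a)) (Pi.single r (x a)),
    fun q => ?_, fun i hi r v hv => ?_⟩
  · rw [LinearMap.smul_apply, LinearMap.sum_apply]
    refine Submodule.smul_mem _ _ (Submodule.sum_mem _ fun r _ => ?_)
    rw [LinearMap.sum_apply]
    exact Submodule.sum_mem _ fun a _ => Submodule.smul_mem _ _
      (top_mem_rowsAt (unit_row_mem ht r (x_mem a le_rfl)))
  · subst hi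
    rw [map_smul, map_sum, Pi.smul_apply, LinearMap.smul_apply, Finset.sum_apply,
      LinearMap.sum_apply, Finset.sum_eq_single r
      (fun k _ hk => by simp [Fin.sum_univ_two, Psi_el, hk.symm]) (by simp)]
    simp only [map_sum, Finset.sum_apply, LinearMap.sum_apply, map_add, Pi.add_apply,
      LinearMap.add_apply, Psi_el, Pi.single_eq_same, LinearMap.comp_apply, pr_val (x_mem_Lp hv _), Fin.sum_univ_two]
    rw [← map_add, d_x_sum hv, map_smul, smul_smul,
      show ((i : ℂ) + 2) = ((i + 1 : ℕ) : ℂ) + 1 by push_cast; ring,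
      inv_mul_cancel₀ (Nat.cast_add_one_ne_zero (i + 1)), one_smul]

theorem const_part {P : Pol} (hP : P ∈ Lp 0) : P = C (coeff 0 P) :=
  totalDegree_eq_zero_iff_eq_C.mp (Nat.le_zero.mp (IsHomogeneous.totalDegree_le hP))

theorem linear_part {P : Pol} (hP : P ∈ Lp 1) :
    P = coeff (Finsupp.single 0 1) P • X 0 + coeff (Finsupp.single 1 1) P • X 1 := by
  rw [Lp, homogeneousSubmodule_one_eq_span_X] at hP
  refine Submodule.span_induction (p := fun P _ =>
    P = coeff (Finsupp.single 0 1) P • X 0 + coeff (Finsupp.single 1 1) P • X 1) ?_ (by simp)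
    (fun a b _ _ ha hb => ?_) (fun z a _ ha => ?_) hP
  · rintro _ ⟨a, rfl⟩
    fin_cases a <;> simp [coeff_X', Finsupp.single_eq_single_iff]
  · conv_lhs => rw [ha, hb]
    simp [add_smul]
    abel
  · conv_lhs => rw [ha]
    simp [smul_smul]

/-- A cochain of trace zero is a coboundary. -/
theorem mem_Bd_of_Psi {s : ℕ} {t : ℤ} (hs : s ≤ 1) (ht : 0 ≤ t) {f : Lp j →ₗ[ℂ] Mat}
    (hf : ∀ q, f q ∈ rowsAt 0 s t)
    (h : ∀ i, i + s = j → ∀ r, ∀ v ∈ Lp i, Psi j f r v = 0) : f ∈ Bd s t j := by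
  obtain ⟨b, hb, z, hz, rfl⟩ := Submodule.mem_sup.mp (mem_Tgt hs ht hf)
  have hz0 : ∀ i, i + s = j → ∀ r, ∀ v ∈ Lp i, Psi j z r v = 0 := fun i hi r v hv => by
    have := h i hi r v hv
    rwa [map_add, Pi.add_apply, LinearMap.add_apply, Psi_of_mem_Bd hi hb hv, zero_add] at this
  refine add_mem hb ?_
  -- the form by which the entry at slot `r` multiplies
  let P : Fin 7 → Pol →ₗ[ℂ] Pol := fun r => (LinearMap.applyₗ (1 : Pol)).comp
    ((Matrix.entryLinearMap ℂ Op (0 : Fin 7) r).comp (z.comp (pr j)))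
  have hP : ∀ (q : Lp j) r, P r q ∈ Lp s ∧ z q 0 r = mulP (P r q) ∧ z q = top (z q 0) := by
    intro q r
    obtain ⟨c, hc, hzc⟩ := hz q
    obtain ⟨Q, hQ, hQc⟩ := hc r
    have e : P r q = Q := by
      show z (pr j q) 0 r 1 = Q
      rw [pr_coe, ← hzc, top_zero_apply, ← hQc, mulP_apply, mul_one]
    rw [e, ← hzc, top_zero_apply, top_row_zero]
    exact ⟨hQ, hQc.symm, rfl⟩
  obtain rfl | rfl : s = 0 ∨ s = 1 := by omega
  · let lam : Fin 7 → Module.Dual ℂ Pol := fun r => (lcoeff ℂ (0 : Exp)).comp (P r)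
    have ez : z = ∑ r, el j (lam r) (Pi.single r 1) := by
      refine LinearMap.ext fun q => ?_
      rw [LinearMap.sum_apply, (hP q 0).2.2]
      simp only [el_apply, ← map_smul, ← map_sum]
      congr 1
      funext r
      rw [Finset.sum_apply, Finset.sum_eq_single r (fun k _ hk => by simp [hk.symm]) (by simp),
        Pi.smul_apply, Pi.single_eq_same, (hP q r).2.1, const_part (hP q r).1]
      simp [lam, ← algebraMap_eq, Algebra.algebraMap_eq_smul_one, mulP_one]
    have hl : ∀ r, ∀ v ∈ Lp j, lam r v = 0 := fun r v hv => by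
      have := hz0 j (by omega) r v hv
      rwa [ez, map_sum, Finset.sum_apply, LinearMap.sum_apply, Finset.sum_eq_single r
        (fun k _ hk => by simp [Psi_el, hk.symm]) (by simp), Psi_el, Pi.single_eq_same,
        Module.End.one_apply, pr_val hv] at this
    rw [ez]
    refine Submodule.sum_mem _ fun r _ => ?_
    rw [el_congr (φ' := 0) (fun q => hl r q q.2), map_zero]
    exact zero_mem _
  · let lam : Fin 7 → Fin 2 → Module.Dual ℂ Pol := fun r a =>
      (lcoeff ℂ (Finsupp.single a 1)).comp (P r)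
    have ez : z = ∑ r, (el j (lam r 0) (Pi.single r (x 0)) +
        el j (lam r 1) (Pi.single r (x 1))) := by
      refine LinearMap.ext fun q => ?_
      rw [LinearMap.sum_apply, (hP q 0).2.2]
      simp only [LinearMap.add_apply, el_apply, ← map_smul, ← map_add, ← map_sum]
      congr 1
      funext r
      rw [Finset.sum_apply, Finset.sum_eq_single r (fun k _ hk => by simp [hk.symm]) (by simp),
        Pi.add_apply, Pi.smul_apply, Pi.smul_apply, Pi.single_eq_same, Pi.single_eq_same,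
        (hP q r).2.1]
      conv_lhs => rw [linear_part (hP q r).1]
      simp [lam, x]
    have hl : ∀ r, ∀ q ∈ Lp j, ∀ a,
        lam r 0 (x 0 (d a q)) + lam r 1 (x 1 (d a q)) = 0 := fun r q hq a => by
      rcases j.eq_zero_or_pos with hj | hj
      · subst hj
        rw [const_part hq]
        simp [d_apply]
      have hv := d_mem_Lp hq a
      have := hz0 (j - 1) (by omega) r _ hv
      rw [ez, map_sum, Finset.sum_apply, LinearMap.sum_apply, Finset.sum_eq_single r
        (fun k _ hk => by simp [Psi_el, hk.symm]) (by simp), map_add, Pi.add_apply,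
        LinearMap.add_apply, Psi_el, Psi_el, Pi.single_eq_same, Pi.single_eq_same] at this
      have e : j - 1 + 1 = j := by omega
      rwa [pr_val (e ▸ x_mem_Lp hv 0), pr_val (e ▸ x_mem_Lp hv 1)] at this
    rw [ez]
    refine Submodule.sum_mem _ fun r _ => ?_
    set ν : Module.Dual ℂ Pol :=
      ((j : ℂ) + 1)⁻¹ • ((lam r 1).comp (d 0) - (lam r 0).comp (d 1)) with hν
    have hJ : ((j : ℂ) + 1) ≠ 0 := Nat.cast_add_one_ne_zero j
    have c1 : ∀ q : Lp j, lam r 1 q = ν (x 0 q) := fun q => by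
      have e0 := LinearMap.congr_fun (d_x_self 0) (q : Pol)
      have e1 := LinearMap.congr_fun (d_x_ne (show (1 : Fin 2) ≠ 0 by decide)) (q : Pol)
      simp only [Module.End.mul_apply, LinearMap.add_apply, Module.End.one_apply] at e0 e1
      have h1 := hl r q q.2 1
      have hE := congrArg (lam r 1) (euler_x_d q.2)
      rw [map_add, map_smul, smul_eq_mul] at hE
      show lam r 1 q = ((j : ℂ) + 1)⁻¹ * (lam r 1 (d 0 (x 0 q)) - lam r 0 (d 1 (x 0 q)))
      rw [e0, e1, map_add]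
      field_simp
      linear_combination h1 - hE
    have c0 : ∀ q : Lp j, lam r 0 q = (-ν.comp (x 1)) q := fun q => by
      have e0 := LinearMap.congr_fun (d_x_ne (show (0 : Fin 2) ≠ 1 by decide)) (q : Pol)
      have e1 := LinearMap.congr_fun (d_x_self 1) (q : Pol)
      simp only [Module.End.mul_apply, LinearMap.add_apply, Module.End.one_apply] at e0 e1
      have h1 := hl r q q.2 0
      have hE := congrArg (lam r 0) (euler_x_d q.2)
      rw [map_add, map_smul, smul_eq_mul] at hE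
      show lam r 0 q = -(((j : ℂ) + 1)⁻¹ * (lam r 1 (d 0 (x 1 q)) - lam r 0 (d 1 (x 1 q))))
      rw [e0, e1, map_add]
      field_simp
      linear_combination h1 - hE
    have hk := koszulM (j := j) (s := ((1 : ℕ) : ℤ)) (t := t) ν
      (u := Pi.single r 1) (by simpa using unit_row_mem ht r (Weyl.one_mem le_rfl))
    rw [smul_single_eq, smul_single_eq] at hk
    rw [el_congr c0, el_congr (φ' := ν.comp (x 0)) c1]
    convert hk using 1
    rw [show -ν.comp (x 1) = (-1 : ℂ) • ν.comp (x 1) by simp, map_smul, LinearMap.smul_apply]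
    module

/-- The cochain map of the translation lift in the top degree. -/
def m3 (j : ℕ) (f : Lp j →ₗ[ℂ] Mat) : Lp (j + 1) →ₗ[ℂ] Mat :=
  ∑ m : Fin 2, (LinearMap.mulLeft ℂ (top (Pi.single 0 (x m)))).comp
    (f.comp (mv (d m) (j + 1) j))

theorem m3_apply (f : Lp j →ₗ[ℂ] Mat) (q : Lp (j + 1)) :
    m3 j f q = ∑ m : Fin 2, top (Pi.single 0 (x m)) * f (pr j (d m q)) := by
  simp [m3]

/-- The trace functional commutes with the translation lift up to a nonzero constant. -/
theorem Psi_m3 {t : ℤ} {f : Lp j →ₗ[ℂ] Mat} (hf : ∀ q, f q ∈ rowsAt 0 0 t) {v : Pol}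
    (hv : v ∈ Lp j) (r : Fin 7) :
    Psi (j + 1) (m3 j f) r v = ((j : ℂ) + 2) * Psi j f r v := by
  have hfv : ∀ q, f q 0 r v ∈ Lp j := fun q =>
    entry_val (i := j) (s := 0) (mem_rowsAt.mp (hf q)).1 (by omega) hv 0 r
  have e : endo (j + 1) (m3 j f) r v = ∑ m : Fin 2,
      (mv (x m) j (j + 1)).comp ((endo j f r v).comp (mv (d m) (j + 1) j)) := by
    ext q : 1
    simp [m3_apply, Fin.sum_univ_two, top_mul, vecMul_eq, Pi.single_apply, ite_smul,
      pr_val (hfv _)]
  have hd : (mv (d 0) (j + 1) j).comp (mv (x 0) j (j + 1)) +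
      (mv (d 1) (j + 1) j).comp (mv (x 1) j (j + 1)) = ((j : ℂ) + 2) • LinearMap.id := by
    refine LinearMap.ext fun q => ?_
    simp only [LinearMap.add_apply, LinearMap.comp_apply, mv_apply, pr_val (x_mem_Lp q.2 _),
      ← map_add, d_x_sum q.2, map_smul, pr_coe, LinearMap.smul_apply, LinearMap.id_apply]
  have hc : ∀ m, LinearMap.trace ℂ _
      ((mv (x m) j (j + 1)).comp ((endo j f r v).comp (mv (d m) (j + 1) j))) =
      LinearMap.trace ℂ _ (((mv (d m) (j + 1) j).comp (mv (x m) j (j + 1))).comp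
        (endo j f r v)) := fun m => by
    rw [← LinearMap.comp_assoc, LinearMap.trace_comp_comm', LinearMap.comp_assoc]
  rw [Psi_apply, Psi_apply, e, map_sum, Fin.sum_univ_two, hc, hc, ← map_add, ← LinearMap.add_comp,
    hd, LinearMap.smul_comp, LinearMap.id_comp, map_smul, smul_eq_mul]

end Vale.Agent.P195.Exact.Top
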