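import Vale.Agent.P195.Model.Cplx
import Vale.Agent.P195.Model.Orbit
import Mathlib.LinearAlgebra.Trace

/-!
P195: the last cochain differential out of the middle term of the resolution of an orbit module,
the trace functional on top cochains, and elementary cochains.
-/

noncomputable section

namespace Vale.Agent.P195.Exact.Top

open Matrix MvPolynomial Weyl Model

/-- The Kronecker symbol as an operator. -/
def dlt (m l : Fin 2) : Op := if m = l then 1 else 0

@[simp] theorem dlt_self (m : Fin 2) : dlt m m = 1 := if_pos rfl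
@[simp] theorem dlt_zero_one : dlt 0 1 = 0 := rfl
@[simp] theorem dlt_one_zero : dlt 1 0 = 0 := rfl

/-- The matrix with the given row at slot `0`. -/
def top : Row →ₗ[ℂ] Mat where
  toFun c := Matrix.of fun r k => if r = 0 then c k else 0
  map_add' a b := Matrix.ext fun r k => by by_cases h : r = 0 <;> simp [h]
  map_smul' z a := Matrix.ext fun r k => by by_cases h : r = 0 <;> simp [h]

@[simp] theorem top_zero_apply (c : Row) (k : Fin 7) : top c 0 k = c k := by simp [top]

@[simp] theorem top_row_zero (c : Row) : top c 0 = c := funext fun k => top_zero_apply c k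

theorem top_row_ne (c : Row) {r : Fin 7} (h : r ≠ 0) : top c r = 0 :=
  funext fun k => by simp [top, h]

theorem top_mul (c : Row) (M : Mat) : top c * M = top (c ᵥ* M) := by
  refine Matrix.ext fun r k => ?_
  by_cases h : r = 0 <;> simp [top, h, Matrix.mul_apply, vecMul, dotProduct]

theorem vecMul_eq (c : Row) (M : Mat) : c ᵥ* M = ∑ r, c r • M r := by
  funext k
  simp [vecMul, dotProduct, Finset.sum_apply]

theorem top_of_rowsAt {s t : ℤ} {M : Mat} (hM : M ∈ rowsAt 0 s t) :
    M = top (M 0) ∧ M 0 ∈ lat s t := by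
  obtain ⟨hh, hv⟩ := mem_rowsAt.mp hM
  refine ⟨?_, ?_⟩
  · refine Matrix.ext fun r k => ?_
    have h := congrFun (congrFun hv r) k
    rw [vproj, diagonal_mul] at h
    fin_cases r <;> simp [top, vx] at h ⊢ <;> exact h.symm
  · have h := mem_hom_iff.mp hh 0
    have e : gen 0 ᵥ* M = M 0 := by
      rw [vecMul_eq, Finset.sum_eq_single 0 (fun r _ hr => by simp [gen, hr]) (by simp)]
      simp [gen]
    simpa [e, gw, gn] using h

theorem top_mem_rowsAt {s t : ℤ} {c : Row} (hc : c ∈ lat s t) : top c ∈ rowsAt 0 s t := by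
  refine mem_rowsAt.mpr ⟨mem_hom_iff.mpr fun g => ?_, ?_⟩
  · rw [vecMul_eq]
    fin_cases g <;> simp [gen, top_row_ne, gw, gn, Fin.sum_univ_seven] <;> first
      | exact hc
      | exact zero_mem _
  · refine Matrix.ext fun r k => ?_
    rw [vproj, diagonal_mul]
    fin_cases r <;> simp [top, vx]

/-- Entries of the differential from the last term to `S+`. -/
def aPe (j : ℕ) (m l : Fin 2) : Op := x m * d l - ((j : ℂ) + 1) • dlt m l

/-- Entries of the differential from the last term to `S-`. -/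
def aMe (j : ℕ) (m l : Fin 2) : Op := -(x l * d m - (j : ℂ) • dlt m l)

/-- The matrix to `S+`. -/
def aP (j : ℕ) (m : Fin 2) : Mat := top (Pi.single 1 (aPe j m 0) + Pi.single 2 (aPe j m 1))

/-- The matrix to `S-`. -/
def aM (j : ℕ) (m : Fin 2) : Mat := top (Pi.single 3 (aMe j m 0) + Pi.single 4 (aMe j m 1))

theorem aP_mul (j : ℕ) (m : Fin 2) (M : Mat) :
    aP j m * M = top (aPe j m 0 • M 1 + aPe j m 1 • M 2) := by
  rw [aP, top_mul, vecMul_eq]
  simp [Fin.sum_univ_seven]

theorem aM_mul (j : ℕ) (m : Fin 2) (M : Mat) :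
    aM j m * M = top (aMe j m 0 • M 3 + aMe j m 1 • M 4) := by
  rw [aM, top_mul, vecMul_eq]
  simp [Fin.sum_univ_seven]

/-- Linear maps with values in a subspace. -/
def valIn (D : Type*) [AddCommGroup D] [Module ℂ D] (S : Submodule ℂ Mat) :
    Submodule ℂ (D →ₗ[ℂ] Mat) where
  carrier := {ψ | ∀ p, ψ p ∈ S}
  zero_mem' p := S.zero_mem
  add_mem' ha hb p := S.add_mem (ha p) (hb p)
  smul_mem' z ψ h p := S.smul_mem z (h p)

theorem mem_valIn {D : Type*} [AddCommGroup D] [Module ℂ D] {S : Submodule ℂ Mat}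
    {ψ : D →ₗ[ℂ] Mat} : ψ ∈ valIn D S ↔ ∀ p, ψ p ∈ S := Iff.rfl

/-- The differential on pairs of cochains. -/
def d3L (j : ℕ) : (Pol →ₗ[ℂ] Mat) × (Pol →ₗ[ℂ] Mat) →ₗ[ℂ] (Lp j →ₗ[ℂ] Mat) where
  toFun ψ := ∑ m : Fin 2, ((LinearMap.mulLeft ℂ (aP j m)).comp (ψ.1.comp (d m)) +
    (LinearMap.mulLeft ℂ (aM j m)).comp (ψ.2.comp (x m))).comp (Lp j).subtype
  map_add' a b := by
    ext q : 1
    simp [mul_add, Fin.sum_univ_two]
    abel
  map_smul' z a := by
    ext q : 1
    simp [smul_add, Fin.sum_univ_two]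

theorem d3L_apply (j : ℕ) (ψ : (Pol →ₗ[ℂ] Mat) × (Pol →ₗ[ℂ] Mat)) (q : Lp j) :
    d3L j ψ q = ∑ m : Fin 2, (aP j m * ψ.1 (d m q) + aM j m * ψ.2 (x m q)) := by
  simp [d3L, Fin.sum_univ_two]

/-- Top coboundaries. -/
def Bd (s t : ℤ) (j : ℕ) : Submodule ℂ (Lp j →ₗ[ℂ] Mat) :=
  ((valIn Pol (rowsAt 1 s t)).prod (valIn Pol (rowsAt 2 s t))).map (d3L j)

/-- Elementary cochains. -/
def el (j : ℕ) : Module.Dual ℂ Pol →ₗ[ℂ] Row →ₗ[ℂ] (Lp j →ₗ[ℂ] Mat) :=
  LinearMap.mk₂ ℂ (fun φ c => (φ.comp (Lp j).subtype).smulRight (top c))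
    (fun a b c => by ext q : 1; simp [add_smul])
    (fun z a c => by ext q : 1; simp [mul_smul])
    (fun a b c => by ext q : 1; simp [smul_add])
    (fun z a c => by ext q : 1; simp [smul_comm z])

@[simp] theorem el_apply (j : ℕ) (φ : Module.Dual ℂ Pol) (c : Row) (q : Lp j) :
    el j φ c q = φ q • top c := rfl

theorem el_congr {j : ℕ} {φ φ' : Module.Dual ℂ Pol} (h : ∀ q : Lp j, φ q = φ' q) (c : Row) :
    el j φ c = el j φ' c := by
  ext q : 1
  simp [h q]

/-- Rows whose entries are multiplications by forms of degree `s`. -/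
def Zrow (s : ℕ) : Submodule ℂ Row where
  carrier := {c | ∀ r, c r ∈ (Lp s).map mulP}
  zero_mem' r := Submodule.zero_mem _
  add_mem' ha hb r := Submodule.add_mem _ (ha r) (hb r)
  smul_mem' z c h r := Submodule.smul_mem _ z (h r)

/-- Coboundaries plus cochains of order zero. -/
def Tgt (s : ℕ) (t : ℤ) (j : ℕ) : Submodule ℂ (Lp j →ₗ[ℂ] Mat) :=
  Bd s t j ⊔ valIn (Lp j) ((Zrow s).map top)

theorem neg_cochain {j : ℕ} (a : Lp j →ₗ[ℂ] Mat) : -a = (-1 : ℂ) • a :=
  LinearMap.ext fun q => by simp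

instance cochain_subgroupClass (j : ℕ) :
    AddSubgroupClass (Submodule ℂ (Lp j →ₗ[ℂ] Mat)) (Lp j →ₗ[ℂ] Mat) where
  neg_mem {S a} ha := by rw [neg_cochain]; exact S.smul_mem _ ha

/-- Projection to the forms of degree `j`. -/
def pr (j : ℕ) : Pol →ₗ[ℂ] Lp j :=
  (homogeneousComponent j).codRestrict _ fun φ => homogeneousComponent_mem j φ

theorem pr_val {j : ℕ} {f : Pol} (hf : f ∈ Lp j) : (pr j f : Pol) = f := by
  show homogeneousComponent j f = f
  rw [homogeneousComponent_of_mem hf, if_pos rfl]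

theorem pr_coe {j : ℕ} (q : Lp j) : pr j (q : Pol) = q := Subtype.ext (pr_val q.2)

instance Lp_finite (j : ℕ) : Module.Finite ℂ (Lp j) :=
  Module.Finite.iff_fg.mpr (homogeneousSubmodule_fg _ _ j)

/-- The endomorphism of forms whose trace is the value of `Psi`. -/
def endo (j : ℕ) (f : Lp j →ₗ[ℂ] Mat) (r : Fin 7) (v : Pol) : Lp j →ₗ[ℂ] Lp j :=
  (pr j).comp ((LinearMap.applyₗ v).comp ((Matrix.entryLinearMap ℂ Op (0 : Fin 7) r).comp f))

@[simp] theorem endo_apply (j : ℕ) (f : Lp j →ₗ[ℂ] Mat) (r : Fin 7) (v : Pol) (q : Lp j) :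
    endo j f r v q = pr j (f q 0 r v) := rfl

/-- The trace functional on top cochains. -/
def Psi (j : ℕ) : (Lp j →ₗ[ℂ] Mat) →ₗ[ℂ] Fin 7 → Module.Dual ℂ Pol where
  toFun f r :=
    { toFun := fun v => LinearMap.trace ℂ (Lp j) (endo j f r v)
      map_add' := fun v w => by
        rw [← map_add]; congr 1; ext q : 1; simp
      map_smul' := fun z v => by
        rw [RingHom.id_apply, ← map_smul]; congr 1; ext q : 1; simp }
  map_add' f g := by
    funext r
    refine LinearMap.ext fun v => ?_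
    refine (congrArg (LinearMap.trace ℂ (Lp j)) ?_).trans (map_add _ (endo j f r v) (endo j g r v))
    ext q : 1; simp
  map_smul' z f := by
    funext r
    refine LinearMap.ext fun v => ?_
    refine (congrArg (LinearMap.trace ℂ (Lp j)) ?_).trans (map_smul _ z (endo j f r v))
    ext q : 1; simp

theorem Psi_apply (j : ℕ) (f : Lp j →ₗ[ℂ] Mat) (r : Fin 7) (v : Pol) :
    Psi j f r v = LinearMap.trace ℂ (Lp j) (endo j f r v) := rfl

end Vale.Agent.P195.Exact.Top
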