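import Vale.Agent.P195.Exact.TopDefs

/-!
P195: the four families of coboundaries used to reduce top cochains to order zero.
-/

noncomputable section

namespace Vale.Agent.P195.Exact.Top

open Matrix MvPolynomial Weyl Model

/-- Two rows at the slots of `S+`. -/
def twoP (a b : Row) : Mat := Matrix.of fun r k => if r = 1 then a k else if r = 2 then b k else 0

/-- Two rows at the slots of `S-`. -/
def twoM (a b : Row) : Mat := Matrix.of fun r k => if r = 3 then a k else if r = 4 then b k else 0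

theorem twoP_row (a b : Row) (r : Fin 7) :
    twoP a b r = if r = 1 then a else if r = 2 then b else 0 := by
  funext k
  by_cases h1 : r = 1
  · simp [twoP, h1]
  · by_cases h2 : r = 2 <;> simp [twoP, h1, h2]

theorem twoM_row (a b : Row) (r : Fin 7) :
    twoM a b r = if r = 3 then a else if r = 4 then b else 0 := by
  funext k
  by_cases h1 : r = 3
  · simp [twoM, h1]
  · by_cases h2 : r = 4 <;> simp [twoM, h1, h2]

theorem twoP_mem {s t : ℤ} {a b : Row} (ha : a ∈ lat s t) (hb : b ∈ lat s t)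
    (hab : d 0 • a + d 1 • b ∈ lat (s - 1) t) : twoP a b ∈ rowsAt 1 s t := by
  refine mem_rowsAt.mpr ⟨mem_hom_iff.mpr fun g => ?_, Matrix.ext fun r k => ?_⟩
  · rw [vecMul_eq]
    fin_cases g <;> simp [gen, twoP_row, gw, gn, Fin.sum_univ_seven] <;> first
      | exact ha
      | exact hb
      | exact zero_mem _
      | (rw [show -1 + s = s - 1 by ring]; exact hab)
  · rw [vproj, diagonal_mul]
    fin_cases r <;> simp [twoP, vx]

theorem twoM_mem {s t : ℤ} {a b : Row} (ha : a ∈ lat s t) (hb : b ∈ lat s t)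
    (hab : x 0 • a + x 1 • b ∈ lat (s + 1) (t - 1)) : twoM a b ∈ rowsAt 2 s t := by
  refine mem_rowsAt.mpr ⟨mem_hom_iff.mpr fun g => ?_, Matrix.ext fun r k => ?_⟩
  · rw [vecMul_eq]
    fin_cases g <;> simp [gen, twoM_row, gw, gn, Fin.sum_univ_seven] <;> first
      | exact ha
      | exact hb
      | exact zero_mem _
      | (rw [show 1 + s = s + 1 by ring, show -1 + t = t - 1 by ring]; exact hab)
  · rw [vproj, diagonal_mul]
    fin_cases r <;> simp [twoM, vx]

theorem smul_single_eq (u : Op) (r : Fin 7) : u • (Pi.single r 1 : Row) = Pi.single r u := by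
  rw [← Pi.single_smul, smul_eq_mul, mul_one]

theorem unit_mem (r : Fin 7) : ∃ g : Fin 9, gen g = Pi.single r 1 ∧ gw g = 0 ∧ gn g ≤ 0 := by
  refine ⟨⟨r, by omega⟩, ?_, ?_, ?_⟩ <;> fin_cases r <;> simp [gen, gw, gn]

variable {j : ℕ}

theorem plus_mem {s t : ℤ} {a b : Row} (μ : Module.Dual ℂ Pol) (ha : a ∈ lat s t)
    (hb : b ∈ lat s t) (hab : d 0 • a + d 1 • b ∈ lat (s - 1) t) :
    el j (μ.comp (d 0)) (aPe j 0 0 • a + aPe j 0 1 • b) +
      el j (μ.comp (d 1)) (aPe j 1 0 • a + aPe j 1 1 • b) ∈ Bd s t j := by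
  refine ⟨(μ.smulRight (twoP a b), 0), ⟨fun p => ?_, fun p => ?_⟩, ?_⟩
  · exact Submodule.smul_mem _ _ (twoP_mem ha hb hab)
  · exact zero_mem _
  · ext q : 1
    simp [d3L_apply, Fin.sum_univ_two, aP_mul, twoP_row]

theorem minus_mem {s t : ℤ} {a b : Row} (ν : Module.Dual ℂ Pol) (ha : a ∈ lat s t)
    (hb : b ∈ lat s t) (hab : x 0 • a + x 1 • b ∈ lat (s + 1) (t - 1)) :
    el j (ν.comp (x 0)) (aMe j 0 0 • a + aMe j 0 1 • b) +
      el j (ν.comp (x 1)) (aMe j 1 0 • a + aMe j 1 1 • b) ∈ Bd s t j := by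
  refine ⟨(0, ν.smulRight (twoM a b)), ⟨fun p => ?_, fun p => ?_⟩, ?_⟩
  · exact zero_mem _
  · exact Submodule.smul_mem _ _ (twoM_mem ha hb hab)
  · ext q : 1
    simp [d3L_apply, Fin.sum_univ_two, aM_mul, twoM_row]

theorem sub_row (a b : Op) (u : Row) : a • u - b • u = (a - b) • u :=
  funext fun k => (sub_mul a b (u k)).symm

theorem neg_row (a : Op) (u : Row) : (-a) • u = -(a • u) := funext fun k => neg_mul a (u k)

theorem smulc_row (z : ℂ) (a : Op) (u : Row) : (z • a) • u = z • (a • u) :=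
  funext fun k => smul_mul_assoc z a (u k)

theorem d_comm' (a b : Fin 2) : d a * d b = d b * d a := d_comm a b

theorem x_comm' (a b : Fin 2) : x a * x b = x b * x a := x_comm_mulP a (X b)

theorem d_x (a b : Fin 2) : d a * x b = x b * d a + dlt a b := by
  unfold dlt
  split_ifs with h
  · rw [h, d_x_self]
  · rw [d_x_ne h, add_zero]

/-- Koszul coboundaries from `S+`. -/
theorem koszulP {s t : ℤ} (μ : Module.Dual ℂ Pol) {u : Row} (hu : u ∈ lat (s + 1) (t - 1)) :
    el j (μ.comp (d 0)) (d 1 • u) - el j (μ.comp (d 1)) (d 0 • u) ∈ Bd s t j := by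
  have hJ : ((j : ℂ) + 1) ≠ 0 := Nat.cast_add_one_ne_zero j
  have h := plus_mem (j := j) (s := s) (t := t) μ (a := d 1 • u) (b := -(d 0 • u))
    (smul_mem_lat (d_mem 1 le_rfl) hu (by ring) (by omega))
    (neg_mem (smul_mem_lat (d_mem 0 le_rfl) hu (by ring) (by omega)))
    (by rw [smul_neg, smul_smul, smul_smul, d_comm' 1 0, add_neg_cancel]; exact zero_mem _)
  have e0 : aPe j 0 0 • d 1 • u + aPe j 0 1 • -(d 0 • u) = -(((j : ℂ) + 1) • (d 1 • u)) := by
    rw [smul_neg, smul_smul, smul_smul, ← sub_eq_add_neg, sub_row,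
      show aPe j 0 0 * d 1 - aPe j 0 1 * d 0 = -(((j : ℂ) + 1) • d 1) by
        simp [aPe, sub_mul, smul_mul_assoc, mul_assoc, d_comm' 1 0], neg_row, smulc_row]
  have e1 : aPe j 1 0 • d 1 • u + aPe j 1 1 • -(d 0 • u) = ((j : ℂ) + 1) • (d 0 • u) := by
    rw [smul_neg, smul_smul, smul_smul, ← sub_eq_add_neg, sub_row,
      show aPe j 1 0 * d 1 - aPe j 1 1 * d 0 = ((j : ℂ) + 1) • d 0 by
        simp [aPe, sub_mul, smul_mul_assoc, mul_assoc, d_comm' 1 0], smulc_row]
  rw [e0, e1] at h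
  have h2 := Submodule.smul_mem _ (-((j : ℂ) + 1)⁻¹) h
  convert h2 using 1
  simp only [map_neg, map_smul]
  match_scalars <;> field_simp

/-- Koszul coboundaries from `S-`. -/
theorem koszulM {s t : ℤ} (ν : Module.Dual ℂ Pol) {u : Row} (hu : u ∈ lat (s - 1) t) :
    el j (ν.comp (x 0)) (x 1 • u) - el j (ν.comp (x 1)) (x 0 • u) ∈ Bd s t j := by
  have hJ : ((j : ℂ) + 1) ≠ 0 := Nat.cast_add_one_ne_zero j
  have h := minus_mem (j := j) (s := s) (t := t) ν (a := x 1 • u) (b := -(x 0 • u))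
    (smul_mem_lat (x_mem 1 le_rfl) hu (by ring) (by omega))
    (neg_mem (smul_mem_lat (x_mem 0 le_rfl) hu (by ring) (by omega)))
    (by rw [smul_neg, smul_smul, smul_smul, x_comm' 1 0, add_neg_cancel]; exact zero_mem _)
  have a0 : x 0 * d 0 * x 1 - x 1 * d 0 * x 0 = -x 1 := by
    simp [mul_assoc, d_x, mul_add]
    rw [← mul_assoc (x 0) (x 1), ← mul_assoc (x 1) (x 0), x_comm' 1 0]
    abel
  have a1 : x 0 * d 1 * x 1 - x 1 * d 1 * x 0 = x 0 := by
    simp [mul_assoc, d_x, mul_add]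
    rw [← mul_assoc (x 0) (x 1), ← mul_assoc (x 1) (x 0), x_comm' 1 0]
    abel
  have e0 : aMe j 0 0 • x 1 • u + aMe j 0 1 • -(x 0 • u) = ((j : ℂ) + 1) • (x 1 • u) := by
    rw [smul_neg, smul_smul, smul_smul, ← sub_eq_add_neg, sub_row,
      show aMe j 0 0 * x 1 - aMe j 0 1 * x 0 = ((j : ℂ) + 1) • x 1 by
        have e : aMe j 0 0 * x 1 - aMe j 0 1 * x 0 =
            -(x 0 * d 0 * x 1 - x 1 * d 0 * x 0) + (j : ℂ) • x 1 := by
          refine LinearMap.ext fun p => ?_
          simp [aMe]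
          abel
        rw [e, a0, neg_neg, add_smul, one_smul, add_comm], smulc_row]
  have e1 : aMe j 1 0 • x 1 • u + aMe j 1 1 • -(x 0 • u) = -(((j : ℂ) + 1) • (x 0 • u)) := by
    rw [smul_neg, smul_smul, smul_smul, ← sub_eq_add_neg, sub_row,
      show aMe j 1 0 * x 1 - aMe j 1 1 * x 0 = -(((j : ℂ) + 1) • x 0) by
        have e : aMe j 1 0 * x 1 - aMe j 1 1 * x 0 =
            -(x 0 * d 1 * x 1 - x 1 * d 1 * x 0) - (j : ℂ) • x 0 := by
          refine LinearMap.ext fun p => ?_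
          simp [aMe]
          abel
        rw [e, a1, add_smul, one_smul]; abel, neg_row, smulc_row]
  rw [e0, e1] at h
  have h2 := Submodule.smul_mem _ (((j : ℂ) + 1)⁻¹) h
  convert h2 using 1
  simp only [map_neg, map_smul]
  match_scalars <;> field_simp

theorem mulP_mem_fil {s : ℕ} {P : Pol} (hP : P ∈ Lp s) {n : ℤ} (hn : 0 ≤ n) :
    mulP P ∈ fil s n := by
  rw [P.as_sum, map_sum]
  refine Submodule.sum_mem _ fun p hp => ?_
  rw [show monomial p (coeff p P) = coeff p P • monomial p (1 : ℂ) by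
    rw [smul_monomial, smul_eq_mul, mul_one], map_smul]
  refine Submodule.smul_mem _ _ ?_
  have hd : p.degree = s := by
    have h := (mem_homogeneousSubmodule _ _).mp hP (MvPolynomial.mem_support_iff.mp hp)
    rw [← h]
    simp [Finsupp.weight_apply, Finsupp.degree_eq_sum, Finsupp.sum_fintype]
  have h := nmon_mem (m := (s : ℤ)) (n := n) (p := p) (q := 0) (by simp [hd]) (by simpa using hn)
  simpa [nmon] using h

theorem single_mulP_mem {s : ℕ} {P : Pol} (hP : P ∈ Lp s) (r : Fin 7) :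
    (Pi.single r (mulP P) : Row) ∈ Zrow s := fun k => by
  rcases eq_or_ne k r with rfl | h
  · rw [Pi.single_eq_same]; exact Submodule.mem_map_of_mem hP
  · rw [Pi.single_eq_of_ne h]; exact zero_mem _

theorem el_Zrow {s : ℕ} {t : ℤ} (φ : Module.Dual ℂ Pol) {c : Row} (hc : c ∈ Zrow s) :
    el j φ c ∈ Tgt s t j :=
  Submodule.mem_sup_right fun q => Submodule.smul_mem _ _ (Submodule.mem_map_of_mem hc)

end Vale.Agent.P195.Exact.Top
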