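import Vale.Agent.P195.Exact.Top
import Vale.Agent.P195.Model.Maps

/-!
P195: degree three of the cochain complex on the modules of `Model.Maps`: the two trace
functionals `PsiB` and `PsiN`, coboundaries as their common kernel, and the translation lift.
-/

noncomputable section

namespace Vale.Agent.P195.Exact.Top

open Matrix MvPolynomial Weyl Model
open scoped TensorProduct

variable {j : ℕ} {k : Fin 5} {W : Type*} [AddCommGroup W] [Module ℂ W]

/-- The degree-zero part of a cochain. -/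
def bC (φ : Qm k W →ₗ[A] A) : W →ₗ[ℂ] Mat :=
  (bPart.toLinearMap.comp (eX k A).subtype).comp (homEquiv (X := A) k φ)

/-- The translation part of a cochain. -/
def nC (φ : Qm k W →ₗ[A] A) : W →ₗ[ℂ] Mat :=
  (mPart.comp (eX k A).subtype).comp (homEquiv (X := A) k φ)

theorem bC_apply (φ : Qm k W →ₗ[A] A) (w : W) : bC φ w = bPart (homEquiv (X := A) k φ w : A) := rfl

theorem nC_apply (φ : Qm k W →ₗ[A] A) (w : W) : nC φ w = mPart (homEquiv (X := A) k φ w : A) := rfl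

theorem bC_mem (φ : Qm k W →ₗ[A] A) (w : W) : bC φ w ∈ rowsAt k 0 0 :=
  mem_rowsAt.mpr ⟨bPart_mem _, (eV_mul_eq_iff.mp (homEquiv (X := A) k φ w).2).1⟩

theorem nC_mem (φ : Qm k W →ₗ[A] A) (w : W) : nC φ w ∈ rowsAt k 1 2 :=
  mem_rowsAt.mpr ⟨mPart_mem _, (eV_mul_eq_iff.mp (homEquiv (X := A) k φ w).2).2⟩

theorem bC_add (φ ψ : Qm k W →ₗ[A] A) : bC (φ + ψ) = bC φ + bC ψ := by
  refine LinearMap.ext fun w => ?_
  simp [bC_apply, homEquiv_add]

theorem nC_add (φ ψ : Qm k W →ₗ[A] A) : nC (φ + ψ) = nC φ + nC ψ := by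
  refine LinearMap.ext fun w => ?_
  simp [nC_apply, homEquiv_add]

theorem cochain_ext {φ ψ : Qm k W →ₗ[A] A} (hb : bC φ = bC ψ) (hn : nC φ = nC ψ) : φ = ψ :=
  (homEquiv (X := A) k).injective (LinearMap.ext fun w => Subtype.ext
    (ext_parts (LinearMap.congr_fun hb w) (LinearMap.congr_fun hn w)))

/-- A cochain with given parts. -/
def mkC (B N : W →ₗ[ℂ] Mat) (hB : ∀ w, B w ∈ rowsAt k 0 0) (hN : ∀ w, N w ∈ rowsAt k 1 2) :
    Qm k W →ₗ[A] A :=
  (homEquiv (X := A) k).symm ((rowsEquiv k).symm.toLinearMap.comp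
    (LinearMap.prod (B.codRestrict _ hB) (N.codRestrict _ hN)))

theorem bC_mkC (B N : W →ₗ[ℂ] Mat) (hB : ∀ w, B w ∈ rowsAt k 0 0)
    (hN : ∀ w, N w ∈ rowsAt k 1 2) : bC (mkC B N hB hN) = B := by
  refine LinearMap.ext fun w => ?_
  rw [bC_apply, mkC, Equiv.apply_symm_apply]
  rfl

theorem nC_mkC (B N : W →ₗ[ℂ] Mat) (hB : ∀ w, B w ∈ rowsAt k 0 0)
    (hN : ∀ w, N w ∈ rowsAt k 1 2) : nC (mkC B N hB hN) = N := by
  refine LinearMap.ext fun w => ?_
  rw [nC_apply, mkC, Equiv.apply_symm_apply]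
  rfl

theorem top_single (r : Fin 7) (u : Op) : top (Pi.single r u) = Matrix.single 0 r u := by
  refine Matrix.ext fun a b => ?_
  by_cases h : a = 0
  · subst h
    rw [top_zero_apply]
    by_cases hb : b = r
    · subst hb; simp
    · simp [hb, Ne.symm hb]
  · simp [top, h, Ne.symm h]

theorem aP_eq (j : ℕ) (m : Fin 2) : mGp m - cc j • mVp m = aP j m := by
  rw [aP, map_add, top_single, top_single]
  refine Matrix.ext fun a b => ?_
  fin_cases m <;> fin_cases a <;> fin_cases b <;>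
    simp [mGp, mVp, sP, aPe, Fin.sum_univ_two, Matrix.single_apply]

theorem aM_eq (j : ℕ) (m : Fin 2) : cc j • mVm m - mGm m = aM j m := by
  rw [aM, map_add, top_single, top_single]
  refine Matrix.ext fun a b => ?_
  fin_cases m <;> fin_cases a <;> fin_cases b <;>
    simp [mGm, mVm, sM, aMe, Fin.sum_univ_two, Matrix.single_apply, d_x, add_smul] <;> abel

/-- The degree-zero part of a coboundary. -/
theorem bC_d3 (φp : Qm 1 (Lm j) →ₗ[A] A) (φm : Qm 2 (Lp (j + 1)) →ₗ[A] A) (w : Lp j) :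
    bC ((φp.coprod φm).comp (d3 j)) w =
      ∑ m, (aP j m * bC φp (dP j m w) + aM j m * bC φm (xT j m w)) := by
  rw [bC_apply, d3_cochain]
  simp only [map_add, map_sum, smul_eq_mul, map_mul, bPart_ofB, ← bC_apply, map_smul,
    ← Finset.sum_add_distrib]
  refine Finset.sum_congr rfl fun m _ => ?_
  rw [← aP_eq, ← aM_eq]
  simp [bC_apply, nC_apply, sub_mul, smul_mul_assoc]
  module

/-- The translation part of a coboundary. -/
theorem nC_d3 (φp : Qm 1 (Lm j) →ₗ[A] A) (φm : Qm 2 (Lp (j + 1)) →ₗ[A] A) (w : Lp j) :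
    nC ((φp.coprod φm).comp (d3 j)) w =
      ∑ m, (aP j m * nC φp (dP j m w) + aM j m * nC φm (xT j m w)) := by
  rw [nC_apply, d3_cochain]
  simp only [map_add, map_sum, smul_eq_mul, mPart_mul, bPart_ofB, mPart_ofB, zero_mul, add_zero,
    ← nC_apply, map_smul, ← Finset.sum_add_distrib]
  refine Finset.sum_congr rfl fun m _ => ?_
  rw [← aP_eq, ← aM_eq]
  simp [bC_apply, nC_apply, sub_mul, smul_mul_assoc]
  module

theorem exists_ext (S : Submodule ℂ Pol) {T : Submodule ℂ Mat} (g : S →ₗ[ℂ] Mat)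
    (hg : ∀ w, g w ∈ T) : ∃ ψ : Pol →ₗ[ℂ] Mat, (∀ p, ψ p ∈ T) ∧ ∀ w : S, ψ w = g w := by
  obtain ⟨π, hπ⟩ := LinearMap.exists_leftInverse_of_injective S.subtype (Submodule.ker_subtype S)
  exact ⟨g.comp π, fun p => hg _, fun w => congrArg g (LinearMap.congr_fun hπ w)⟩

theorem d3L_parts {s t : ℤ} {gp : Lm j →ₗ[ℂ] Mat} {gm : Lp (j + 1) →ₗ[ℂ] Mat}
    (hp : ∀ w, gp w ∈ rowsAt 1 s t) (hm : ∀ w, gm w ∈ rowsAt 2 s t) {f : Lp j →ₗ[ℂ] Mat}
    (hf : ∀ w, f w = ∑ m, (aP j m * gp (dP j m w) + aM j m * gm (xT j m w))) : f ∈ Bd s t j := by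
  obtain ⟨ψp, h1, e1⟩ := exists_ext _ gp hp
  obtain ⟨ψm, h2, e2⟩ := exists_ext _ gm hm
  refine ⟨(ψp, ψm), ⟨h1, h2⟩, LinearMap.ext fun w => ?_⟩
  rw [d3L_apply, hf]
  refine Finset.sum_congr rfl fun m _ => ?_
  rw [← e1, ← e2]
  rfl

/-- Coboundaries are the cochains whose two parts are coboundaries of rows. -/
theorem range_d3_iff (φ : Q3 j →ₗ[A] A) :
    (∃ ψ : Q2 j →ₗ[A] A, ψ.comp (d3 j) = φ) ↔ bC φ ∈ Bd 0 0 j ∧ nC φ ∈ Bd 1 2 j := by
  refine ⟨?_, ?_⟩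
  · rintro ⟨ψ, rfl⟩
    rw [show ψ = (ψ.comp (LinearMap.inl A _ _)).coprod (ψ.comp (LinearMap.inr A _ _)) from
      LinearMap.ext fun x => by simp [← map_add]]
    exact ⟨d3L_parts (bC_mem _) (bC_mem _) (bC_d3 _ _), d3L_parts (nC_mem _) (nC_mem _) (nC_d3 _ _)⟩
  · rintro ⟨⟨⟨bp, bm⟩, ⟨hbp, hbm⟩, hb⟩, ⟨⟨np, nm⟩, ⟨hnp, hnm⟩, hn⟩⟩
    let φp : Qm 1 (Lm j) →ₗ[A] A := mkC (bp.comp (Lm j).subtype) (np.comp (Lm j).subtype)
      (fun w => hbp _) (fun w => hnp _)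
    let φm : Qm 2 (Lp (j + 1)) →ₗ[A] A := mkC (bm.comp (Lp (j + 1)).subtype)
      (nm.comp (Lp (j + 1)).subtype) (fun w => hbm _) (fun w => hnm _)
    refine ⟨φp.coprod φm, cochain_ext (LinearMap.ext fun w => ?_) (LinearMap.ext fun w => ?_)⟩
    · rw [bC_d3, ← hb, d3L_apply, bC_mkC, bC_mkC]
      rfl
    · rw [nC_d3, ← hn, d3L_apply, nC_mkC, nC_mkC]
      rfl

/-- The trace functional on the degree-zero part. -/
def PsiB (j : ℕ) : (Q3 j →ₗ[A] A) →+ (Fin 7 → Module.Dual ℂ (Lp j)) :=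
  AddMonoidHom.mk' (fun φ r => (Psi j (bC φ) r).comp (Lp j).subtype) fun a b => by
    funext r
    rw [bC_add, map_add]
    rfl

/-- The trace functional on the translation part, one degree up. -/
def PsiN (j : ℕ) : (Q3 (j + 1) →ₗ[A] A) →+ (Fin 7 → Module.Dual ℂ (Lp j)) :=
  AddMonoidHom.mk' (fun φ r => (Psi (j + 1) (nC φ) r).comp (Lp j).subtype) fun a b => by
    funext r
    rw [nC_add, map_add]
    rfl

theorem PsiB_apply (φ : Q3 j →ₗ[A] A) (r : Fin 7) (v : Lp j) :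
    PsiB j φ r v = Psi j (bC φ) r v := rfl

theorem PsiN_apply (φ : Q3 (j + 1) →ₗ[A] A) (r : Fin 7) (v : Lp j) :
    PsiN j φ r v = Psi (j + 1) (nC φ) r v := rfl

theorem bC_mem_Bd_iff (φ : Q3 j →ₗ[A] A) : bC φ ∈ Bd 0 0 j ↔ PsiB j φ = 0 := by
  refine ⟨fun h => funext fun r => LinearMap.ext fun v =>
    Psi_of_mem_Bd (s := 0) (i := j) rfl h v.2 r, fun h => ?_⟩
  refine mem_Bd_of_Psi (s := 0) zero_le_one le_rfl (bC_mem φ) fun i hi r v hv => ?_
  obtain rfl : i = j := by omega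
  exact LinearMap.congr_fun (congrFun h r) ⟨v, hv⟩

theorem nC_mem_Bd_iff (φ : Q3 (j + 1) →ₗ[A] A) : nC φ ∈ Bd 1 2 (j + 1) ↔ PsiN j φ = 0 := by
  refine ⟨fun h => funext fun r => LinearMap.ext fun v =>
    Psi_of_mem_Bd (s := 1) (i := j) rfl h v.2 r, fun h => ?_⟩
  refine mem_Bd_of_Psi (s := 1) le_rfl (by norm_num) (nC_mem φ) fun i hi r v hv => ?_
  obtain rfl : i = j := by omega
  exact LinearMap.congr_fun (congrFun h r) ⟨v, hv⟩

/-- Translation cochains in degree `0` are coboundaries. -/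
theorem nC_mem_Bd_zero (φ : Q3 0 →ₗ[A] A) : nC φ ∈ Bd 1 2 0 :=
  mem_Bd_of_Psi (s := 1) le_rfl (by norm_num) (nC_mem φ) fun i hi => by omega

/-- At `0` the degree-zero trace cuts out the coboundaries. -/
theorem range_d3_zero (φ : Q3 0 →ₗ[A] A) :
    (∃ ψ : Q2 0 →ₗ[A] A, ψ.comp (d3 0) = φ) ↔ PsiB 0 φ = 0 := by
  rw [range_d3_iff, bC_mem_Bd_iff]
  exact ⟨And.left, fun h => ⟨h, nC_mem_Bd_zero φ⟩⟩

/-- Above `0` both traces cut out the coboundaries. -/
theorem range_d3_succ (φ : Q3 (j + 1) →ₗ[A] A) :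
    (∃ ψ : Q2 (j + 1) →ₗ[A] A, ψ.comp (d3 (j + 1)) = φ) ↔
      PsiB (j + 1) φ = 0 ∧ PsiN j φ = 0 := by
  rw [range_d3_iff, bC_mem_Bd_iff, nC_mem_Bd_iff]

theorem PsiB_surjective (j : ℕ) : Function.Surjective (PsiB j) := fun μ => by
  obtain ⟨f, hf, hμ⟩ := Psi_surj_zero (j := j) (t := 0) le_rfl fun r => (μ r).comp (Top.pr j)
  refine ⟨mkC f 0 hf fun w => zero_mem _, funext fun r => LinearMap.ext fun v => ?_⟩
  rw [PsiB_apply, bC_mkC, hμ r v v.2]
  simp [pr_coe]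

theorem dT_eq_pr (m : Fin 2) (q : Lp (j + 1)) : dT j m q = Top.pr j (d m q) :=
  (pr_coe (dT j m q)).symm

/-- The translation lift has no degree-zero part. -/
theorem PsiB_m3 (φ : Q3 j →ₗ[A] A) : PsiB (j + 1) (φ.comp (Model.m3 j)) = 0 := by
  have e : bC (φ.comp (Model.m3 j)) = 0 := LinearMap.ext fun w => by
    rw [bC_apply, m3_cochain]
    simp
  funext r
  refine LinearMap.ext fun v => ?_
  rw [PsiB_apply, e, map_zero]
  rfl

theorem nC_m3 (φ : Q3 j →ₗ[A] A) :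
    nC (φ.comp (Model.m3 j)) = (cc j * (cc j + 1)) • m3 j (bC φ) := by
  refine LinearMap.ext fun w => ?_
  rw [nC_apply, m3_cochain, LinearMap.smul_apply, m3_apply, map_sum, Finset.smul_sum]
  refine Finset.sum_congr rfl fun m _ => ?_
  have e : top (Pi.single 0 (x m)) = mX 0 m := by
    rw [top_single]
    refine Matrix.ext fun a b => ?_
    fin_cases a <;> fin_cases b <;> simp [mX, vx, Matrix.single_apply]
  rw [smul_eq_mul, mPart_mul, e, ← dT_eq_pr, bC_apply]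
  simp [mul_smul_comm]

/-- The translation lift multiplies the trace by a nonzero constant. -/
theorem PsiN_m3 (φ : Q3 j →ₗ[A] A) :
    PsiN j (φ.comp (Model.m3 j)) =
      (((j : ℂ) + 1) * ((j : ℂ) + 2) ^ 2) • PsiB j φ := by
  funext r
  refine LinearMap.ext fun v => ?_
  rw [PsiN_apply, nC_m3, map_smul, Pi.smul_apply, LinearMap.smul_apply,
    Psi_m3 (t := 0) (bC_mem φ) v.2, Pi.smul_apply, LinearMap.smul_apply, PsiB_apply, smul_eq_mul,
    smul_eq_mul]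
  ring

theorem shift_const_ne_zero (j : ℕ) : ((j : ℂ) + 1) * ((j : ℂ) + 2) ^ 2 ≠ 0 :=
  mul_ne_zero (Nat.cast_add_one_ne_zero j)
    (pow_ne_zero 2 (by exact_mod_cast (show j + 2 ≠ 0 by omega)))

/-- At `0`: coboundaries are the cochains killed by evaluation at constants. -/
theorem range_d3_zero_iff_coeff (φ : Q3 0 →ₗ[A] A) :
    (∃ ψ : Q2 0 →ₗ[A] A, ψ.comp (d3 0) = φ) ↔
      ∀ r : Fin 7, coeff 0 (bPart (φ (gE 0 ⊗ₜ[ℂ] (⟨1, isHomogeneous_one _ _⟩ : Lp 0))) 0 r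
        (1 : Pol)) = 0 := by
  set one0 : Lp 0 := ⟨1, isHomogeneous_one _ _⟩ with hone
  have hspan : ∀ w : Lp 0, w = coeff 0 (w : Pol) • one0 := fun w => Subtype.ext <| by
    conv_lhs => rw [const_part w.2]
    rw [hone, Submodule.coe_smul, smul_eq_C_mul, mul_one]
  have htr : ∀ T : Lp 0 →ₗ[ℂ] Lp 0,
      LinearMap.trace ℂ (Lp 0) T = coeff 0 (T one0 : Pol) := fun T => by
    have e : T = ((lcoeff ℂ (0 : Exp)).comp (Lp 0).subtype).smulRight (T one0) :=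
      LinearMap.ext fun w => by
        conv_lhs => rw [hspan w, map_smul]
        rfl
    conv_lhs => rw [e, LinearMap.trace_smulRight]
    conv_lhs => rw [hspan (T one0), map_smul]
    simp [hone]
  have hone_val : ∀ r, Psi 0 (bC φ) r 1 = coeff 0 (bPart (homEquiv (X := A) 0 φ one0 : A) 0 r (1 : Pol)) :=
    fun r => by
    rw [Psi_apply, htr, endo_apply, bC_apply]
    show coeff 0 (homogeneousComponent 0 _) = _
    rw [coeff_homogeneousComponent, if_pos (map_zero _)]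
  rw [range_d3_zero]
  refine ⟨fun h r => ?_, fun h => funext fun r => LinearMap.ext fun v => ?_⟩
  · exact (hone_val r).symm.trans (LinearMap.congr_fun (congrFun h r) one0)
  · rw [hspan v, map_smul, PsiB_apply, hone_val, homEquiv_apply, h r, smul_zero]
    rfl

end Vale.Agent.P195.Exact.Top
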