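import Vale.Agent.P195.Exact.TopGen

/-!
P195: every top cochain is a coboundary plus a cochain of order zero.
-/

noncomputable section

namespace Vale.Agent.P195.Exact.Top

open Matrix MvPolynomial Weyl Model

variable {j : ℕ} {s : ℕ} {t : ℤ}

/-- Rows all of whose elementary cochains reduce to order zero. -/
def Red (s : ℕ) (t : ℤ) (j : ℕ) : Submodule ℂ Row where
  carrier := {c | ∀ φ, el j φ c ∈ Tgt s t j}
  zero_mem' φ := by rw [map_zero]; exact zero_mem _
  add_mem' ha hb φ := by rw [map_add]; exact add_mem (ha φ) (hb φ)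
  smul_mem' z c h φ := by rw [map_smul]; exact Submodule.smul_mem _ z (h φ)

theorem fil_zero_le (s : ℤ) (k : ℕ) (h : (k : ℤ) = s) : fil s 0 ≤ (Lp k).map mulP := by
  intro u hu
  refine fil_induction (motive := fun u => u ∈ (Lp k).map mulP) hu (fun p q hm hn => ?_)
    (zero_mem _) (fun a b ha hb => add_mem ha hb) (fun c a ha => Submodule.smul_mem _ c ha)
  have hq : q = 0 := (Finsupp.degree_eq_zero_iff q).mp (by omega)
  subst hq
  refine ⟨monomial p 1, (mem_homogeneousSubmodule _ _).mpr (isHomogeneous_monomial _ ?_), ?_⟩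
  · simp at hm; omega
  · simp [nmon]

theorem single_fil_mem {u : Op} (hu : u ∈ fil s 0) (r : Fin 7) : (Pi.single r u : Row) ∈ Zrow s :=
  fun k => by
    rcases eq_or_ne k r with rfl | h
    · rw [Pi.single_eq_same]; exact fil_zero_le _ _ rfl hu
    · rw [Pi.single_eq_of_ne h]; exact zero_mem _

theorem Zrow_le_Red : Zrow s ≤ Red s t j := fun _ hc φ => el_Zrow φ hc

theorem el_euler (φ : Module.Dual ℂ Pol) (c : Row) :
    el j (φ.comp (x 0 * d 0)) c + el j (φ.comp (x 1 * d 1)) c + el j φ c =
      ((j : ℂ) + 1) • el j φ c := by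
  ext q : 1
  have h := congrArg φ (euler_apply ((mem_homogeneousSubmodule _ _).mp q.2))
  rw [LinearMap.add_apply, map_add, map_smul, smul_eq_mul] at h
  simp only [LinearMap.add_apply, el_apply, LinearMap.smul_apply, LinearMap.comp_apply,
    ← add_smul, h, smul_smul]
  congr 1
  ring

theorem mem_of_eq {T : Submodule ℂ (Lp j →ₗ[ℂ] Mat)} {v w : Lp j →ₗ[ℂ] Mat} (h : v ∈ T)
    (e : w = v) : w ∈ T := e ▸ h

theorem div_mem {v : Lp j →ₗ[ℂ] Mat} (h : ((j : ℂ) + 1) • v ∈ Tgt s t j) : v ∈ Tgt s t j := by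
  have h2 := Submodule.smul_mem _ ((j : ℂ) + 1)⁻¹ h
  rwa [smul_smul, inv_mul_cancel₀ (Nat.cast_add_one_ne_zero j), one_smul] at h2

theorem el_dx_self (φ : Module.Dual ℂ Pol) (a : Fin 2) (c : Row) :
    el j ((φ.comp (d a)).comp (x a)) c = el j (φ.comp (x a * d a)) c + el j φ c := by
  rw [show (φ.comp (d a)).comp (x a) = φ.comp (x a * d a + 1) by rw [← d_x_self]; rfl,
    LinearMap.comp_add, map_add, LinearMap.add_apply]
  rfl

theorem el_dx_ne (φ : Module.Dual ℂ Pol) {a b : Fin 2} (h : a ≠ b) (c : Row) :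
    el j ((φ.comp (d a)).comp (x b)) c = el j (φ.comp (x b * d a)) c := by
  rw [show (φ.comp (d a)).comp (x b) = φ.comp (x b * d a) by rw [← d_x_ne h]; rfl]

/-- The Koszul step. -/
theorem step_mem {n : ℤ} (hn : n ≤ t) (hIH : lat s (n - 1) ≤ Red s t j) {c : Row}
    (hc : c ∈ lat s (n - 1)) (i k : Fin 2) : d i • x k • c ∈ Red s t j := by
  have hE : ∀ (a b : Fin 2), x b • d a • c = d a • x b • c - dlt a b • c := fun a b => by
    rw [smul_smul, smul_smul, d_x, add_smul, add_sub_cancel_right]
  have hA : ∀ (μ : Module.Dual ℂ Pol) (b : Fin 2),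
      el j (μ.comp (d 0)) (d 1 • x b • c) - el j (μ.comp (d 1)) (d 0 • x b • c) ∈ Tgt s t j :=
    fun μ b => Submodule.mem_sup_left
      (koszulP μ (smul_mem_lat (x_mem b le_rfl) hc (by ring) (by omega)))
  have hδ : ∀ (ν : Module.Dual ℂ Pol) (a b : Fin 2), el j ν (dlt a b • c) ∈ Tgt s t j :=
    fun ν a b => by
      unfold dlt
      split_ifs
      · rw [one_smul]; exact hIH hc ν
      · rw [zero_smul, map_zero]; exact zero_mem _
  have hB : ∀ (ν : Module.Dual ℂ Pol) (a : Fin 2),
      el j (ν.comp (x 0)) (d a • x 1 • c) - el j (ν.comp (x 1)) (d a • x 0 • c) ∈ Tgt s t j :=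
    fun ν a => by
      have h : _ ∈ Tgt s t j := Submodule.mem_sup_left
        (koszulM (j := j) (s := s) (t := t) ν (u := d a • c)
          (smul_mem_lat (d_mem a le_rfl) hc (by ring) (by omega)))
      rw [hE, hE, map_sub, map_sub] at h
      have h2 := add_mem h (sub_mem (hδ (ν.comp (x 0)) a 1) (hδ (ν.comp (x 1)) a 0))
      convert h2 using 1
      abel
  have A : ∀ (φ : Module.Dual ℂ Pol) (a b : Fin 2),
      el j (φ.comp (x a * d 0)) (d 1 • x b • c) -
        el j (φ.comp (x a * d 1)) (d 0 • x b • c) ∈ Tgt s t j :=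
    fun φ a b => hA (φ.comp (x a)) b
  have B0 : ∀ (φ : Module.Dual ℂ Pol) (a : Fin 2),
      el j (φ.comp (x 0 * d 0)) (d a • x 1 • c) + el j φ (d a • x 1 • c) -
        el j (φ.comp (x 1 * d 0)) (d a • x 0 • c) ∈ Tgt s t j := fun φ a => by
    have h := hB (φ.comp (d 0)) a
    rwa [el_dx_self, el_dx_ne φ (by decide)] at h
  have B1 : ∀ (φ : Module.Dual ℂ Pol) (a : Fin 2),
      el j (φ.comp (x 0 * d 1)) (d a • x 1 • c) -
        (el j (φ.comp (x 1 * d 1)) (d a • x 0 • c) + el j φ (d a • x 0 • c)) ∈ Tgt s t j :=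
    fun φ a => by
    have h := hB (φ.comp (d 1)) a
    rwa [el_dx_self, el_dx_ne φ (by decide)] at h
  have hsum : ∀ φ : Module.Dual ℂ Pol,
      el j φ (d 0 • x 0 • c) + el j φ (d 1 • x 1 • c) ∈ Tgt s t j := fun φ => by
    refine mem_of_eq (sub_mem (add_mem (B0 φ 1) (A φ 1 0)) (add_mem (B1 φ 0) (A φ 0 1))) ?_
    abel
  have h00 : ∀ φ : Module.Dual ℂ Pol, el j φ (d 0 • x 0 • c) ∈ Tgt s t j := fun φ => by
    refine div_mem (mem_of_eq
      (sub_mem (hsum (φ.comp (x 0 * d 0))) (add_mem (B1 φ 0) (A φ 0 1))) ?_)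
    rw [← el_euler]
    abel
  intro φ
  fin_cases i <;> fin_cases k <;> simp only [Fin.zero_eta, Fin.mk_one]
  · exact h00 φ
  · refine div_mem (mem_of_eq
      (add_mem (hsum (φ.comp (x 1 * d 0))) (sub_mem (B0 φ 0) (A φ 1 1))) ?_)
    rw [← el_euler]
    abel
  · refine div_mem (mem_of_eq
      (add_mem (hsum (φ.comp (x 0 * d 1))) (sub_mem (A φ 0 0) (B1 φ 1))) ?_)
    rw [← el_euler]
    abel
  · exact mem_of_eq (sub_mem (hsum φ) (h00 φ)) (by abel)

/-- The generator at `S+` of level `0`. -/
theorem genP_mem (ht : 0 ≤ t) {r : Op} (hr : r ∈ fil s 0) (k : Fin 2) :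
    (x k * r) • gen 7 ∈ Red s t j := by
  set Y : Fin 2 → Row := fun m => (x m * r) • gen 7 with hY
  have hg : gen 7 = Pi.single 1 (d 0) + Pi.single 2 (d 1) := by simp [gen]
  have hcomm : ∀ l, d l * r - r * d l ∈ fil ((s : ℤ) - 1) 0 := fun l => by
    have h := comm_mem (n := 1) (n' := 0) (d_mem (n := 1) l le_rfl) hr
    rw [show (-1 : ℤ) + s = (s : ℤ) - 1 by ring] at h
    simpa using h
  have hu : ∀ i : Fin 7, r • (Pi.single i 1 : Row) ∈ lat s t := fun i => by
    obtain ⟨g, hg, hw, hn⟩ := unit_mem i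
    rw [← hg]
    exact smul_gen_mem g (fil_mono (n := 0) (by omega) (by rw [hw, sub_zero]; exact hr))
  have hA : ∀ μ : Module.Dual ℂ Pol,
      el j (μ.comp (d 0)) (Y 0) + el j (μ.comp (d 1)) (Y 1) ∈ Tgt s t j := fun μ => by
    have h : _ ∈ Tgt s t j := Submodule.mem_sup_left
      (plus_mem (j := j) (s := s) (t := t) μ (a := r • Pi.single 1 1) (b := r • Pi.single 2 1)
        (hu 1) (hu 2) ?_)
    · have hz : ∀ m, aPe j m 0 • r • (Pi.single 1 1 : Row) + aPe j m 1 • r • Pi.single 2 1 - Y m
          ∈ Red s t j := fun m => Zrow_le_Red (by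
        have e : ∀ l, aPe j m l * r - x m * r * d l =
            x m * (d l * r - r * d l) - ((j : ℂ) + 1) • (dlt m l * r) := fun l => by
          refine LinearMap.ext fun p => ?_
          simp [aPe]
          abel
        have hm : ∀ l, aPe j m l * r - x m * r * d l ∈ fil s 0 := fun l => by
          rw [e]
          refine sub_mem ?_ (Submodule.smul_mem _ _ ?_)
          · have := Weyl.mul_mem (x_mem m le_rfl) (hcomm l)
            simpa using this
          · unfold dlt
            split_ifs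
            · rwa [one_mul]
            · rw [zero_mul]; exact zero_mem _
        have e2 : aPe j m 0 • r • (Pi.single 1 1 : Row) + aPe j m 1 • r • Pi.single 2 1 - Y m =
            Pi.single 1 (aPe j m 0 * r - x m * r * d 0) +
              Pi.single 2 (aPe j m 1 * r - x m * r * d 1) := by
          simp only [hY, hg, smul_smul, smul_add, smul_single_eq, Pi.single_sub,
            ← Pi.single_smul, smul_eq_mul, mul_one]
          abel
        rw [e2]
        exact add_mem (single_fil_mem (hm 0) 1) (single_fil_mem (hm 1) 2))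
      have h2 := sub_mem h (add_mem (hz 0 (μ.comp (d 0))) (hz 1 (μ.comp (d 1))))
      convert h2 using 1
      simp only [map_sub]
      abel
    · have e : d 0 • r • (Pi.single 1 1 : Row) + d 1 • r • Pi.single 2 1 =
          r • gen 7 + (d 0 * r - r * d 0) • (Pi.single 1 1 : Row) +
            (d 1 * r - r * d 1) • Pi.single 2 1 := by
        simp only [hg, smul_smul, smul_add, smul_single_eq, Pi.single_sub, ← Pi.single_smul,
          smul_eq_mul, mul_one]
        abel
      rw [e]
      refine add_mem (add_mem (smul_mem_lat hr (gen_mem 7) (by simp [gw]; ring)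
        (by simp [gn]; omega)) ?_) ?_
      · obtain ⟨g, hg, hw, hn⟩ := unit_mem 1
        rw [← hg]
        exact smul_gen_mem g (fil_mono (n := 0) (by omega) (by rw [hw, sub_zero]; exact hcomm 0))
      · obtain ⟨g, hg, hw, hn⟩ := unit_mem 2
        rw [← hg]
        exact smul_gen_mem g (fil_mono (n := 0) (by omega) (by rw [hw, sub_zero]; exact hcomm 1))
  have hB : ∀ ν : Module.Dual ℂ Pol,
      el j (ν.comp (x 0)) (Y 1) - el j (ν.comp (x 1)) (Y 0) ∈ Tgt s t j := fun ν => by
    have h : _ ∈ Tgt s t j := Submodule.mem_sup_left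
      (koszulM (j := j) (s := s) (t := t) ν (u := r • gen 7)
        (smul_mem_lat hr (gen_mem 7) (by simp [gw]; ring) (by simp [gn]; omega)))
    simpa only [hY, smul_smul] using h
  intro φ
  refine div_mem ?_
  rw [show (x k * r) • gen 7 = Y k from rfl, ← el_euler]
  fin_cases k
  · have h1 : el j (φ.comp (x 0 * d 0)) (Y 0) + el j (φ.comp (x 0 * d 1)) (Y 1) ∈ Tgt s t j :=
      hA (φ.comp (x 0))
    have h2 := hB (φ.comp (d 1))
    rw [el_dx_self, el_dx_ne φ (by decide)] at h2
    exact mem_of_eq (sub_mem h1 h2) (by simp only [Fin.zero_eta]; abel)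
  · have h1 : el j (φ.comp (x 1 * d 0)) (Y 0) + el j (φ.comp (x 1 * d 1)) (Y 1) ∈ Tgt s t j :=
      hA (φ.comp (x 1))
    have h2 := hB (φ.comp (d 0))
    rw [el_dx_self, el_dx_ne φ (by decide)] at h2
    exact mem_of_eq (add_mem h1 h2) (by simp only [Fin.mk_one]; abel)

/-- The generator at `S-` of level `-1`, raised by a derivative. -/
theorem genM_mem (ht : 0 ≤ t) (k : Fin 2) : d k • gen 8 ∈ Red 0 t j := by
  set Y : Fin 2 → Row := fun m => d m • gen 8 with hY
  have hg : gen 8 = Pi.single 3 (x 0) + Pi.single 4 (x 1) := by simp [gen]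
  have hg8 : gen 8 ∈ lat ((0 : ℕ) + 1 : ℤ) (t - 1) := by
    have h := gen_mem 8
    simp [gw, gn] at h
    simpa using lat_mono (show (-1 : ℤ) ≤ t - 1 by omega) h
  have hu : ∀ i : Fin 7, (Pi.single i 1 : Row) ∈ lat ((0 : ℕ) : ℤ) t := fun i => by
    obtain ⟨g, hg, hw, hn⟩ := unit_mem i
    rw [← hg, ← one_smul Op (gen g)]
    exact smul_gen_mem g (by rw [hw]; simpa using Weyl.one_mem (by omega))
  have hA : ∀ ν : Module.Dual ℂ Pol,
      el j (ν.comp (x 0)) (Y 0) + el j (ν.comp (x 1)) (Y 1) ∈ Tgt 0 t j := fun ν => by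
    have h : _ ∈ Tgt 0 t j := Submodule.mem_sup_left
      (minus_mem (j := j) (s := ((0 : ℕ) : ℤ)) (t := t) ν (a := Pi.single 3 1)
        (b := Pi.single 4 1) (hu 3) (hu 4)
        (by simp only [smul_single_eq]; rw [← hg]; exact hg8))
    have hz : ∀ m, aMe j m 0 • (Pi.single 3 1 : Row) + aMe j m 1 • Pi.single 4 1 + Y m
        ∈ Red 0 t j := fun m => Zrow_le_Red (by
      have hm : ∀ l, aMe j m l + d m * x l ∈ fil ((0 : ℕ) : ℤ) 0 := fun l => by
        rw [d_x, show aMe j m l + (x l * d m + dlt m l) = (j : ℂ) • dlt m l + dlt m l by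
          rw [aMe]; abel]
        unfold dlt
        split_ifs
        · exact add_mem (Submodule.smul_mem _ _ (Weyl.one_mem le_rfl)) (Weyl.one_mem le_rfl)
        · simp
      have e2 : aMe j m 0 • (Pi.single 3 1 : Row) + aMe j m 1 • Pi.single 4 1 + Y m =
          Pi.single 3 (aMe j m 0 + d m * x 0) + Pi.single 4 (aMe j m 1 + d m * x 1) := by
        simp only [hY, hg, smul_add, smul_single_eq, ← Pi.single_smul, smul_eq_mul, Pi.single_add,
          mul_one]
        abel
      rw [e2]
      exact add_mem (single_fil_mem (hm 0) 3) (single_fil_mem (hm 1) 4))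
    have h2 := sub_mem (add_mem (hz 0 (ν.comp (x 0))) (hz 1 (ν.comp (x 1)))) h
    convert h2 using 1
    simp only [map_add]
    abel
  have hP : ∀ μ : Module.Dual ℂ Pol,
      el j (μ.comp (d 0)) (Y 1) - el j (μ.comp (d 1)) (Y 0) ∈ Tgt 0 t j := fun μ =>
    Submodule.mem_sup_left (koszulP μ hg8)
  intro φ
  refine div_mem ?_
  rw [show d k • gen 8 = Y k from rfl, ← el_euler]
  fin_cases k
  · have h1 := hA (φ.comp (d 0))
    rw [el_dx_self, el_dx_ne φ (by decide)] at h1
    have h2 : el j (φ.comp (x 1 * d 0)) (Y 1) - el j (φ.comp (x 1 * d 1)) (Y 0) ∈ Tgt 0 t j :=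
      hP (φ.comp (x 1))
    exact mem_of_eq (sub_mem h1 h2) (by simp only [Fin.zero_eta]; abel)
  · have h1 := hA (φ.comp (d 1))
    rw [el_dx_self, el_dx_ne φ (by decide)] at h1
    have h2 : el j (φ.comp (x 0 * d 0)) (Y 1) - el j (φ.comp (x 0 * d 1)) (Y 0) ∈ Tgt 0 t j :=
      hP (φ.comp (x 0))
    exact mem_of_eq (add_mem h1 h2) (by simp only [Fin.mk_one]; abel)

theorem nmon_zero (p : Exp) : nmon p 0 = mulP (monomial p 1) := by simp [nmon]

theorem gen_unit (g : Fin 7) : gen ⟨g, by omega⟩ = Pi.single g 1 := by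
  fin_cases g <;> simp [gen]

/-- Generators multiplied by forms. -/
theorem order_zero_mem (hs : s ≤ 1) (ht : 0 ≤ t) (g : Fin 9) (p : Exp)
    (hm : (p.degree : ℤ) = (s : ℤ) - gw g) : nmon p 0 • gen g ∈ Red s t j := by
  have hfil : ∀ a : ℤ, (p.degree : ℤ) = a → nmon p 0 ∈ fil a 0 := fun a ha =>
    nmon_mem (by simp [ha]) (by simp)
  rcases lt_trichotomy (g : ℕ) 7 with hlt | heq | hgt
  · have e : g = ⟨(⟨g, hlt⟩ : Fin 7), by omega⟩ := rfl
    have hw : gw g = 0 := by fin_cases g <;> simp [gw] at hlt ⊢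
    rw [e, gen_unit, smul_single_eq]
    exact Zrow_le_Red (single_fil_mem (hfil s (by omega)) _)
  · obtain rfl : g = 7 := Fin.ext heq
    rw [show gw 7 = -1 from rfl, sub_neg_eq_add] at hm
    obtain ⟨k, hk⟩ : ∃ k, p k ≠ 0 := by
      by_contra hc
      push Not at hc
      rw [degree_two, hc 0, hc 1] at hm
      omega
    have e : x k * nmon (p - Finsupp.single k 1) 0 = nmon p 0 := by
      rw [show x k = mulP (monomial (Finsupp.single k 1) 1) from rfl, mulP_nmon,
        add_tsub_cancel_of_le (Finsupp.single_le_iff.mpr (Nat.one_le_iff_ne_zero.mpr hk))]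
    have h := genP_mem (s := s) (j := j) ht
      (nmon_mem (m := (s : ℤ)) (p := p - Finsupp.single k 1) (q := 0)
        (by rw [degree_sub_single hk]; simp; omega) (by simp)) k
    rwa [e] at h
  · obtain rfl : g = 8 := Fin.ext (by have := g.isLt; show (g : ℕ) = 8; omega)
    rw [show gw 8 = 1 from rfl] at hm
    have e : nmon p 0 • gen 8 =
        Pi.single 3 (nmon p 0 * x 0) + Pi.single 4 (nmon p 0 * x 1) := by
      rw [show gen 8 = Pi.single 3 (x 0) + Pi.single 4 (x 1) by simp [gen], smul_add,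
        ← Pi.single_smul, ← Pi.single_smul]
      rfl
    have hx : ∀ a, nmon p 0 * x a ∈ fil s 0 := fun a => by
      have h := Weyl.mul_mem (hfil _ hm) (x_mem (n := 0) a le_rfl)
      simpa using h
    rw [e]
    exact Zrow_le_Red (add_mem (single_fil_mem (hx 0) 3) (single_fil_mem (hx 1) 4))

/-- Induction over the levels. -/
theorem lat_le_Red (hs : s ≤ 1) (ht : 0 ≤ t) : lat s t ≤ Red s t j := by
  suffices H : ∀ k : ℕ, (k : ℤ) - 3 ≤ t → lat s ((k : ℤ) - 3) ≤ Red s t j by
    have := H (t + 3).toNat (by omega)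
    rwa [show ((t + 3).toNat : ℤ) - 3 = t by omega] at this
  intro k
  induction k with
  | zero =>
    intro _ c hc
    refine lat_induction (P := fun c => c ∈ Red s t j) (zero_mem _)
      (fun a b ha hb => add_mem ha hb) (fun g u hu => ?_) hc
    rw [fil_neg (by fin_cases g <;> simp [gn]), Submodule.mem_bot] at hu
    simp [hu]
  | succ k ih =>
    intro hk c hc
    set n : ℤ := ((k + 1 : ℕ) : ℤ) - 3 with hn
    have hIH : lat s (n - 1) ≤ Red s t j := by
      have := ih (by omega)
      rwa [show n - 1 = (k : ℤ) - 3 by omega]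
    refine lat_induction (P := fun c => c ∈ Red s t j) (zero_mem _)
      (fun a b ha hb => add_mem ha hb) (fun g u hu => ?_) hc
    refine fil_induction (motive := fun u => u • gen g ∈ Red s t j) hu ?_
      (by simp) (fun a b ha hb => by rw [add_smul]; exact add_mem ha hb)
      (fun z a ha => by rw [smulc_row]; exact Submodule.smul_mem _ z ha)
    intro p q hm hq
    rcases lt_or_eq_of_le hq with hlt | heq
    · exact hIH (smul_gen_mem g (nmon_mem hm (by omega)))
    by_cases hq0 : q = 0
    · subst hq0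
      exact order_zero_mem hs ht g p (by simpa using hm)
    obtain ⟨i, hi⟩ : ∃ i, q i ≠ 0 := by
      by_contra hc
      push Not at hc
      exact hq0 (Finsupp.ext hc)
    have hqd : (1 : ℤ) ≤ q.degree := by
      have := degree_sub_single hi
      omega
    by_cases hp0 : p = 0
    · subst hp0
      simp only [map_zero, Nat.cast_zero, zero_sub] at hm
      have hq1 : q = Finsupp.single i 1 := by
        have hd : q.degree = 1 := by fin_cases g <;> simp [gw] at hm <;> omega
        rw [degree_two] at hd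
        ext a
        fin_cases i <;> fin_cases a <;> simp at hi ⊢ <;> omega
      subst hq1
      simp only [Finsupp.degree_single, Nat.cast_one] at hm
      rw [← d_eq]
      fin_cases g <;> simp [gw] at hm <;> first
        | omega
        | skip
      obtain rfl : s = 0 := by omega
      exact genM_mem ht i
    · obtain ⟨a, ha⟩ : ∃ a, p a ≠ 0 := by
        by_contra hc
        push Not at hc
        exact hp0 (Finsupp.ext hc)
      have e1 : x a * nmon (p - Finsupp.single a 1) (q - Finsupp.single i 1) =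
          nmon p (q - Finsupp.single i 1) := by
        rw [show x a = mulP (monomial (Finsupp.single a 1) 1) from rfl, mulP_nmon,
          add_tsub_cancel_of_le (Finsupp.single_le_iff.mpr (Nat.one_le_iff_ne_zero.mpr ha))]
      have hc' : nmon (p - Finsupp.single a 1) (q - Finsupp.single i 1) • gen g ∈
          lat s (n - 1) :=
        smul_gen_mem g (nmon_mem (by rw [degree_sub_single ha, degree_sub_single hi]; omega)
          (by rw [degree_sub_single hi]; omega))
      have h := step_mem (t := t) (j := j) (by omega) hIH hc' i a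
      rw [smul_smul, smul_smul, mul_assoc, e1, d_nmon,
        tsub_add_cancel_of_le (Finsupp.single_le_iff.mpr (Nat.one_le_iff_ne_zero.mpr hi)),
        add_smul] at h
      refine (Submodule.add_mem_iff_left _ ?_).mp h
      rcases eq_or_ne (p i) 0 with h0 | h0
      · simp [h0]
      · rw [smulc_row]
        exact Submodule.smul_mem _ _ (hIH (smul_gen_mem g
          (nmon_mem (by rw [degree_sub_single h0, degree_sub_single hi]; omega)
            (by rw [degree_sub_single hi]; omega))))

/-- Every top cochain with values in the rows at `O0` reduces to order zero. -/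
theorem mem_Tgt (hs : s ≤ 1) (ht : 0 ≤ t) {f : Lp j →ₗ[ℂ] Mat}
    (hf : ∀ q, f q ∈ rowsAt 0 s t) : f ∈ Tgt s t j := by
  let b := Module.finBasis ℂ (Lp j)
  have e : f = ∑ i, el j ((b.coord i).comp (pr j)) (f (b i) 0) := by
    refine b.ext fun k => ?_
    rw [LinearMap.sum_apply, Finset.sum_eq_single k]
    · simpa [pr_coe] using (top_of_rowsAt (hf (b k))).1
    · intro i _ hi
      simp [pr_coe, hi.symm]
    · simp
  rw [e]
  exact Submodule.sum_mem _ fun i _ => lat_le_Red hs ht (top_of_rowsAt (hf (b i))).2 _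

end Vale.Agent.P195.Exact.Top
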