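import Vale.Agent.P195.Exact.Places
import Vale.Agent.P195.Model.Lattice
import Mathlib.Algebra.Order.Antidiag.Finsupp

/-!
P195: the places of the resolution seen from all seven slots: seven rows, each combination along a
lattice generator lying in the rows of that weight and level.
-/

noncomputable section

namespace Vale.Agent.P195.Exact

open MvPolynomial
open Vale.Agent.P195.Weyl
open Vale.Agent.P195.Model (gen gw gn)

variable {P : Type*} [AddCommGroup P] [Module ℂ P]

/-- The combination of seven rows along a lattice generator. -/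
def comb (L : Op → P →ₗ[ℂ] P) (g : Fin 9) : (Fin 7 → P) →ₗ[ℂ] P :=
  ∑ r, (L (gen g r)).comp (LinearMap.proj r)

/-- Seven rows shifting the lattices by weight `s` and level `t`. -/
def Vert (L : Op → P →ₗ[ℂ] P) (C : ℤ → ℤ → Submodule ℂ P) (s t : ℤ) :
    Submodule ℂ (Fin 7 → P) :=
  ⨅ g, (C (gw g + s) (gn g + t)).comap (comb L g)

theorem mem_Vert {L : Op → P →ₗ[ℂ] P} {C : ℤ → ℤ → Submodule ℂ P} {s t : ℤ} {c : Fin 7 → P} :
    c ∈ Vert L C s t ↔ ∀ g, ∑ r, L (gen g r) (c r) ∈ C (gw g + s) (gn g + t) := by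
  simp [Vert, comb]

theorem comb_apply (L : Op → P →ₗ[ℂ] P) (g : Fin 9) (c : Fin 7 → P) :
    comb L g c = ∑ r, L (gen g r) (c r) := by simp [comb]

/-- Exponents of degree `j`. -/
def expOf (j : ℕ) : Finset Exp := (Finset.univ : Finset (Fin 2)).finsuppAntidiag j

theorem mem_expOf {j : ℕ} {p : Exp} : p ∈ expOf j ↔ p.degree = j := by
  simp [expOf, Finset.mem_finsuppAntidiag, Finsupp.degree_eq_sum]

/-- Evaluation of a family on its monomials. -/
def evS (j : ℕ) : Fam →ₗ[ℂ] Pol :=
  ∑ p ∈ expOf j, (LinearMap.applyₗ (monomial p (1 : ℂ) : Pol)).comp (LinearMap.proj p)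

theorem evS_apply (j : ℕ) (U : Fam) :
    evS j U = ∑ p ∈ expOf j, U p (monomial p (1 : ℂ)) := by simp [evS]

end Vale.Agent.P195.Exact
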