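import Vale.Agent.P195.Exact.Vert
import Vale.Agent.P195.Exact.Sym
import Vale.Agent.P195.Exact.Steps2

/-!
P195: from exactness of single rows to exactness of seven rows. The doublets use that a class one
level too high is a boundary plus a part split along the derivatives (resp. the variables).
-/

noncomputable section

namespace Vale.Agent.P195.Exact

open MvPolynomial
open Vale.Agent.P195.Weyl
open Vale.Agent.P195.Model (gen gw gn)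

section Abstract

variable {P Q R : Type*} [AddCommGroup P] [Module ℂ P] [AddCommGroup Q] [Module ℂ Q]
  [AddCommGroup R] [Module ℂ R] {D : P →ₗ[ℂ] Q} {E : R →ₗ[ℂ] P} {LP : Op → P →ₗ[ℂ] P}
  {LQ : Op → Q →ₗ[ℂ] Q} {LR : Op → R →ₗ[ℂ] R}

/-- Two rows whose combination lies one level lower lift to two rows with the same property. -/
theorem pair_lift (hD : ∀ u h, D (LP u h) = LQ u (D h)) (hE : ∀ u a, E (LR u a) = LP u (E a))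
    (u₀ u₁ : Op) {CP CB CS : Submodule ℂ P} {CR : Submodule ℂ R} {QS : Submodule ℂ Q}
    (hsq : ∀ a ∈ CR, D (E a) = 0) (hin : ∀ a ∈ CR, E a ∈ CP)
    (hbig : ∀ h₀ ∈ CP, ∀ h₁ ∈ CP, LP u₀ h₀ + LP u₁ h₁ ∈ CB)
    (hlow : ∀ δ ∈ CB, D δ ∈ QS → ∃ a ∈ CR, ∃ b ∈ CR, δ - E (LR u₀ a + LR u₁ b) ∈ CS)
    {c₀ c₁ : Q} (hc : LQ u₀ c₀ + LQ u₁ c₁ ∈ QS) {h₀ h₁ : P} (m₀ : h₀ ∈ CP) (m₁ : h₁ ∈ CP)
    (e₀ : D h₀ = c₀) (e₁ : D h₁ = c₁) :
    ∃ k₀ ∈ CP, ∃ k₁ ∈ CP, D k₀ = c₀ ∧ D k₁ = c₁ ∧ LP u₀ k₀ + LP u₁ k₁ ∈ CS := by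
  obtain ⟨a, ha, b, hb, hab⟩ := hlow _ (hbig h₀ m₀ h₁ m₁) (by rwa [map_add, hD, hD, e₀, e₁])
  refine ⟨h₀ - E a, sub_mem m₀ (hin a ha), h₁ - E b, sub_mem m₁ (hin b hb),
    by rw [map_sub, hsq a ha, sub_zero, e₀], by rw [map_sub, hsq b hb, sub_zero, e₁], ?_⟩
  rw [map_sub, map_sub, ← hE, ← hE, sub_add_sub_comm, ← map_add]
  exact hab

variable {CP : ℤ → ℤ → Submodule ℂ P} {CQ : ℤ → ℤ → Submodule ℂ Q} {s t : ℤ}

theorem comb_eq {L : Op → P →ₗ[ℂ] P} (L1 : ∀ h, L 1 h = h) (L0 : ∀ h, L 0 h = 0)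
    (c : Fin 7 → P) (g : Fin 9) :
    ∑ r, L (gen g r) (c r) = ![c 0, c 1, c 2, c 3, c 4, c 5, c 6, L (d 0) (c 1) + L (d 1) (c 2),
      L (x 0) (c 3) + L (x 1) (c 4)] g := by
  fin_cases g <;> simp [gen, Fin.sum_univ_seven, L1, L0]

theorem mem_Vert_iff {L : Op → P →ₗ[ℂ] P} (L1 : ∀ h, L 1 h = h) (L0 : ∀ h, L 0 h = 0)
    {c : Fin 7 → P} : c ∈ Vert L CP s t ↔
      c 0 ∈ CP s t ∧ (c 1 ∈ CP s t ∧ c 2 ∈ CP s t ∧
        L (d 0) (c 1) + L (d 1) (c 2) ∈ CP (s - 1) t) ∧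
      (c 3 ∈ CP s t ∧ c 4 ∈ CP s t ∧ L (x 0) (c 3) + L (x 1) (c 4) ∈ CP (s + 1) (t - 1)) ∧
      c 5 ∈ CP s (t - 1) ∧ c 6 ∈ CP s (t - 2) := by
  have ew : ∀ g, gw g + s = ![s, s, s, s, s, s, s, s - 1, s + 1] g ∧
      gn g + t = ![t, t, t, t, t, t - 1, t - 2, t, t - 1] g := by
    intro g
    fin_cases g <;> simp [gw, gn] <;> omega
  simp only [mem_Vert, comb_eq L1 L0, fun g => (ew g).1, fun g => (ew g).2]
  constructor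
  · intro h
    exact ⟨by simpa using h 0, ⟨by simpa using h 1, by simpa using h 2, by simpa using h 7⟩,
      ⟨by simpa using h 3, by simpa using h 4, by simpa using h 8⟩, by simpa using h 5,
      by simpa using h 6⟩
  · rintro ⟨h0, ⟨h1, h2, h7⟩, ⟨h3, h4, h8⟩, h5, h6⟩ g
    fin_cases g <;> simp [h0, h1, h2, h3, h4, h5, h6, h7, h8]

/-- Seven rows lift when single rows and the two doublets do. -/
theorem vert_lift (LP1 : ∀ h, LP 1 h = h) (LP0 : ∀ h, LP 0 h = 0) (LQ1 : ∀ h, LQ 1 h = h)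
    (LQ0 : ∀ h, LQ 0 h = 0) (Z : Q → Prop)
    (row : ∀ n, n = t ∨ n = t - 1 ∨ n = t - 2 →
      ∀ c ∈ CQ s n, Z c → ∃ h ∈ CP s n, D h = c)
    (pairD : ∀ c₀ c₁ h₀ h₁, LQ (d 0) c₀ + LQ (d 1) c₁ ∈ CQ (s - 1) t → h₀ ∈ CP s t →
      h₁ ∈ CP s t → D h₀ = c₀ → D h₁ = c₁ → ∃ k₀ ∈ CP s t, ∃ k₁ ∈ CP s t, D k₀ = c₀ ∧
        D k₁ = c₁ ∧ LP (d 0) k₀ + LP (d 1) k₁ ∈ CP (s - 1) t)
    (pairX : ∀ c₀ c₁ h₀ h₁, LQ (x 0) c₀ + LQ (x 1) c₁ ∈ CQ (s + 1) (t - 1) → h₀ ∈ CP s t →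
      h₁ ∈ CP s t → D h₀ = c₀ → D h₁ = c₁ → ∃ k₀ ∈ CP s t, ∃ k₁ ∈ CP s t, D k₀ = c₀ ∧
        D k₁ = c₁ ∧ LP (x 0) k₀ + LP (x 1) k₁ ∈ CP (s + 1) (t - 1))
    {c : Fin 7 → Q} (hc : c ∈ Vert LQ CQ s t) (hz : ∀ r, Z (c r)) :
    ∃ h ∈ Vert LP CP s t, ∀ r, D (h r) = c r := by
  obtain ⟨c0, ⟨c1, c2, c7⟩, ⟨c3, c4, c8⟩, c5, c6⟩ := (mem_Vert_iff LQ1 LQ0).1 hc
  obtain ⟨h0, m0, e0⟩ := row t (Or.inl rfl) _ c0 (hz 0)
  obtain ⟨h5, m5, e5⟩ := row _ (Or.inr (Or.inl rfl)) _ c5 (hz 5)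
  obtain ⟨h6, m6, e6⟩ := row _ (Or.inr (Or.inr rfl)) _ c6 (hz 6)
  obtain ⟨g1, n1, f1⟩ := row t (Or.inl rfl) _ c1 (hz 1)
  obtain ⟨g2, n2, f2⟩ := row t (Or.inl rfl) _ c2 (hz 2)
  obtain ⟨g3, n3, f3⟩ := row t (Or.inl rfl) _ c3 (hz 3)
  obtain ⟨g4, n4, f4⟩ := row t (Or.inl rfl) _ c4 (hz 4)
  obtain ⟨h1, m1, h2, m2, e1, e2, m7⟩ := pairD _ _ g1 g2 c7 n1 n2 f1 f2
  obtain ⟨h3, m3, h4, m4, e3, e4, m8⟩ := pairX _ _ g3 g4 c8 n3 n4 f3 f4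
  refine ⟨![h0, h1, h2, h3, h4, h5, h6], (mem_Vert_iff LP1 LP0).2
    ⟨m0, ⟨m1, m2, m7⟩, ⟨m3, m4, m8⟩, m5, m6⟩, fun r => ?_⟩
  fin_cases r <;> assumption

end Abstract

theorem lmF_one (U : Fam) : lmF 1 U = U := funext fun _ => one_mul _
theorem lmF_zero (U : Fam) : lmF 0 U = 0 := funext fun _ => zero_mul _
theorem lmH_one (H : PH) : lmH 1 H = H := funext fun _ => funext fun _ => lmF_one _
theorem lmH_zero (H : PH) : lmH 0 H = 0 := funext fun _ => funext fun _ => lmF_zero _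
theorem lmQ_one (z : PQ) : lmQ 1 z = z :=
  Prod.ext (funext fun _ => lmF_one _) (funext fun _ => lmF_one _)
theorem lmQ_zero (z : PQ) : lmQ 0 z = 0 :=
  Prod.ext (funext fun _ => lmF_zero _) (funext fun _ => lmF_zero _)

variable {j : ℕ} {a b w n w' n' : ℤ} {u : Op}

theorem lm_mem_C₁ (hu : u ∈ fil a b) {H : PH} (h : H ∈ C₁ j w n) (hw : a + w = w')
    (hn : b + n ≤ n') : lmH u H ∈ C₁ j w' n' := by
  subst hw
  rw [mem_C₁] at h ⊢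
  exact ⟨fun i k => mapc_mem (LinearMap.mulLeft ℂ u) (h.deg i k), fun i k => mem_valued.2 fun p =>
    fil_mono (by omega) (Weyl.mul_mem hu (mem_valued.1 (h.lev i k) p))⟩

theorem lm_mem_C₂ (hu : u ∈ fil a b) {z : PQ} (h : z ∈ C₂ j w n) (hw : a + w = w')
    (hn : b + n ≤ n') : lmQ u z ∈ C₂ j w' n' :=
  ⟨fun l => mapc_mem (LinearMap.mulLeft ℂ u) (h.degX l),
    fun l => down_iff.2 fun p hp => by rw [lmQ_snd, lmF_apply, down_iff.1 (h.degD l) p hp, mul_zero],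
    fun p => mul_mem_latX hu (h.levX p) hw hn, fun p => mul_mem_latD hu (h.levD p) hw hn⟩

theorem lm_mem_C₃ (hu : u ∈ fil a b) {G : Fam} (h : G ∈ C₃ j w n) (hw : a + w = w')
    (hn : b + n ≤ n') : lmF u G ∈ C₃ j w' n' :=
  ⟨mapc_mem (LinearMap.mulLeft ℂ u) h.1, mem_valued.2 fun p => by
    subst hw; exact fil_mono hn (Weyl.mul_mem hu (mem_valued.1 h.2 p))⟩

theorem δ₂_mem {z : PQ} (h : z ∈ C₂ j w n) : δ₂ j z ∈ C₁ j w n := mem_C₁.2 h.levelD₂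

theorem δ₃_mem {G : Fam} (h : G ∈ C₃ j w n) : δ₃ j G ∈ C₂ j w n := by
  rcases lt_or_ge n 0 with hn | hn
  · have : G = 0 := funext fun p => by
      have := mem_valued.1 h.2 p
      rwa [fil_neg hn, Submodule.mem_bot] at this
    rw [this, map_zero]
    exact zero_mem _
  · obtain ⟨N, rfl⟩ : ∃ N : ℕ, n = N := ⟨n.toNat, (Int.toNat_of_nonneg hn).symm⟩
    exact D₃_mem h.1 h.2

theorem δ₁_δ₂ {z : PQ} (h : z ∈ C₂ j w n) : δ₁ (δ₂ j z) = 0 := by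
  have e : δ₂ j z = D₂X j z.1 + D₂D j z.2 := funext fun i => funext fun k => rfl
  rw [e, map_add, δ₁_apply, δ₁_apply, D₁_D₂X h.degX, D₁_D₂D h.degD, add_zero]

theorem δ₂_δ₃ {G : Fam} (h : G ∈ C₃ j w n) : δ₂ j (δ₃ j G) = 0 :=
  funext fun i => funext fun k => D₂_D₃ h.1 i k

theorem δ₁_lowerable {N : ℕ} (ha : 0 ≤ w + N) {δ : PH} (h : δ ∈ C₁ j w N)
    (hD : δ₁ δ ∈ C₀ j w ((N : ℤ) - 1)) :
    ∃ z ∈ C₂ j w N, δ - δ₂ j z ∈ C₁ j w ((N : ℤ) - 1) := by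
  have hD' : D₁ δ ∈ valued (fil w ((N : ℤ) + 1)) := by
    have := hD.2
    rwa [show (N : ℤ) - 1 + 2 = N + 1 by ring] at this
  obtain ⟨s, r, hQ, hH⟩ := lower₁ ha (n := N) (by push_cast; exact mem_C₁.1 h) hD'
  exact ⟨(s, r), hQ, mem_C₁.2 (by rw [sub_add_cancel]; exact hH)⟩

theorem δ₂_lowerable {N : ℕ} {δ : PQ} (h : δ ∈ C₂ j w N) (hD : δ₂ j δ ∈ C₁ j w ((N : ℤ) - 1)) :
    ∃ G ∈ C₃ j w N, δ - δ₃ j G ∈ C₂ j w ((N : ℤ) - 1) := by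
  have hD' := (mem_C₁.1 hD).lev
  rw [sub_add_cancel] at hD'
  obtain ⟨G, hGf, hG, hQ⟩ := lower₂ h hD'
  exact ⟨G, ⟨hGf, hG⟩, hQ⟩

/-- The last differential sees the top symbol. -/
theorem δ₃_lowerable {N : ℕ} {G : Fam} (h : G ∈ C₃ j w N) (hD : δ₃ j G ∈ C₂ j w ((N : ℤ) - 1)) :
    G ∈ C₃ j w ((N : ℤ) - 1) := by
  obtain ⟨hΦ, hc⟩ := sy₀_D₃X j h.2
  set g := sy₀ N G with hg
  have hz : ∀ p, X (.inr 0) * xx 0 g p + X (.inr 1) * xx 1 g p = 0 := fun p => by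
    have e := congrFun (hΦ 0) p
    have l := mem_valued.1 (hD.levX.entry 0) p
    rw [δ₃_apply, sub_add_cancel] at l
    rw [sy₀_apply, symb_eq_zero_of_lt l (by push_cast; omega)] at e
    simp [rm_apply, Fin.sum_univ_two] at e
    linear_combination -e
  have hk : ∀ p, X (.inl 1) * xx 0 g p - X (.inl 0) * xx 1 g p = 0 := fun p => by
    have l := mem_valued.1 hD.levX.con p
    rw [δ₃_apply] at l
    have e := congrArg (sy₀ N) hc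
    rw [map_smul, map_sub, sy₀_rm_x (valued_xx 0 h.2), sy₀_rm_x (valued_xx 1 h.2)] at e
    simp only [sy₀, mapc_xx] at e
    have e' := congrFun e p
    rw [mapc_apply, symb_eq_zero_of_lt l (by omega)] at e'
    have hj : ((j : ℂ) + 1) ≠ 0 := by exact_mod_cast Nat.succ_ne_zero j
    have e'' := (smul_eq_zero.1 e'.symm).resolve_left hj
    simp only [Pi.sub_apply, rm_apply] at e''
    rw [hg, sy₀]
    linear_combination e''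
  have hne : (X (.inl 0) * X (.inr 0) + X (.inl 1) * X (.inr 1) : Sym) ≠ 0 := by
    intro h0
    have := congrArg (eval fun i : Fin 2 ⊕ Fin 2 => match i with
      | .inl 0 => (1 : ℂ) | .inl 1 => 0 | .inr 0 => 1 | .inr 1 => 0) h0
    simp at this
  refine ⟨h.1, mem_valued.2 fun q => (symb_eq_zero_iff (mem_valued.1 h.2 q)).1 ?_⟩
  have e0 : xx 0 g (q + Finsupp.single 0 1) = g q := by simp [xx_apply]
  have := hz (q + Finsupp.single 0 1)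
  have := hk (q + Finsupp.single 0 1)
  have e : (X (.inl 0) * X (.inr 0) + X (.inl 1) * X (.inr 1) : Sym) * g q = 0 := by
    rw [← e0]
    linear_combination (X (.inl 0)) * hz (q + Finsupp.single 0 1) +
      (X (.inr 1)) * hk (q + Finsupp.single 0 1)
  exact (mul_eq_zero.1 e).resolve_left hne

variable {s t : ℤ}

theorem natLevel {n : ℤ} (h : 0 ≤ n) : ∃ N : ℕ, n = N := ⟨n.toNat, (Int.toNat_of_nonneg h).symm⟩

/-- Exactness of seven rows at the bottom place. -/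
theorem vert_exact₀ (ht : 0 ≤ t) (hst : 0 ≤ s + t) {Z : Fam → Prop}
    (row : ∀ n, n = t ∨ n = t - 1 ∨ n = t - 2 →
      ∀ c ∈ C₀ j s n, Z c → ∃ h ∈ C₁ j s n, δ₁ h = c)
    {c : Fin 7 → Fam} (hc : c ∈ Vert lmF (C₀ j) s t) (hz : ∀ r, Z (c r)) :
    ∃ h ∈ Vert lmH (C₁ j) s t, ∀ r, δ₁ (h r) = c r := by
  refine vert_lift lmH_one lmH_zero lmF_one lmF_zero Z row ?_ ?_ hc hz
  · intro c₀ c₁ h₀ h₁ hc' m₀ m₁ e₀ e₁
    refine pair_lift δ₁_lm (δ₂_lm j) (d 0) (d 1) (CR := C₂ j s t) (CB := C₁ j (s - 1) (t + 1))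
      (fun a ha => δ₁_δ₂ ha) (fun a ha => δ₂_mem ha) (fun k hk k' hk' => add_mem
        (lm_mem_C₁ (d_mem 0 le_rfl) hk (by ring) (by omega))
        (lm_mem_C₁ (d_mem 1 le_rfl) hk' (by ring) (by omega))) ?_ hc' m₀ m₁ e₀ e₁
    intro δ hδ hD
    obtain ⟨N, hN⟩ := natLevel (show 0 ≤ t + 1 by omega)
    have ht' : (N : ℤ) - 1 = t := by omega
    rw [hN] at hδ
    rw [← ht'] at hD
    obtain ⟨z, hz, hz'⟩ := δ₁_lowerable (by omega) hδ hD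
    rw [ht'] at hz'
    rw [← hN] at hz
    obtain ⟨a, ha, b, hb, hab⟩ := C₂_split (d 0) (d 1) (fun u => latX_splitD ht)
      (fun u => latD_splitD ht) hz
    rw [sub_add_cancel] at ha hb
    refine ⟨a, ha, b, hb, ?_⟩
    have := add_mem hz' (δ₂_mem hab)
    rwa [map_sub, sub_add_sub_cancel] at this
  · intro c₀ c₁ h₀ h₁ hc' m₀ m₁ e₀ e₁
    refine pair_lift δ₁_lm (δ₂_lm j) (x 0) (x 1) (CR := C₂ j s t) (CB := C₁ j (s + 1) t)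
      (fun a ha => δ₁_δ₂ ha) (fun a ha => δ₂_mem ha) (fun k hk k' hk' => add_mem
        (lm_mem_C₁ (x_mem 0 le_rfl) hk (by ring) (by omega))
        (lm_mem_C₁ (x_mem 1 le_rfl) hk' (by ring) (by omega))) ?_ hc' m₀ m₁ e₀ e₁
    intro δ hδ hD
    obtain ⟨N, rfl⟩ := natLevel ht
    obtain ⟨z, hz, hz'⟩ := δ₁_lowerable (by omega) hδ hD
    obtain ⟨a, ha, b, hb, hab⟩ := C₂_split (x 0) (x 1) (fun u => latX_splitX (by omega))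
      (fun u => latD_splitX (by omega)) hz
    rw [add_sub_cancel_right] at ha hb
    refine ⟨a, ha, b, hb, ?_⟩
    have := add_mem hz' (δ₂_mem hab)
    rwa [map_sub, sub_add_sub_cancel] at this

/-- Exactness of seven rows at the first place. -/
theorem vert_exact₁ (ht : 0 ≤ t) (hst : 0 ≤ s + t)
    (row : ∀ n, n = t ∨ n = t - 1 ∨ n = t - 2 →
      ∀ c ∈ C₁ j s n, δ₁ c = 0 → ∃ h ∈ C₂ j s n, δ₂ j h = c)
    {c : Fin 7 → PH} (hc : c ∈ Vert lmH (C₁ j) s t) (hz : ∀ r, δ₁ (c r) = 0) :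
    ∃ h ∈ Vert lmQ (C₂ j) s t, ∀ r, δ₂ j (h r) = c r := by
  refine vert_lift lmQ_one lmQ_zero lmH_one lmH_zero (δ₁ · = 0) row ?_ ?_ hc hz
  · intro c₀ c₁ h₀ h₁ hc' m₀ m₁ e₀ e₁
    refine pair_lift (δ₂_lm j) (δ₃_lm j) (d 0) (d 1) (CR := C₃ j s t) (CB := C₂ j (s - 1) (t + 1))
      (fun a ha => δ₂_δ₃ ha) (fun a ha => δ₃_mem ha) (fun k hk k' hk' => add_mem
        (lm_mem_C₂ (d_mem 0 le_rfl) hk (by ring) (by omega))
        (lm_mem_C₂ (d_mem 1 le_rfl) hk' (by ring) (by omega))) ?_ hc' m₀ m₁ e₀ e₁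
    intro δ hδ hD
    obtain ⟨N, hN⟩ := natLevel (show 0 ≤ t + 1 by omega)
    have ht' : (N : ℤ) - 1 = t := by omega
    rw [hN] at hδ
    rw [← ht'] at hD
    obtain ⟨z, hz, hz'⟩ := δ₂_lowerable hδ hD
    rw [ht'] at hz'
    rw [← hN] at hz
    obtain ⟨a, ha, b, hb, hab⟩ := C₃_split (d 0) (d 1) (fun u => fil_splitD ht) hz
    rw [sub_add_cancel] at ha hb
    refine ⟨a, ha, b, hb, ?_⟩
    have := add_mem hz' (δ₃_mem hab)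
    rwa [map_sub, sub_add_sub_cancel] at this
  · intro c₀ c₁ h₀ h₁ hc' m₀ m₁ e₀ e₁
    refine pair_lift (δ₂_lm j) (δ₃_lm j) (x 0) (x 1) (CR := C₃ j s t) (CB := C₂ j (s + 1) t)
      (fun a ha => δ₂_δ₃ ha) (fun a ha => δ₃_mem ha) (fun k hk k' hk' => add_mem
        (lm_mem_C₂ (x_mem 0 le_rfl) hk (by ring) (by omega))
        (lm_mem_C₂ (x_mem 1 le_rfl) hk' (by ring) (by omega))) ?_ hc' m₀ m₁ e₀ e₁
    intro δ hδ hD
    obtain ⟨N, rfl⟩ := natLevel ht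
    obtain ⟨z, hz, hz'⟩ := δ₂_lowerable hδ hD
    obtain ⟨a, ha, b, hb, hab⟩ := C₃_split (x 0) (x 1) (fun u => fil_splitX (by omega)) hz
    rw [add_sub_cancel_right] at ha hb
    refine ⟨a, ha, b, hb, ?_⟩
    have := add_mem hz' (δ₃_mem hab)
    rwa [map_sub, sub_add_sub_cancel] at this

/-- Exactness of seven rows at the second place. -/
theorem vert_exact₂ (ht : 0 ≤ t)
    (row : ∀ n, n = t ∨ n = t - 1 ∨ n = t - 2 →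
      ∀ c ∈ C₂ j s n, δ₂ j c = 0 → ∃ h ∈ C₃ j s n, δ₃ j h = c)
    {c : Fin 7 → PQ} (hc : c ∈ Vert lmQ (C₂ j) s t) (hz : ∀ r, δ₂ j (c r) = 0) :
    ∃ h ∈ Vert lmF (C₃ j) s t, ∀ r, δ₃ j (h r) = c r := by
  refine vert_lift lmF_one lmF_zero lmQ_one lmQ_zero (δ₂ j · = 0) row ?_ ?_ hc hz
  · intro c₀ c₁ h₀ h₁ hc' m₀ m₁ e₀ e₁
    obtain ⟨N, hN⟩ := natLevel (show 0 ≤ t + 1 by omega)
    have ht' : (N : ℤ) - 1 = t := by omega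
    refine ⟨h₀, m₀, h₁, m₁, e₀, e₁, ?_⟩
    rw [← ht']
    refine δ₃_lowerable (add_mem (lm_mem_C₃ (d_mem 0 le_rfl) m₀ (by ring) (by omega))
      (lm_mem_C₃ (d_mem 1 le_rfl) m₁ (by ring) (by omega))) ?_
    rwa [map_add, δ₃_lm, δ₃_lm, e₀, e₁, ht']
  · intro c₀ c₁ h₀ h₁ hc' m₀ m₁ e₀ e₁
    obtain ⟨N, rfl⟩ := natLevel ht
    refine ⟨h₀, m₀, h₁, m₁, e₀, e₁, δ₃_lowerable
      (add_mem (lm_mem_C₃ (x_mem 0 le_rfl) m₀ (by ring) (by omega))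
        (lm_mem_C₃ (x_mem 1 le_rfl) m₁ (by ring) (by omega))) ?_⟩
    rwa [map_add, δ₃_lm, δ₃_lm, e₀, e₁]

/-- The last differential is injective on seven rows. -/
theorem vert_injective₃
    (row : ∀ n, n = t ∨ n = t - 1 ∨ n = t - 2 → ∀ c ∈ C₃ j s n, δ₃ j c = 0 → c = 0)
    {c : Fin 7 → Fam} (hc : c ∈ Vert lmF (C₃ j) s t) (hz : ∀ r, δ₃ j (c r) = 0) : c = 0 := by
  obtain ⟨c0, ⟨c1, c2, -⟩, ⟨c3, c4, -⟩, c5, c6⟩ := (mem_Vert_iff lmF_one lmF_zero).1 hc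
  funext r
  fin_cases r
  · exact row t (Or.inl rfl) _ c0 (hz 0)
  · exact row t (Or.inl rfl) _ c1 (hz 1)
  · exact row t (Or.inl rfl) _ c2 (hz 2)
  · exact row t (Or.inl rfl) _ c3 (hz 3)
  · exact row t (Or.inl rfl) _ c4 (hz 4)
  · exact row _ (Or.inr (Or.inl rfl)) _ c5 (hz 5)
  · exact row _ (Or.inr (Or.inr rfl)) _ c6 (hz 6)

end Vale.Agent.P195.Exact
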